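/-
Row 210 (S0432), layer HF (heat flow before the identification), architect helper897.   DEFINITIONS of the layer.
Contract: `git show origin/helper928:docs/R210_wave2.md` (section HF);  design + proofs: `git show origin/helper897:docs/R210_HF.md`.
Everything is written at the level of FUNCTIONS `X → ℝ` (with `MemLp f 2 m`), integrals `∫ x, f x * g x ∂m`, and the frozen `cheegerEnergy m`.
   `Ch f = cheegerEnergy m f`,   `E(f,g) = hf_E m f g` (`= HS.bil (ChL2 m)` of the classes, so `E(f,f) = 2 Ch f`),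
   `J_δ f = Defs2.resF m δ f`,   `H_t f = Defs2.heatF m t f`,   `ζ = dist · o`,
   `‖e^{aζ} f‖² = hf_wn m o a f ∈ [0,∞]`.
-/
import Claimed.Agent.R210.Defs2

set_option autoImplicit false

open Claims.C0366 Claims.C0366.WeakHessian
open Claimed.Agent.R210.Defs Claimed.Agent.R210.Defs2 Claimed.Agent.R210.HS.Defs
open Set Filter MeasureTheory
open scoped ENNReal NNReal Topology

namespace Claimed.Agent.R210.HF.Defs

noncomputable section

open scoped Classical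

variable {X : Type*} [MetricSpace X] [MeasurableSpace X] [BorelSpace X]

/-- the form domain: `f ∈ L²` with finite Cheeger energy. -/
def hf_Dom (m : Measure X) (f : X → ℝ) : Prop := MemLp f 2 m ∧ cheegerEnergy m f < ∞

/-- the bilinear form `E(f,g)` at the level of functions (`E(f,f) = 2 Ch f`; `0` if `f` or `g` is not in `L²`). -/
def hf_E (m : Measure X) (f g : X → ℝ) : ℝ :=
  if h : MemLp f 2 m ∧ MemLp g 2 m then bil (ChL2 m) (h.1.toLp f) (h.2.toLp g) else 0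

/-- weighted `L²` norm squared `∫ e^{2 a ζ} f² dm ∈ [0,∞]`. -/
def hf_wn (m : Measure X) (o : X) (a : ℝ) (f : X → ℝ) : ℝ≥0∞ :=
  ∫⁻ x, ENNReal.ofReal (Real.exp (2 * a * dist x o) * f x ^ 2) ∂m

/-- truncated weight `min (e^{a ζ}) n` (bounded, Lipschitz, `localSlope ≤ a * hf_w`). -/
def hf_w (o : X) (a : ℝ) (n : ℕ) (x : X) : ℝ := min (Real.exp (a * dist x o)) n

/-- cut-off: `1` on `ζ ≤ R`, `0` on `ζ ≥ R + 1`, 1-Lipschitz. -/
def hf_chi (o : X) (R : ℝ) (x : X) : ℝ := max 0 (min 1 (R + 1 - dist x o))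

/-- the real valued local slope. -/
def hf_sl (u : X → ℝ) (x : X) : ℝ := (localSlope u x).toReal

/-! ### the one-dimensional functions of the entropy computation (`η > 0`)
All of them are primitives of continuous bounded functions, so that they are `C¹` on the whole line with bounded derivative. -/

/-- `φ_η' (y) = 1/(y⁺ + η)`. -/
def hf_dphi (η y : ℝ) : ℝ := (max y 0 + η)⁻¹

/-- `φ_η (z) = log (z + η) - log η` for `z ≥ 0`, linear for `z ≤ 0`. -/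
def hf_phi (η z : ℝ) : ℝ := ∫ y in (0 : ℝ)..z, hf_dphi η y

/-- `e_η (z) = ∫_0^z φ_η`. -/
def hf_e (η z : ℝ) : ℝ := ∫ y in (0 : ℝ)..z, hf_phi η y

/-- `ψ_η' (y) = 1/(2 √(y⁺ + η))`. -/
def hf_dpsi (η y : ℝ) : ℝ := (2 * Real.sqrt (max y 0 + η))⁻¹

/-- `ψ_η (z) = √(z + η) - √η` for `z ≥ 0`, linear for `z ≤ 0`. -/
def hf_psi (η z : ℝ) : ℝ := ∫ y in (0 : ℝ)..z, hf_dpsi η y

/-- derivative of the truncated square: `2 * clamp y (-b) b`. -/
def hf_dsq (b y : ℝ) : ℝ := 2 * max (-b) (min b y)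

/-- truncated square: `z²` for `|z| ≤ b`, linear outside. -/
def hf_sq (b z : ℝ) : ℝ := ∫ y in (0 : ℝ)..z, hf_dsq b y

/-! ### what HF uses of the layer RS (relaxed slopes), as ONE package
`rs f` = minimal relaxed slope of `f`,   `Rel f G` = "`G` is a relaxed slope of `f`".
All leaves of HF take `(R : hf_RS m rs Rel)` as a hypothesis;  the instance is provided in `HF/Need.lean`. -/

structure hf_RS (m : Measure X) (rs : (X → ℝ) → X → ℝ) (Rel : (X → ℝ) → (X → ℝ) → Prop) : Prop where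
  /-- RS6 -/
  qform : QForm (ChL2 m)
  /-- RS1 -/
  ch_congr : ∀ f g : X → ℝ, f =ᵐ[m] g → cheegerEnergy m f = cheegerEnergy m g
  /-- a relaxed slope is a nonnegative `L²` function, of an `L²` function -/
  rel_memLp : ∀ f G, Rel f G → MemLp f 2 m ∧ MemLp G 2 m ∧ ∀ᵐ x ∂m, 0 ≤ G x
  /-- RS2 -/
  rel_ch : ∀ f G, Rel f G → cheegerEnergy m f ≤ ENNReal.ofReal (1 / 2 * ∫ x, G x ^ 2 ∂m)
  /-- RS2 -/
  rel_rs : ∀ f, hf_Dom m f → Rel f (rs f)
  /-- RS2 -/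
  ch_eq : ∀ f, hf_Dom m f → cheegerEnergy m f = ENNReal.ofReal (1 / 2 * ∫ x, rs f x ^ 2 ∂m)
  /-- RS4' (pointwise minimality) -/
  rs_le : ∀ f G, Rel f G → ∀ᵐ x ∂m, rs f x ≤ G x
  rel_congr : ∀ f f' G G', f =ᵐ[m] f' → G =ᵐ[m] G' → Rel f G → Rel f' G'
  rel_mono : ∀ f G G', Rel f G → MemLp G' 2 m → (∀ᵐ x ∂m, G x ≤ G' x) → Rel f G'
  /-- definition of relaxed slopes -/
  rel_lip : ∀ g G, GloballyLipschitz g → MemLp g 2 m → MemLp G 2 m → (∀ᵐ x ∂m, 0 ≤ G x) →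
    (∀ᵐ x ∂m, localSlope g x ≤ ENNReal.ofReal (G x)) → Rel g G
  /-- RS5, chain rule -/
  rel_chain : ∀ (ψ ψ' : ℝ → ℝ) (L : ℝ), (∀ z, HasDerivAt ψ (ψ' z) z) → Continuous ψ' → (∀ z, |ψ' z| ≤ L) → ψ 0 = 0 →
    ∀ f G, Rel f G → Rel (fun x => ψ (f x)) (fun x => |ψ' (f x)| * G x)
  /-- RS5, contractions -/
  ch_contr : ∀ ψ : ℝ → ℝ, LipschitzWith 1 ψ → ψ 0 = 0 → ∀ f, MemLp f 2 m →
    cheegerEnergy m (fun x => ψ (f x)) ≤ cheegerEnergy m f
  /-- RS5, Leibniz rule (`Lg` = any bounded measurable bound of the slope of `g`) -/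
  rel_mul : ∀ (g Lg : X → ℝ) (B : ℝ), GloballyLipschitz g → (∀ x, |g x| ≤ B) → Measurable Lg → (∀ x, |Lg x| ≤ B) →
    (∀ x, 0 ≤ Lg x) → (∀ x, localSlope g x ≤ ENNReal.ofReal (Lg x)) →
    ∀ f G, Rel f G → Rel (fun x => f x * g x) (fun x => |g x| * G x + |f x| * Lg x)
  /-- RS6 (a) -/
  form_le : ∀ u v G, hf_Dom m u → Rel v G → |hf_E m u v| ≤ ∫ x, rs u x * G x ∂m
  /-- RS6 (b) -/
  form_chain : ∀ (φ φ' : ℝ → ℝ) (L : ℝ), (∀ z, HasDerivAt φ (φ' z) z) → Continuous φ' → (∀ z, 0 ≤ φ' z ∧ φ' z ≤ L) →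
    φ 0 = 0 → ∀ u, hf_Dom m u → ∫ x, φ' (u x) * rs u x ^ 2 ∂m ≤ hf_E m u (fun x => φ (u x))
  /-- RS6 (c) -/
  form_mul : ∀ (w Lw : X → ℝ) (B : ℝ), GloballyLipschitz w → (∀ x, 0 ≤ w x ∧ w x ≤ B) → Measurable Lw →
    (∀ x, |Lw x| ≤ B) → (∀ x, 0 ≤ Lw x) → (∀ x, localSlope w x ≤ ENNReal.ofReal (Lw x)) → ∀ u, hf_Dom m u →
    (∫ x, w x ^ 2 * rs u x ^ 2 ∂m) - 2 * ∫ x, |u x| * w x * Lw x * rs u x ∂m ≤ hf_E m u (fun x => u x * w x ^ 2)

end

end Claimed.Agent.R210.HF.Defs
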