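/-
Row 210 (S0432), layer HF, architect helper897.   WHAT HF NEEDS FROM THE UPSTREAM LAYERS  HS (abstract Hilbert space) and RS (relaxed slopes).
Every statement here is a contract item of the master plan (`git show origin/helper928:docs/R210_master.md`, sections HS, RS; amendment RS4' in R210_wave2.md).
The `sorry`s of THIS file are NOT leaves of HF: they are replaced by the exports of `R210/HS/Ifc.lean`, `R210/RS/Ifc.lean` as soon as these are on main (helper897 does that).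
-/
import Claimed.Agent.R210.HF.Defs
import Claimed.Agent.R210.HS.Ifc
import Claimed.Agent.R210.RS.Ifc

set_option autoImplicit false
set_option linter.unusedSectionVars false
set_option linter.unusedVariables false

open Claims.C0366 Claims.C0366.WeakHessian
open Claimed.Agent.R210.Defs Claimed.Agent.R210.Defs2 Claimed.Agent.R210.HS.Defs Claimed.Agent.R210.HF.Defs
open Set Filter MeasureTheory
open scoped ENNReal NNReal Topology RealInnerProductSpace

namespace Claimed.Agent.R210.HF.Need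

/-! ## HS -/

section HS

variable {H : Type*} [NormedAddCommGroup H] [InnerProductSpace ℝ H] [CompleteSpace H] {Q : H → ℝ≥0∞}

/-- HS1 -/
theorem hf_hs_dom_add (hQ : QForm Q) {u v : H} (hu : Q u < ∞) (hv : Q v < ∞) : Q (u + v) < ∞ := by
  exact Claimed.Agent.R210.HS.Ifc.hs_dom_add hQ hu hv

/-- HS1 -/
theorem hf_hs_dom_smul (hQ : QForm Q) (c : ℝ) {u : H} (hu : Q u < ∞) : Q (c • u) < ∞ := by
  exact Claimed.Agent.R210.HS.Ifc.hs_dom_smul hQ c hu

/-- HS1 -/
theorem hf_hs_bil_self (hQ : QForm Q) {u : H} (hu : Q u < ∞) : bil Q u u = 2 * (Q u).toReal := by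
  exact Claimed.Agent.R210.HS.Ifc.hs_bil_self hQ u

/-- HS1 -/
theorem hf_hs_bil_symm (hQ : QForm Q) (u v : H) : bil Q u v = bil Q v u := by
  exact Claimed.Agent.R210.HS.Ifc.hs_bil_comm hQ u v

/-- HS1 -/
theorem hf_hs_bil_add_right (hQ : QForm Q) {u v w : H} (hu : Q u < ∞) (hv : Q v < ∞) (hw : Q w < ∞) :
    bil Q u (v + w) = bil Q u v + bil Q u w := by
  exact Claimed.Agent.R210.HS.Ifc.hs_bil_add_right hQ hu hv hw

/-- HS1 -/
theorem hf_hs_bil_smul_right (hQ : QForm Q) (c : ℝ) {u v : H} (hu : Q u < ∞) (hv : Q v < ∞) :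
    bil Q u (c • v) = c * bil Q u v := by
  exact Claimed.Agent.R210.HS.Ifc.hs_bil_smul_right hQ c hu hv

/-- HS1 (Cauchy-Schwarz) -/
theorem hf_hs_bil_sq_le (hQ : QForm Q) {u v : H} (hu : Q u < ∞) (hv : Q v < ∞) :
    bil Q u v ^ 2 ≤ bil Q u u * bil Q v v := by
  exact Claimed.Agent.R210.HS.Ifc.hs_bil_sq_le hQ hu hv

/-- HS2: the minimiser exists -/
theorem hf_hs_prox_isProx (hQ : QForm Q) {δ : ℝ} (hδ : 0 < δ) (f : H) : IsProx Q δ f (prox Q δ f) := by
  exact Claimed.Agent.R210.HS.Ifc.hs_isProx_prox hQ hδ f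

/-- HS2: the minimiser is unique -/
theorem hf_hs_isProx_unique (hQ : QForm Q) {δ : ℝ} (hδ : 0 < δ) {f u v : H} (hu : IsProx Q δ f u)
    (hv : IsProx Q δ f v) : u = v := by
  exact Claimed.Agent.R210.HS.Ifc.hs_isProx_unique hQ hδ hu hv

/-- HS2: Euler-Lagrange equation -/
theorem hf_hs_prox_gen (hQ : QForm Q) {δ : ℝ} (hδ : 0 < δ) (f : H) :
    IsGen Q (prox Q δ f) (δ⁻¹ • (prox Q δ f - f)) := by
  exact Claimed.Agent.R210.HS.Ifc.hs_prox_isGen hQ hδ f

/-- HS2: converse -/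
theorem hf_hs_eq_prox_of_gen (hQ : QForm Q) {δ : ℝ} (hδ : 0 < δ) {f u : H} (h : IsGen Q u (δ⁻¹ • (u - f))) :
    u = prox Q δ f := by
  exact (Claimed.Agent.R210.HS.Ifc.hs_eq_prox_iff hQ hδ).mpr h

/-- HS2 -/
theorem hf_hs_prox_add (hQ : QForm Q) {δ : ℝ} (hδ : 0 < δ) (f g : H) :
    prox Q δ (f + g) = prox Q δ f + prox Q δ g := by
  exact Claimed.Agent.R210.HS.Ifc.hs_prox_add hQ hδ f g

/-- HS2 -/
theorem hf_hs_prox_smul (hQ : QForm Q) {δ : ℝ} (hδ : 0 < δ) (c : ℝ) (f : H) :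
    prox Q δ (c • f) = c • prox Q δ f := by
  exact Claimed.Agent.R210.HS.Ifc.hs_prox_smul hQ hδ c f

/-- HS2 -/
theorem hf_hs_prox_symm (hQ : QForm Q) {δ : ℝ} (hδ : 0 < δ) (f g : H) :
    ⟪prox Q δ f, g⟫ = ⟪f, prox Q δ g⟫ := by
  exact Claimed.Agent.R210.HS.Ifc.hs_prox_symm hQ hδ f g

/-- HS2 -/
theorem hf_hs_prox_norm_le (hQ : QForm Q) {δ : ℝ} (hδ : 0 < δ) (f : H) : ‖prox Q δ f‖ ≤ ‖f‖ := by
  exact Claimed.Agent.R210.HS.Ifc.hs_prox_norm_le hQ hδ f

/-- HS2 -/
theorem hf_hs_prox_Q_le (hQ : QForm Q) {δ : ℝ} (hδ : 0 < δ) (f : H) : Q (prox Q δ f) ≤ Q f := by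
  exact Claimed.Agent.R210.HS.Ifc.hs_Q_prox_le hQ hδ f

/-- HS3: the exponential formula converges -/
theorem hf_hs_flow_tendsto (hQ : QForm Q) {t : ℝ} (ht : 0 < t) (f : H) :
    Tendsto (fun n : ℕ => (prox Q (t / (n + 1)))^[n + 1] f) atTop (𝓝 (flow Q t f)) := by
  exact Claimed.Agent.R210.HS.Ifc.hs_flow_tendsto hQ ht f

/-- HS3 -/
theorem hf_hs_flow_add (hQ : QForm Q) {s t : ℝ} (hs : 0 ≤ s) (ht : 0 ≤ t) (f : H) :
    flow Q (s + t) f = flow Q s (flow Q t f) := by
  exact Claimed.Agent.R210.HS.Ifc.hs_flow_add hQ hs ht f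

/-- HS3 -/
theorem hf_hs_flow_add_vec (hQ : QForm Q) (t : ℝ) (f g : H) : flow Q t (f + g) = flow Q t f + flow Q t g := by
  exact Claimed.Agent.R210.HS.Ifc.hs_flow_map_add hQ t f g

/-- HS3 -/
theorem hf_hs_flow_smul (hQ : QForm Q) (t : ℝ) (c : ℝ) (f : H) : flow Q t (c • f) = c • flow Q t f := by
  exact Claimed.Agent.R210.HS.Ifc.hs_flow_map_smul hQ t c f

/-- HS3 -/
theorem hf_hs_flow_symm (hQ : QForm Q) (t : ℝ) (f g : H) : ⟪flow Q t f, g⟫ = ⟪f, flow Q t g⟫ := by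
  exact Claimed.Agent.R210.HS.Ifc.hs_flow_symm hQ t f g

/-- HS3 -/
theorem hf_hs_flow_norm_le (hQ : QForm Q) (t : ℝ) (f : H) : ‖flow Q t f‖ ≤ ‖f‖ := by
  exact Claimed.Agent.R210.HS.Ifc.hs_flow_norm_le hQ t f

/-- HS3 (`flow Q t f = f` for `t ≤ 0`, so the curve is continuous on the whole line) -/
theorem hf_hs_flow_continuous (hQ : QForm Q) (f : H) : Continuous (fun t : ℝ => flow Q t f) := by
  exact Claimed.Agent.R210.HS.Ifc.hs_flow_continuous hQ f

/-- HS3: for `t > 0` the flow is in the domain of the generator and differentiable in `H` -/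
theorem hf_hs_flow_gen (hQ : QForm Q) {t : ℝ} (ht : 0 < t) (f : H) :
    ∃ w : H, IsGen Q (flow Q t f) w ∧ HasDerivAt (fun s : ℝ => flow Q s f) w t := by
  exact ⟨_, Claimed.Agent.R210.HS.Ifc.hs_isGen_flow_gen hQ ht f, Claimed.Agent.R210.HS.Ifc.hs_flow_hasDerivAt hQ ht f⟩

/-- HS3 -/
theorem hf_hs_flow_Q_anti (hQ : QForm Q) {s t : ℝ} (hs : 0 ≤ s) (hst : s ≤ t) (f : H) :
    Q (flow Q t f) ≤ Q (flow Q s f) := by
  exact Claimed.Agent.R210.HS.Ifc.hs_Q_flow_anti hQ f hst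

end HS

/-! ## RS -/

section RS

variable {X : Type*} [MetricSpace X] [MeasurableSpace X] [BorelSpace X] [CompleteSpace X]
  [TopologicalSpace.SeparableSpace X]

/-- `C¹` from a continuous derivative. -/
theorem hf_need_contDiff {ψ ψ' : ℝ → ℝ} (h : ∀ z, HasDerivAt ψ (ψ' z) z) (hc : Continuous ψ') :
    ContDiff ℝ 1 ψ ∧ deriv ψ = ψ' := by
  have hd : deriv ψ = ψ' := funext fun z => (h z).deriv
  refine ⟨?_, hd⟩
  rw [contDiff_one_iff_deriv]
  exact ⟨fun z => (h z).differentiableAt, hd ▸ hc⟩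

/-- the real slope is below any real bound of the slope. -/
theorem hf_need_lip_le {g Lg : X → ℝ} (h0 : ∀ x, 0 ≤ Lg x) (h : ∀ x, localSlope g x ≤ ENNReal.ofReal (Lg x)) (x : X) :
    Claimed.Agent.R210.RS.Defs.rs_lip g x ≤ Lg x := by
  have := ENNReal.toReal_mono ENNReal.ofReal_ne_top (h x)
  rwa [ENNReal.toReal_ofReal (h0 x)] at this

/-- `hf_E = rs_E` on `L²`. -/
theorem hf_need_E_eq {m : Measure X} {f g : X → ℝ} (hf : MemLp f 2 m) (hg : MemLp g 2 m) :
    hf_E m f g = Claimed.Agent.R210.RS.Defs.rs_E m f g := by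
  unfold hf_E
  rw [dif_pos ⟨hf, hg⟩]
  exact Claimed.Agent.R210.RS.Ifc.rs_E_toLp hf hg

/-- bounded times `L²`. -/
theorem hf_need_bdd_mul {m : Measure X} {b F : X → ℝ} {B : ℝ} (hb : AEStronglyMeasurable b m) (hB : ∀ x, |b x| ≤ B)
    (hF : MemLp F 2 m) : MemLp (fun x => b x * F x) 2 m := by
  refine (hF.const_mul B).mono (hb.mul hF.aestronglyMeasurable) (Filter.Eventually.of_forall fun x => ?_)
  simp only [norm_mul, Real.norm_eq_abs]
  exact mul_le_mul_of_nonneg_right ((hB x).trans (le_abs_self _)) (abs_nonneg _)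

/-- RS1-RS6, RS4':  the package exists  (`rs = rs_slope m`, `Rel` = "is a relaxed slope"). -/
theorem hf_rs_inst (m : Measure X) (hfin : FiniteOnBoundedSets m) (hq : QuadraticCheegerEnergy m) :
    hf_RS m (Claimed.Agent.R210.RS.Defs.rs_slope m) (Claimed.Agent.R210.RS.Defs.rs_IsRelaxed m) := by
  refine
  { qform := Claimed.Agent.R210.RS.Ifc.rs_qform hfin hq
    ch_congr := fun f g h => Claimed.Agent.R210.RS.Ifc.rs_cheeger_congr h
    rel_memLp := fun f G h => ⟨h.1, h.2.1, Claimed.Agent.R210.RS.Ifc.rs_relaxed_nonneg h⟩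
    rel_ch := ?_
    rel_rs := fun f hf => Claimed.Agent.R210.RS.Ifc.rs_slope_isRelaxed hf.2
    ch_eq := ?_
    rs_le := fun f G h => Claimed.Agent.R210.RS.Ifc.rs_slope_le_of_relaxed h
    rel_congr := fun f f' G G' hf hG h => Claimed.Agent.R210.RS.Ifc.rs_relaxed_congr hf hG h
    rel_mono := fun f G G' h hG' hle => Claimed.Agent.R210.RS.Ifc.rs_relaxed_mono h hG' hle
    rel_lip := ?_
    rel_chain := ?_
    ch_contr := fun ψ hψ h0 f _ => Claimed.Agent.R210.RS.Ifc.rs_cheeger_comp_le hψ h0 f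
    rel_mul := ?_
    form_le := ?_
    form_chain := ?_
    form_mul := ?_ }
  · -- rel_ch
    intro f G h
    have := Claimed.Agent.R210.RS.Ifc.rs_cheeger_le_of_relaxed h
    rwa [show (∫ x, G x ^ 2 ∂m) / 2 = 1 / 2 * ∫ x, G x ^ 2 ∂m by ring] at this
  · -- ch_eq
    intro f hf
    have := Claimed.Agent.R210.RS.Ifc.rs_cheeger_eq hf.2
    rwa [show (∫ x, Claimed.Agent.R210.RS.Defs.rs_slope m f x ^ 2 ∂m) / 2
      = 1 / 2 * ∫ x, Claimed.Agent.R210.RS.Defs.rs_slope m f x ^ 2 ∂m by ring] at this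
  · -- rel_lip
    intro g G hg hg2 hG h0 hs
    refine Claimed.Agent.R210.RS.Ifc.rs_relaxed_of_adm ⟨hg, hg2, hG, ?_⟩
    filter_upwards [h0, hs] with x a b using ⟨a, b⟩
  · -- rel_chain
    intro ψ ψ' L h hc hL h0 f G hR
    obtain ⟨h1, h2⟩ := hf_need_contDiff h hc
    have := Claimed.Agent.R210.RS.Ifc.rs_relaxed_comp h1 (M := L) (by rw [h2]; exact hL) h0 hR
    rwa [h2] at this
  · -- rel_mul
    intro g Lg B hg hgB hLm hLB hL0 hL f G hR
    have h1 := Claimed.Agent.R210.RS.Ifc.rs_relaxed_mul hg ⟨B, hgB⟩ hR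
    obtain ⟨K, hK⟩ := hg
    have hgc : Continuous g := hK.continuous
    refine Claimed.Agent.R210.RS.Ifc.rs_relaxed_mono h1 ?_ (Filter.Eventually.of_forall fun x => ?_)
    · refine MemLp.add (hf_need_bdd_mul (B := B) hgc.abs.aestronglyMeasurable (fun x => by rw [abs_abs]; exact hgB x) hR.2.1) ?_
      have := hf_need_bdd_mul (B := B) hLm.aestronglyMeasurable hLB hR.1.abs
      refine this.congr_norm (hR.1.abs.aestronglyMeasurable.mul hLm.aestronglyMeasurable)
        (Filter.Eventually.of_forall fun x => ?_)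
      simp only [norm_mul, mul_comm]
      rfl
    · show |g x| * G x + |f x| * Claimed.Agent.R210.RS.Defs.rs_lip g x ≤ |g x| * G x + |f x| * Lg x
      have := mul_le_mul_of_nonneg_left (hf_need_lip_le hL0 hL x) (abs_nonneg (f x))
      linarith
  · -- form_le
    intro u v G hu hv
    rw [hf_need_E_eq hu.1 hv.1]
    exact Claimed.Agent.R210.RS.Ifc.rs_E_abs_le hfin hq hu.2 hv
  · -- form_chain
    intro φ φ' L h hc hL h0 u hu
    obtain ⟨h1, h2⟩ := hf_need_contDiff h hc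
    have hM : ∀ t, |deriv φ t| ≤ L := fun t => by
      rw [h2, abs_of_nonneg (hL t).1]
      exact (hL t).2
    have hmono : Monotone φ := monotone_of_deriv_nonneg (fun z => (h z).differentiableAt) (fun z => by rw [h2]; exact (hL z).1)
    have hmem : MemLp (fun x => φ (u x)) 2 m :=
      (Claimed.Agent.R210.RS.Ifc.rs_relaxed_comp h1 hM h0 (Claimed.Agent.R210.RS.Ifc.rs_slope_isRelaxed hu.2)).1
    rw [hf_need_E_eq hu.1 hmem]
    have := Claimed.Agent.R210.RS.Ifc.rs_E_comp_ge hfin hq h1 hmono hM h0 hu.2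
    rwa [h2] at this
  · -- form_mul
    intro w Lw B hw hwB hLm hLB hL0 hL u hu
    have hwabs : ∀ x, |w x| ≤ B := fun x => by rw [abs_of_nonneg (hwB x).1]; exact (hwB x).2
    have h1 := Claimed.Agent.R210.RS.Ifc.rs_E_mul_sq_ge hfin hq hw ⟨B, hwabs⟩ (fun x => (hwB x).1) hu.2
    obtain ⟨K, hK⟩ := hw
    have hwc : Continuous w := hK.continuous
    have hrs2 : MemLp (Claimed.Agent.R210.RS.Defs.rs_slope m u) 2 m := Claimed.Agent.R210.RS.Ifc.rs_slope_memLp m u
    have hmem : MemLp (fun x => u x * w x ^ 2) 2 m := by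
      have := hf_need_bdd_mul (B := B ^ 2) (b := fun x => w x ^ 2) (hwc.pow 2).aestronglyMeasurable
        (fun x => by rw [abs_pow]; exact pow_le_pow_left₀ (abs_nonneg _) (hwabs x) 2) hu.1
      refine this.congr_norm (hu.1.aestronglyMeasurable.mul (hwc.pow 2).aestronglyMeasurable)
        (Filter.Eventually.of_forall fun x => ?_)
      simp only [norm_mul, mul_comm]
    rw [hf_need_E_eq hu.1 hmem]
    have hint : Integrable (fun x => |u x| * w x * Lw x * Claimed.Agent.R210.RS.Defs.rs_slope m u x) m := by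
      have h2 : MemLp (fun x => w x * (Lw x * |u x|)) 2 m :=
        hf_need_bdd_mul (B := B) hwc.aestronglyMeasurable hwabs
          (hf_need_bdd_mul (B := B) hLm.aestronglyMeasurable hLB hu.1.abs)
      refine (h2.integrable_mul hrs2).congr (Filter.Eventually.of_forall fun x => ?_)
      show w x * (Lw x * |u x|) * Claimed.Agent.R210.RS.Defs.rs_slope m u x = _
      ring
    have hle : ∫ x, |u x| * w x * Claimed.Agent.R210.RS.Defs.rs_lip w x * Claimed.Agent.R210.RS.Defs.rs_slope m u x ∂m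
        ≤ ∫ x, |u x| * w x * Lw x * Claimed.Agent.R210.RS.Defs.rs_slope m u x ∂m := by
      refine integral_mono_of_nonneg (Filter.Eventually.of_forall fun x => ?_) hint
        (Filter.Eventually.of_forall fun x => ?_)
      · exact mul_nonneg (mul_nonneg (mul_nonneg (abs_nonneg _) (hwB x).1)
          (Claimed.Agent.R210.RS.Ifc.rs_lip_nonneg w x)) (Claimed.Agent.R210.RS.Ifc.rs_slope_nonneg m u x)
      · exact mul_le_mul_of_nonneg_right (mul_le_mul_of_nonneg_left (hf_need_lip_le hL0 hL x)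
          (mul_nonneg (abs_nonneg _) (hwB x).1)) (Claimed.Agent.R210.RS.Ifc.rs_slope_nonneg m u x)
    linarith

/-- the package exists (the form used by `HF/Ifc.lean`). -/
theorem hf_rs_exists (m : Measure X) (hfin : FiniteOnBoundedSets m) (hq : QuadraticCheegerEnergy m) :
    ∃ (rs : (X → ℝ) → X → ℝ) (Rel : (X → ℝ) → (X → ℝ) → Prop), hf_RS m rs Rel :=
  ⟨_, _, hf_rs_inst m hfin hq⟩

end RS

end Claimed.Agent.R210.HF.Need
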