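/-
Row 210 (S0432), layer HF, architect helper897.   File Basic (HF0): DICTIONARY between `Lp ℝ 2 m` (layer HS: `prox`, `flow`, `bil`, `IsGen` for `Q = ChL2 m`) and FUNCTIONS (`resF`, `heatF`, `hf_E`, `hf_Dom`).
No analysis here: unfold `resF`/`heatF`/`hf_E` (`dif_pos`), use `MemLp.coeFn_toLp`, `Lp.toLp_coeFn`, `Lp.memLp`, `MemLp.toLp_eq_toLp_iff`, `L2.inner_def`, `Lp.norm_toLp`/`eLpNorm`,
`R.ch_congr` (Cheeger energy of a.e. equal functions) and the abstract facts `Need.hf_hs_*` with `hQ := R.qform`.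
Real inner product: `inner ℝ a b = b * a` (`real_inner_eq...`, `simp [mul_comm]`).
-/
import Claimed.Agent.R210.HF.Need

set_option autoImplicit false

open Claims.C0366 Claims.C0366.WeakHessian
open Claimed.Agent.R210.Defs Claimed.Agent.R210.Defs2 Claimed.Agent.R210.HS.Defs Claimed.Agent.R210.HF.Defs
open Claimed.Agent.R210.HF.Need
open Set Filter MeasureTheory
open scoped ENNReal NNReal Topology RealInnerProductSpace

namespace Claimed.Agent.R210.HF.Basic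

variable {X : Type*} [MetricSpace X] [MeasurableSpace X] [BorelSpace X] {m : Measure X}
  {rs : (X → ℝ) → X → ℝ} {Rel : (X → ℝ) → (X → ℝ) → Prop} {f g f' g' u v : X → ℝ} {δ t s c : ℝ}

/-! ### part a: unfolding -/

theorem hf_resF_memLp (m : Measure X) (δ : ℝ) (f : X → ℝ) : MemLp (resF m δ f) 2 m := by
  unfold resF
  split_ifs with h
  · exact Lp.memLp _
  · exact MemLp.zero

theorem hf_heatF_memLp (m : Measure X) (t : ℝ) (f : X → ℝ) : MemLp (heatF m t f) 2 m := by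
  unfold heatF
  split_ifs with h
  · exact Lp.memLp _
  · exact MemLp.zero

theorem hf_resF_eq (h : MemLp f 2 m) (δ : ℝ) : resF m δ f = ⇑(prox (ChL2 m) δ (h.toLp f)) := by
  unfold resF
  rw [dif_pos h]

theorem hf_heatF_eq (h : MemLp f 2 m) (t : ℝ) : heatF m t f = ⇑(flow (ChL2 m) t (h.toLp f)) := by
  unfold heatF
  rw [dif_pos h]

/-- equality of FUNCTIONS (the classes coincide) -/
theorem hf_resF_congr (h : f =ᵐ[m] g) (δ : ℝ) : resF m δ f = resF m δ g := by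
  by_cases hf : MemLp f 2 m
  · have hg : MemLp g 2 m := (memLp_congr_ae h).1 hf
    rw [hf_resF_eq hf, hf_resF_eq hg, (MemLp.toLp_eq_toLp_iff hf hg).2 h]
  · have hg : ¬ MemLp g 2 m := fun hg => hf ((memLp_congr_ae h).2 hg)
    unfold resF
    rw [dif_neg hf, dif_neg hg]

theorem hf_heatF_congr (h : f =ᵐ[m] g) (t : ℝ) : heatF m t f = heatF m t g := by
  by_cases hf : MemLp f 2 m
  · have hg : MemLp g 2 m := (memLp_congr_ae h).1 hf
    rw [hf_heatF_eq hf, hf_heatF_eq hg, (MemLp.toLp_eq_toLp_iff hf hg).2 h]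
  · have hg : ¬ MemLp g 2 m := fun hg => hf ((memLp_congr_ae h).2 hg)
    unfold heatF
    rw [dif_neg hf, dif_neg hg]

theorem hf_resF_toLp (h : MemLp f 2 m) (δ : ℝ) :
    (hf_resF_memLp m δ f).toLp (resF m δ f) = prox (ChL2 m) δ (h.toLp f) := by
  have e := hf_resF_eq h δ
  have h2 : (hf_resF_memLp m δ f).toLp (resF m δ f)
      = (Lp.memLp (prox (ChL2 m) δ (h.toLp f))).toLp ⇑(prox (ChL2 m) δ (h.toLp f)) :=
    (MemLp.toLp_eq_toLp_iff _ _).2 (by rw [e])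
  rw [h2, Lp.toLp_coeFn]

theorem hf_heatF_toLp (h : MemLp f 2 m) (t : ℝ) :
    (hf_heatF_memLp m t f).toLp (heatF m t f) = flow (ChL2 m) t (h.toLp f) := by
  have e := hf_heatF_eq h t
  have h2 : (hf_heatF_memLp m t f).toLp (heatF m t f)
      = (Lp.memLp (flow (ChL2 m) t (h.toLp f))).toLp ⇑(flow (ChL2 m) t (h.toLp f)) :=
    (MemLp.toLp_eq_toLp_iff _ _).2 (by rw [e])
  rw [h2, Lp.toLp_coeFn]

theorem hf_ChL2_toLp (R : hf_RS m rs Rel) (h : MemLp f 2 m) : ChL2 m (h.toLp f) = cheegerEnergy m f :=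
  R.ch_congr _ _ h.coeFn_toLp

theorem hf_E_eq (hf : MemLp f 2 m) (hg : MemLp g 2 m) : hf_E m f g = bil (ChL2 m) (hf.toLp f) (hg.toLp g) := by
  unfold hf_E
  rw [dif_pos ⟨hf, hg⟩]

theorem hf_E_congr (hf : f =ᵐ[m] f') (hg : g =ᵐ[m] g') : hf_E m f g = hf_E m f' g' := by
  by_cases h : MemLp f 2 m ∧ MemLp g 2 m
  · have h1 : MemLp f' 2 m := (memLp_congr_ae hf).1 h.1
    have h2 : MemLp g' 2 m := (memLp_congr_ae hg).1 h.2
    rw [hf_E_eq h.1 h.2, hf_E_eq h1 h2, (MemLp.toLp_eq_toLp_iff h.1 h1).2 hf, (MemLp.toLp_eq_toLp_iff h.2 h2).2 hg]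
  · have h' : ¬ (MemLp f' 2 m ∧ MemLp g' 2 m) := fun hh =>
      h ⟨(memLp_congr_ae hf).2 hh.1, (memLp_congr_ae hg).2 hh.2⟩
    unfold hf_E
    rw [dif_neg h, dif_neg h']

theorem hf_inner_eq (hf : MemLp f 2 m) (hg : MemLp g 2 m) : ⟪hf.toLp f, hg.toLp g⟫ = ∫ x, f x * g x ∂m := by
  rw [L2.inner_def]
  apply integral_congr_ae
  filter_upwards [hf.coeFn_toLp, hg.coeFn_toLp] with x h1 h2
  rw [h1, h2]
  simp [mul_comm]

theorem hf_norm_sq_eq (hf : MemLp f 2 m) : ‖hf.toLp f‖ ^ 2 = ∫ x, f x ^ 2 ∂m := by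
  rw [← real_inner_self_eq_norm_sq, hf_inner_eq hf hf]
  simp only [sq]

/-- `‖[f] - [g]‖` and `eLpNorm` -/
theorem hf_norm_sub_eq (hf : MemLp f 2 m) (hg : MemLp g 2 m) :
    ENNReal.ofReal ‖hf.toLp f - hg.toLp g‖ = eLpNorm (fun x => f x - g x) 2 m := by
  rw [← MemLp.toLp_sub hf hg, Lp.norm_toLp, ENNReal.ofReal_toReal (hf.sub hg).2.ne]
  rfl

/-- products of `L²` functions are integrable -/
theorem hf_integrable_mul (hf : MemLp f 2 m) (hg : MemLp g 2 m) : Integrable (fun x => f x * g x) m :=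
  hf.integrable_mul hg

/-- Cauchy-Schwarz -/
theorem hf_integral_mul_le (hf : MemLp f 2 m) (hg : MemLp g 2 m) :
    |∫ x, f x * g x ∂m| ≤ Real.sqrt (∫ x, f x ^ 2 ∂m) * Real.sqrt (∫ x, g x ^ 2 ∂m) := by
  rw [← hf_inner_eq hf hg, ← hf_norm_sq_eq hf, ← hf_norm_sq_eq hg, Real.sqrt_sq (norm_nonneg _),
    Real.sqrt_sq (norm_nonneg _)]
  exact abs_real_inner_le_norm _ _

/-! ### part b: the form -/

theorem hf_Dom_congr (R : hf_RS m rs Rel) (h : f =ᵐ[m] g) (hf : hf_Dom m f) : hf_Dom m g :=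
  ⟨hf.1.ae_eq h, (R.ch_congr f g h) ▸ hf.2⟩

theorem hf_Dom_add (R : hf_RS m rs Rel) (hf : hf_Dom m f) (hg : hf_Dom m g) : hf_Dom m (fun x => f x + g x) := by
  have h : MemLp (f + g) 2 m := hf.1.add hg.1
  refine ⟨h, ?_⟩
  have e : cheegerEnergy m (f + g) = ChL2 m (hf.1.toLp f + hg.1.toLp g) := by
    rw [← hf_ChL2_toLp R h, ← MemLp.toLp_add]
  show cheegerEnergy m (f + g) < ∞
  rw [e]
  refine hf_hs_dom_add R.qform ?_ ?_
  · rw [hf_ChL2_toLp R hf.1]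
    exact hf.2
  · rw [hf_ChL2_toLp R hg.1]
    exact hg.2

theorem hf_Dom_const_mul (R : hf_RS m rs Rel) (c : ℝ) (hf : hf_Dom m f) : hf_Dom m (fun x => c * f x) := by
  have h : MemLp (c • f) 2 m := hf.1.const_smul c
  refine ⟨h, ?_⟩
  have e : cheegerEnergy m (c • f) = ChL2 m (c • hf.1.toLp f) := by
    rw [← hf_ChL2_toLp R h, ← MemLp.toLp_const_smul]
  show cheegerEnergy m (c • f) < ∞
  rw [e]
  refine hf_hs_dom_smul R.qform c ?_
  rw [hf_ChL2_toLp R hf.1]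
  exact hf.2

theorem hf_Dom_sub (R : hf_RS m rs Rel) (hf : hf_Dom m f) (hg : hf_Dom m g) : hf_Dom m (fun x => f x - g x) := by
  have h := hf_Dom_add R hf (hf_Dom_const_mul R (-1) hg)
  have e : (fun x => f x + -1 * g x) = fun x => f x - g x := by
    funext x
    ring
  rwa [e] at h

theorem hf_E_self (R : hf_RS m rs Rel) (hf : hf_Dom m f) : hf_E m f f = 2 * (cheegerEnergy m f).toReal := by
  have h : ChL2 m (hf.1.toLp f) < ∞ := by
    rw [hf_ChL2_toLp R hf.1]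
    exact hf.2
  rw [hf_E_eq hf.1 hf.1, hf_hs_bil_self R.qform h, hf_ChL2_toLp R hf.1]

/-- `E(f,f) = ∫ rs(f)²` -/
theorem hf_E_self_rs (R : hf_RS m rs Rel) (hf : hf_Dom m f) : hf_E m f f = ∫ x, rs f x ^ 2 ∂m := by
  have h0 : 0 ≤ ∫ x, rs f x ^ 2 ∂m := integral_nonneg fun x => sq_nonneg _
  rw [hf_E_self R hf, R.ch_eq f hf, ENNReal.toReal_ofReal (by positivity)]
  ring

theorem hf_E_symm (R : hf_RS m rs Rel) (f g : X → ℝ) : hf_E m f g = hf_E m g f := by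
  by_cases h : MemLp f 2 m ∧ MemLp g 2 m
  · rw [hf_E_eq h.1 h.2, hf_E_eq h.2 h.1]
    exact hf_hs_bil_symm R.qform _ _
  · have h' : ¬ (MemLp g 2 m ∧ MemLp f 2 m) := fun h2 => h ⟨h2.2, h2.1⟩
    have e1 : hf_E m f g = 0 := dif_neg h
    have e2 : hf_E m g f = 0 := dif_neg h'
    rw [e1, e2]

theorem hf_E_add_right (R : hf_RS m rs Rel) (hu : hf_Dom m u) (hf : hf_Dom m f) (hg : hf_Dom m g) :
    hf_E m u (fun x => f x + g x) = hf_E m u f + hf_E m u g := by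
  have hfg : MemLp (fun x => f x + g x) 2 m := hf.1.add hg.1
  rw [hf_E_eq hu.1 hfg, hf_E_eq hu.1 hf.1, hf_E_eq hu.1 hg.1]
  have e : hfg.toLp (fun x => f x + g x) = hf.1.toLp f + hg.1.toLp g := MemLp.toLp_add hf.1 hg.1
  rw [e]
  exact hf_hs_bil_add_right R.qform (by rw [hf_ChL2_toLp R]; exact hu.2)
    (by rw [hf_ChL2_toLp R]; exact hf.2) (by rw [hf_ChL2_toLp R]; exact hg.2)

theorem hf_E_const_mul_right (R : hf_RS m rs Rel) (c : ℝ) (hu : hf_Dom m u) (hf : hf_Dom m f) :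
    hf_E m u (fun x => c * f x) = c * hf_E m u f := by
  have hcf : MemLp (fun x => c * f x) 2 m := hf.1.const_mul c
  rw [hf_E_eq hu.1 hcf, hf_E_eq hu.1 hf.1]
  have e : hcf.toLp (fun x => c * f x) = c • hf.1.toLp f := MemLp.toLp_const_smul c hf.1
  rw [e]
  exact hf_hs_bil_smul_right R.qform c (by rw [hf_ChL2_toLp R]; exact hu.2)
    (by rw [hf_ChL2_toLp R]; exact hf.2)

theorem hf_E_sq_le (R : hf_RS m rs Rel) (hf : hf_Dom m f) (hg : hf_Dom m g) :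
    hf_E m f g ^ 2 ≤ hf_E m f f * hf_E m g g := by
  rw [hf_E_eq hf.1 hg.1, hf_E_eq hf.1 hf.1, hf_E_eq hg.1 hg.1]
  exact hf_hs_bil_sq_le R.qform (by rw [hf_ChL2_toLp R]; exact hf.2)
    (by rw [hf_ChL2_toLp R]; exact hg.2)

/-- lower semicontinuity of `Ch` along `L²`-convergent sequences of functions (`R.qform.lsc`) -/
theorem hf_ch_lsc (R : hf_RS m rs Rel) {fs : ℕ → X → ℝ} (hfs : ∀ n, MemLp (fs n) 2 m) (hg : MemLp g 2 m)
    (hlim : Tendsto (fun n => eLpNorm (fun x => fs n x - g x) 2 m) atTop (𝓝 0)) :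
    cheegerEnergy m g ≤ liminf (fun n => cheegerEnergy m (fs n)) atTop := by
  have hconv : Tendsto (fun n => (hfs n).toLp (fs n)) atTop (𝓝 (hg.toLp g)) := by
    rw [tendsto_iff_norm_sub_tendsto_zero]
    have h1 : Tendsto (fun n => ENNReal.ofReal ‖(hfs n).toLp (fs n) - hg.toLp g‖) atTop (𝓝 0) := by
      simpa only [hf_norm_sub_eq (hfs _) hg] using hlim
    have h2 := (ENNReal.tendsto_toReal ENNReal.zero_ne_top).comp h1
    simpa [Function.comp_def, ENNReal.toReal_ofReal (norm_nonneg _)] using h2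
  have h3 : ChL2 m (hg.toLp g) ≤ liminf (ChL2 m) (𝓝 (hg.toLp g)) := R.qform.lsc.le_liminf _
  have h4 : liminf (ChL2 m) (𝓝 (hg.toLp g)) ≤ liminf (ChL2 m) (map (fun n => (hfs n).toLp (fs n)) atTop) :=
    liminf_le_liminf_of_le hconv
  have h5 : liminf (ChL2 m) (map (fun n => (hfs n).toLp (fs n)) atTop)
      = liminf (fun n => cheegerEnergy m (fs n)) atTop := by
    rw [liminf, map_map, liminf]
    congr 2
    funext n
    exact hf_ChL2_toLp R (hfs n)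
  rw [← hf_ChL2_toLp R hg, ← h5]
  exact h3.trans h4

/-! ### part c: the resolvent -/

theorem hf_res_dom (R : hf_RS m rs Rel) (hδ : 0 < δ) (hf : MemLp f 2 m) : hf_Dom m (resF m δ f) := by
  refine ⟨hf_resF_memLp m δ f, ?_⟩
  rw [hf_resF_eq hf δ]
  exact (hf_hs_prox_gen R.qform hδ (hf.toLp f)).1

/-- the resolvent equation, weak form -/
theorem hf_res_eq (R : hf_RS m rs Rel) (hδ : 0 < δ) (hf : MemLp f 2 m) (hv : hf_Dom m v) :
    δ * hf_E m (resF m δ f) v + ∫ x, resF m δ f x * v x ∂m = ∫ x, f x * v x ∂m := by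
  have hQV : ChL2 m (hv.1.toLp v) < ∞ := by rw [hf_ChL2_toLp R hv.1]; exact hv.2
  have hgen := (hf_hs_prox_gen R.qform hδ (hf.toLp f)).2 _ hQV
  rw [hf_E_eq (hf_resF_memLp m δ f) hv.1, ← hf_inner_eq (hf_resF_memLp m δ f) hv.1,
    ← hf_inner_eq hf hv.1, hf_resF_toLp hf δ, hgen, inner_smul_left, inner_sub_left]
  simp only [conj_trivial]
  field_simp
  ring

theorem hf_res_unique (R : hf_RS m rs Rel) (hδ : 0 < δ) (hf : MemLp f 2 m) (hu : hf_Dom m u)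
    (h : ∀ v, hf_Dom m v → δ * hf_E m u v + ∫ x, u x * v x ∂m = ∫ x, f x * v x ∂m) :
    u =ᵐ[m] resF m δ f := by
  have hgen : IsGen (ChL2 m) (hu.1.toLp u) (δ⁻¹ • (hu.1.toLp u - hf.toLp f)) := by
    refine ⟨by rw [hf_ChL2_toLp R hu.1]; exact hu.2, fun V hV => ?_⟩
    have hVd : hf_Dom m (V : X → ℝ) := ⟨Lp.memLp V, hV⟩
    have h1 := h _ hVd
    rw [hf_E_eq hu.1 hVd.1, ← hf_inner_eq hu.1 hVd.1, ← hf_inner_eq hf hVd.1, Lp.toLp_coeFn] at h1
    rw [inner_smul_left, inner_sub_left]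
    simp only [conj_trivial]
    have hδ' : δ ≠ 0 := hδ.ne'
    field_simp
    linarith
  have heq := hf_hs_eq_prox_of_gen R.qform hδ hgen
  rw [hf_resF_eq hf δ, ← heq]
  exact hu.1.coeFn_toLp.symm

/-- auxiliary: `‖[f] - [g]‖² = ∫ (f - g)²` -/
theorem hf_norm_sq_sub_eq (hf : MemLp f 2 m) (hg : MemLp g 2 m) :
    ‖hf.toLp f - hg.toLp g‖ ^ 2 = ∫ x, (f x - g x) ^ 2 ∂m := by
  rw [← MemLp.toLp_sub hf hg, hf_norm_sq_eq (hf.sub hg)]
  rfl

/-- `J_δ f` minimises `v ↦ Ch v + ∫ (v - f)² / (2δ)` -/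
theorem hf_res_min (R : hf_RS m rs Rel) (hδ : 0 < δ) (hf : MemLp f 2 m) (hv : MemLp v 2 m) :
    cheegerEnergy m (resF m δ f) + ENNReal.ofReal ((∫ x, (resF m δ f x - f x) ^ 2 ∂m) / (2 * δ))
      ≤ cheegerEnergy m v + ENNReal.ofReal ((∫ x, (v x - f x) ^ 2 ∂m) / (2 * δ)) := by
  have P := hf_hs_prox_isProx R.qform hδ (hf.toLp f) (hv.toLp v)
  rw [← hf_resF_toLp hf δ, hf_ChL2_toLp R (hf_resF_memLp m δ f), hf_ChL2_toLp R hv,
    hf_norm_sq_sub_eq (hf_resF_memLp m δ f) hf, hf_norm_sq_sub_eq hv hf] at P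
  exact P

/-- the minimiser is unique -/
theorem hf_res_min_unique (R : hf_RS m rs Rel) (hδ : 0 < δ) (hf : MemLp f 2 m) (hv : MemLp v 2 m)
    (h : cheegerEnergy m v + ENNReal.ofReal ((∫ x, (v x - f x) ^ 2 ∂m) / (2 * δ))
      ≤ cheegerEnergy m (resF m δ f) + ENNReal.ofReal ((∫ x, (resF m δ f x - f x) ^ 2 ∂m) / (2 * δ))) :
    v =ᵐ[m] resF m δ f := by
  have P := hf_hs_prox_isProx R.qform hδ (hf.toLp f)
  have hV : IsProx (ChL2 m) δ (hf.toLp f) (hv.toLp v) := by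
    intro w
    refine le_trans ?_ (P w)
    rw [← hf_resF_toLp hf δ, hf_ChL2_toLp R (hf_resF_memLp m δ f), hf_ChL2_toLp R hv,
      hf_norm_sq_sub_eq (hf_resF_memLp m δ f) hf, hf_norm_sq_sub_eq hv hf]
    exact h
  have e := hf_hs_isProx_unique R.qform hδ hV P
  rw [← hf_resF_toLp hf δ] at e
  exact (MemLp.toLp_eq_toLp_iff hv (hf_resF_memLp m δ f)).1 e

theorem hf_res_add (R : hf_RS m rs Rel) (hδ : 0 < δ) (hf : MemLp f 2 m) (hg : MemLp g 2 m) :
    resF m δ (fun x => f x + g x) =ᵐ[m] fun x => resF m δ f x + resF m δ g x := by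
  have hfg : MemLp (fun x => f x + g x) 2 m := hf.add hg
  have e : hfg.toLp (fun x => f x + g x) = hf.toLp f + hg.toLp g := MemLp.toLp_add hf hg
  rw [hf_resF_eq hfg, hf_resF_eq hf, hf_resF_eq hg, e, hf_hs_prox_add R.qform hδ]
  exact Lp.coeFn_add _ _

theorem hf_res_const_mul (R : hf_RS m rs Rel) (hδ : 0 < δ) (c : ℝ) (hf : MemLp f 2 m) :
    resF m δ (fun x => c * f x) =ᵐ[m] fun x => c * resF m δ f x := by
  have hcf : MemLp (fun x => c * f x) 2 m := hf.const_mul c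
  have e : hcf.toLp (fun x => c * f x) = c • hf.toLp f := MemLp.toLp_const_smul c hf
  rw [hf_resF_eq hcf, hf_resF_eq hf, e, hf_hs_prox_smul R.qform hδ]
  exact Lp.coeFn_smul _ _

theorem hf_res_symm (R : hf_RS m rs Rel) (hδ : 0 < δ) (hf : MemLp f 2 m) (hg : MemLp g 2 m) :
    ∫ x, resF m δ f x * g x ∂m = ∫ x, f x * resF m δ g x ∂m := by
  rw [← hf_inner_eq (hf_resF_memLp m δ f) hg, ← hf_inner_eq hf (hf_resF_memLp m δ g),
    hf_resF_toLp hf, hf_resF_toLp hg]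
  exact hf_hs_prox_symm R.qform hδ _ _

theorem hf_res_norm_le (R : hf_RS m rs Rel) (hδ : 0 < δ) (hf : MemLp f 2 m) :
    ∫ x, resF m δ f x ^ 2 ∂m ≤ ∫ x, f x ^ 2 ∂m := by
  rw [← hf_norm_sq_eq (hf_resF_memLp m δ f), ← hf_norm_sq_eq hf, hf_resF_toLp hf]
  exact pow_le_pow_left₀ (norm_nonneg _) (hf_hs_prox_norm_le R.qform hδ _) 2

theorem hf_res_ch_le (R : hf_RS m rs Rel) (hδ : 0 < δ) (hf : MemLp f 2 m) :
    cheegerEnergy m (resF m δ f) ≤ cheegerEnergy m f := by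
  rw [← hf_ChL2_toLp R (hf_resF_memLp m δ f), ← hf_ChL2_toLp R hf, hf_resF_toLp hf]
  exact hf_hs_prox_Q_le R.qform hδ _

/-- iterates of `resF m δ` (as a map on functions) are the iterates of `prox` -/
theorem hf_res_iter (hf : MemLp f 2 m) (δ : ℝ) (k : ℕ) :
    (resF m δ)^[k + 1] f = ⇑((prox (ChL2 m) δ)^[k + 1] (hf.toLp f)) := by
  induction k with
  | zero => exact hf_resF_eq hf δ
  | succ k ih =>
    rw [Function.iterate_succ_apply' (resF m δ), ih, hf_resF_eq (Lp.memLp _) δ, Lp.toLp_coeFn,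
      ← Function.iterate_succ_apply' (prox (ChL2 m) δ)]

theorem hf_res_iter_memLp (hf : MemLp f 2 m) (δ : ℝ) (k : ℕ) : MemLp ((resF m δ)^[k] f) 2 m := by
  cases k with
  | zero => exact hf
  | succ k =>
    rw [hf_res_iter hf]
    exact Lp.memLp _

/-! ### part d: the heat flow -/

theorem hf_heat_of_nonpos (ht : t ≤ 0) (hf : MemLp f 2 m) : heatF m t f =ᵐ[m] f := by
  rw [hf_heatF_eq hf t]
  have h : flow (ChL2 m) t (hf.toLp f) = hf.toLp f := by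
    simp only [flow, if_pos ht]
  rw [h]
  exact hf.coeFn_toLp

/-- semigroup law (equality of functions) -/
theorem hf_heat_add (R : hf_RS m rs Rel) (hs : 0 ≤ s) (ht : 0 ≤ t) (hf : MemLp f 2 m) :
    heatF m (s + t) f = heatF m s (heatF m t f) := by
  rw [hf_heatF_eq hf (s + t), hf_heatF_eq (hf_heatF_memLp m t f) s, hf_heatF_toLp hf t,
    hf_hs_flow_add R.qform hs ht]

/-- the exponential formula -/
theorem hf_heat_limit (R : hf_RS m rs Rel) (ht : 0 < t) (hf : MemLp f 2 m) :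
    Tendsto (fun n : ℕ => eLpNorm (fun x => (resF m (t / (n + 1)))^[n + 1] f x - heatF m t f x) 2 m) atTop (𝓝 0) := by
  have h := hf_hs_flow_tendsto R.qform ht (hf.toLp f)
  rw [tendsto_iff_edist_tendsto_0] at h
  refine h.congr (fun n => ?_)
  rw [Lp.edist_def, hf_res_iter hf, hf_heatF_eq hf]
  rfl

theorem hf_heat_add_fun (R : hf_RS m rs Rel) (t : ℝ) (hf : MemLp f 2 m) (hg : MemLp g 2 m) :
    heatF m t (fun x => f x + g x) =ᵐ[m] fun x => heatF m t f x + heatF m t g x := by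
  have hfg : MemLp (fun x => f x + g x) 2 m := hf.add hg
  rw [hf_heatF_eq hfg t, hf_heatF_eq hf t, hf_heatF_eq hg t]
  have e : hfg.toLp (fun x => f x + g x) = hf.toLp f + hg.toLp g := MemLp.toLp_add hf hg
  rw [e, hf_hs_flow_add_vec R.qform]
  exact Lp.coeFn_add _ _

theorem hf_heat_const_mul (R : hf_RS m rs Rel) (t c : ℝ) (hf : MemLp f 2 m) :
    heatF m t (fun x => c * f x) =ᵐ[m] fun x => c * heatF m t f x := by
  have hcf : MemLp (fun x => c * f x) 2 m := hf.const_mul c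
  rw [hf_heatF_eq hcf t, hf_heatF_eq hf t]
  have e : hcf.toLp (fun x => c * f x) = c • hf.toLp f := MemLp.toLp_const_smul c hf
  rw [e, hf_hs_flow_smul R.qform]
  exact Lp.coeFn_smul _ _

theorem hf_heat_symm (R : hf_RS m rs Rel) (t : ℝ) (hf : MemLp f 2 m) (hg : MemLp g 2 m) :
    ∫ x, heatF m t f x * g x ∂m = ∫ x, f x * heatF m t g x ∂m := by
  rw [← hf_inner_eq (hf_heatF_memLp m t f) hg, ← hf_inner_eq hf (hf_heatF_memLp m t g),
    hf_heatF_toLp hf t, hf_heatF_toLp hg t]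
  exact hf_hs_flow_symm R.qform t _ _

theorem hf_heat_norm_le (R : hf_RS m rs Rel) (t : ℝ) (hf : MemLp f 2 m) :
    ∫ x, heatF m t f x ^ 2 ∂m ≤ ∫ x, f x ^ 2 ∂m := by
  rw [← hf_norm_sq_eq (hf_heatF_memLp m t f), ← hf_norm_sq_eq hf, hf_heatF_toLp hf t]
  have h := hf_hs_flow_norm_le R.qform t (hf.toLp f)
  gcongr

theorem hf_heat_dom (R : hf_RS m rs Rel) (ht : 0 < t) (hf : MemLp f 2 m) : hf_Dom m (heatF m t f) := by
  obtain ⟨w, hw, -⟩ := hf_hs_flow_gen R.qform ht (hf.toLp f)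
  refine ⟨hf_heatF_memLp m t f, ?_⟩
  rw [hf_heatF_eq hf t]
  exact hw.1

theorem hf_heat_ch_anti (R : hf_RS m rs Rel) (hs : 0 ≤ s) (hst : s ≤ t) (hf : MemLp f 2 m) :
    cheegerEnergy m (heatF m t f) ≤ cheegerEnergy m (heatF m s f) := by
  rw [hf_heatF_eq hf t, hf_heatF_eq hf s]
  exact hf_hs_flow_Q_anti R.qform hs hst (hf.toLp f)

/-- strong continuity in `L²` (on the whole line: `heatF m t f = f` a.e. for `t ≤ 0`) -/
theorem hf_heat_cont (R : hf_RS m rs Rel) (hf : MemLp f 2 m) (s₀ : ℝ) :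
    Tendsto (fun s => eLpNorm (fun x => heatF m s f x - heatF m s₀ f x) 2 m) (𝓝 s₀) (𝓝 0) := by
  have hc := (hf_hs_flow_continuous R.qform (hf.toLp f)).tendsto s₀
  have h1 : Tendsto (fun s => ‖flow (ChL2 m) s (hf.toLp f) - flow (ChL2 m) s₀ (hf.toLp f)‖) (𝓝 s₀) (𝓝 0) := by
    have := (tendsto_iff_norm_sub_tendsto_zero).1 hc
    exact this
  have h2 := ENNReal.tendsto_ofReal h1
  rw [ENNReal.ofReal_zero] at h2
  refine h2.congr (fun s => ?_)
  rw [← hf_heatF_toLp hf s, ← hf_heatF_toLp hf s₀]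
  exact hf_norm_sub_eq (hf_heatF_memLp m s f) (hf_heatF_memLp m s₀ f)

/-- strong derivative in `L²`:  `L = Δ H_t f` -/
theorem hf_heat_deriv (R : hf_RS m rs Rel) (ht : 0 < t) (hf : MemLp f 2 m) :
    ∃ L : X → ℝ, MemLp L 2 m ∧ (∀ v, hf_Dom m v → hf_E m (heatF m t f) v = -∫ x, L x * v x ∂m) ∧
      Tendsto (fun h : ℝ => eLpNorm (fun x => (heatF m (t + h) f x - heatF m t f x) / h - L x) 2 m) (𝓝[≠] 0) (𝓝 0) := by
  obtain ⟨w, hw, hd⟩ := hf_hs_flow_gen R.qform ht (hf.toLp f)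
  refine ⟨⇑w, Lp.memLp w, ?_, ?_⟩
  · intro v hv
    rw [hf_E_eq (hf_heatF_memLp m t f) hv.1, hf_heatF_toLp hf t]
    have hQv : ChL2 m (hv.1.toLp v) < ∞ := by
      rw [hf_ChL2_toLp R hv.1]; exact hv.2
    rw [hw.2 _ hQv, ← hf_inner_eq (Lp.memLp w) hv.1, Lp.toLp_coeFn]
  · have h0 := hasDerivAt_iff_tendsto_slope_zero.1 hd
    have h1 := (tendsto_iff_norm_sub_tendsto_zero).1 h0
    have h2 := ENNReal.tendsto_ofReal h1
    rw [ENNReal.ofReal_zero] at h2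
    refine h2.congr (fun h => ?_)
    rw [Lp.norm_def, ENNReal.ofReal_toReal (Lp.eLpNorm_ne_top _)]
    refine eLpNorm_congr_ae ?_
    have e1 := Lp.coeFn_sub (h⁻¹ • (flow (ChL2 m) (t + h) (hf.toLp f) - flow (ChL2 m) t (hf.toLp f))) w
    have e2 := Lp.coeFn_smul h⁻¹ (flow (ChL2 m) (t + h) (hf.toLp f) - flow (ChL2 m) t (hf.toLp f))
    have e3 := Lp.coeFn_sub (flow (ChL2 m) (t + h) (hf.toLp f)) (flow (ChL2 m) t (hf.toLp f))
    filter_upwards [e1, e2, e3] with x h1 h2 h3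
    rw [h1, Pi.sub_apply, h2, Pi.smul_apply, h3, Pi.sub_apply, hf_heatF_eq hf (t + h), hf_heatF_eq hf t,
      smul_eq_mul]
    ring

/-- weak derivative -/
theorem hf_heat_deriv_weak (R : hf_RS m rs Rel) (ht : 0 < t) (hf : MemLp f 2 m) (hv : hf_Dom m v) :
    HasDerivAt (fun s => ∫ x, heatF m s f x * v x ∂m) (-hf_E m (heatF m t f) v) t := by
  obtain ⟨w, hw, hd⟩ := hf_hs_flow_gen R.qform ht (hf.toLp f)
  have hQv : ChL2 m (hv.1.toLp v) < ∞ := by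
    rw [hf_ChL2_toLp R hv.1]; exact hv.2
  have h1 : HasDerivAt (fun s => ⟪flow (ChL2 m) s (hf.toLp f), hv.1.toLp v⟫) ⟪w, hv.1.toLp v⟫ t := by
    have := hd.inner ℝ (hasDerivAt_const t (hv.1.toLp v))
    simpa using this
  have e1 : (fun s => ∫ x, heatF m s f x * v x ∂m) =
      fun s => ⟪flow (ChL2 m) s (hf.toLp f), hv.1.toLp v⟫ := by
    funext s
    rw [← hf_inner_eq (hf_heatF_memLp m s f) hv.1, hf_heatF_toLp hf s]
  have e2 : -hf_E m (heatF m t f) v = ⟪w, hv.1.toLp v⟫ := by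
    rw [hf_E_eq (hf_heatF_memLp m t f) hv.1, hf_heatF_toLp hf t, hw.2 _ hQv, neg_neg]
  rw [e1, e2]
  exact h1

end Claimed.Agent.R210.HF.Basic
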