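/-
Row 210 (S0432), layer HF, architect helper897.   File Weight (HF2): WEIGHTED `L²` BOUNDS (Davies-Gaffney / Agmon type) with the weights `e^{a ζ}`, `ζ = dist · o`, `a ≥ 0`.
   `hf_wn m o a f = ∫⁻ e^{2aζ} f²`,     truncated weights `w_n = hf_w o a n = min (e^{aζ}) n`.
MAIN COMPUTATION (`hf_res_w_trunc`).  `u = J_δ f`, `w = w_n`.  Test the resolvent equation (`hf_res_eq`) with `v = u w²`:   `δ E(u, u w²) + ∫ u² w² = ∫ f u w²`.
   `R.form_mul` with `Lw = a w`:  `E(u, u w²) ≥ ∫ w² rs(u)² - 2a ∫ |u| w² rs(u) ≥ (1/2) ∫ w² rs(u)² - 2a² ∫ u² w²`   (`2 a |u| rs ≤ rs²/2 + 2a² u²`).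
Tools: HF/Basic.lean, the package `R`.
-/
import Claimed.Agent.R210.HF.Basic

set_option autoImplicit false

open Claims.C0366 Claims.C0366.WeakHessian
open Claimed.Agent.R210.Defs Claimed.Agent.R210.Defs2 Claimed.Agent.R210.HS.Defs Claimed.Agent.R210.HF.Defs
open Set Filter MeasureTheory
open scoped ENNReal NNReal Topology

open Claimed.Agent.R210.HF.Basic

namespace Claimed.Agent.R210.HF.Weight

variable {X : Type*} [MetricSpace X] [MeasurableSpace X] [BorelSpace X] {m : Measure X}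
  {rs : (X → ℝ) → X → ℝ} {Rel : (X → ℝ) → (X → ℝ) → Prop} {f g u v : X → ℝ} {δ t s a : ℝ} {o : X}

/-! ### part a: the truncated weights -/

theorem hf_w_nonneg (o : X) (a : ℝ) (n : ℕ) (x : X) : 0 ≤ hf_w o a n x := by
  unfold hf_w
  exact le_min (Real.exp_pos _).le (Nat.cast_nonneg n)

theorem hf_w_le (o : X) (a : ℝ) (n : ℕ) (x : X) : hf_w o a n x ≤ n := by
  unfold hf_w
  exact min_le_right _ _

theorem hf_w_le_exp (o : X) (a : ℝ) (n : ℕ) (x : X) : hf_w o a n x ≤ Real.exp (a * dist x o) := by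
  unfold hf_w
  exact min_le_left _ _

theorem hf_w_mono (o : X) (a : ℝ) (x : X) : Monotone (fun n : ℕ => hf_w o a n x) := by
  intro n k hnk
  simp only [hf_w]
  exact min_le_min le_rfl (by exact_mod_cast hnk)

theorem hf_w_tendsto (o : X) (a : ℝ) (x : X) :
    Tendsto (fun n : ℕ => hf_w o a n x) atTop (𝓝 (Real.exp (a * dist x o))) := by
  apply tendsto_const_nhds.congr'
  obtain ⟨N, hN⟩ := exists_nat_ge (Real.exp (a * dist x o))
  filter_upwards [eventually_ge_atTop N] with n hn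
  simp only [hf_w]
  symm
  apply min_eq_left
  exact hN.trans (by exact_mod_cast hn)

theorem hf_w_continuous (o : X) (a : ℝ) (n : ℕ) : Continuous (hf_w o a n) := by
  unfold hf_w
  fun_prop

theorem hf_w_1d_aux (ha : 0 ≤ a) (n : ℕ) {s s' : ℝ} (h : s' ≤ s) :
    |min (Real.exp (a * s)) n - min (Real.exp (a * s')) n|
      ≤ a * max (min (Real.exp (a * s)) n) (min (Real.exp (a * s')) n) * |s - s'| := by
  have hmono : Real.exp (a * s') ≤ Real.exp (a * s) :=
    Real.exp_le_exp.mpr (mul_le_mul_of_nonneg_left h ha)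
  have hmin : min (Real.exp (a * s')) n ≤ min (Real.exp (a * s)) n := min_le_min hmono le_rfl
  rw [abs_of_nonneg (sub_nonneg.mpr hmin), max_eq_left hmin, abs_of_nonneg (sub_nonneg.mpr h)]
  set M := min (Real.exp (a * s)) (n : ℝ) with hM
  have hM0 : 0 ≤ M := le_min (Real.exp_pos _).le (Nat.cast_nonneg n)
  -- key : M * exp (-(a (s - s'))) ≤ min (exp (a s')) n
  have hk : 1 - a * (s - s') ≤ Real.exp (-(a * (s - s'))) := by
    have := Real.add_one_le_exp (-(a * (s - s')))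
    linarith
  have hle1 : Real.exp (-(a * (s - s'))) ≤ 1 := by
    apply Real.exp_le_one_iff.mpr
    have : 0 ≤ a * (s - s') := mul_nonneg ha (sub_nonneg.mpr h)
    linarith
  have h1 : M * Real.exp (-(a * (s - s'))) ≤ Real.exp (a * s') := by
    calc M * Real.exp (-(a * (s - s'))) ≤ Real.exp (a * s) * Real.exp (-(a * (s - s'))) :=
          mul_le_mul_of_nonneg_right (min_le_left _ _) (Real.exp_pos _).le
      _ = Real.exp (a * s') := by rw [← Real.exp_add]; congr 1; ring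
  have h2 : M * Real.exp (-(a * (s - s'))) ≤ n := by
    calc M * Real.exp (-(a * (s - s'))) ≤ M * 1 := mul_le_mul_of_nonneg_left hle1 hM0
      _ = M := mul_one _
      _ ≤ n := min_le_right _ _
  have h3 : M * Real.exp (-(a * (s - s'))) ≤ min (Real.exp (a * s')) n := le_min h1 h2
  have h4 : M * (1 - a * (s - s')) ≤ M * Real.exp (-(a * (s - s'))) :=
    mul_le_mul_of_nonneg_left hk hM0
  nlinarith

/-- one-dimensional inequality: `φ s = min (e^{a s}) n`, `a ≥ 0`:  `|φ s - φ s'| ≤ a * max (φ s) (φ s') * |s - s'|`.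
(wlog `s' ≤ s`.  `e^{as} - e^{as'} ≤ a e^{as} (s - s')` from `Real.add_one_le_exp (-(a (s - s')))`.  Cases `e^{as} ≤ n`;  `n ≤ e^{as'}`;  `e^{as'} < n < e^{as}`: with `n = e^{a s*}`, or directly:
`n - e^{as'} = n (1 - e^{as'}/n)`, `e^{as'}/n ≥ e^{as'}/e^{as} = e^{-a(s-s')} ≥ 1 - a (s - s')`.) -/
theorem hf_w_1d (ha : 0 ≤ a) (n : ℕ) (s s' : ℝ) :
    |min (Real.exp (a * s)) n - min (Real.exp (a * s')) n|
      ≤ a * max (min (Real.exp (a * s)) n) (min (Real.exp (a * s')) n) * |s - s'| := by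
  rcases le_total s' s with h | h
  · exact hf_w_1d_aux ha n h
  · have := hf_w_1d_aux ha n h
    rw [abs_sub_comm, max_comm, abs_sub_comm s s']
    exact this

/-- `hf_w_1d`, `max ≤ n`, `|dist x o - dist y o| ≤ dist x y`:  Lipschitz with constant `a n`. -/
theorem hf_w_lipschitz (ha : 0 ≤ a) (o : X) (n : ℕ) : GloballyLipschitz (hf_w o a n) := by
  refine ⟨⟨a * n, mul_nonneg ha (Nat.cast_nonneg n)⟩, ?_⟩
  apply LipschitzWith.of_dist_le_mul
  intro x y
  rw [Real.dist_eq]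
  simp only [hf_w]
  have h1 := hf_w_1d ha n (dist x o) (dist y o)
  have h2 : max (min (Real.exp (a * dist x o)) (n : ℝ)) (min (Real.exp (a * dist y o)) n) ≤ n :=
    max_le (min_le_right _ _) (min_le_right _ _)
  have h3 : |dist x o - dist y o| ≤ dist x y := abs_dist_sub_le x y o
  calc _ ≤ a * max (min (Real.exp (a * dist x o)) (n : ℝ)) (min (Real.exp (a * dist y o)) n)
        * |dist x o - dist y o| := h1
    _ ≤ a * n * dist x y := by
        apply mul_le_mul (mul_le_mul_of_nonneg_left h2 ha) h3 (abs_nonneg _)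
          (mul_nonneg ha (Nat.cast_nonneg n))

/-- `localSlope w_n ≤ a w_n`.   `localSlope f x = limsup_{y → x, y ≠ x} ofReal (|f y - f x| / dist y x)`.  By `hf_w_1d`: the quotient is `≤ a * max (w y) (w x)`, which tends to `a * w x` (continuity).
(`Filter.limsup_le_of_le`/`limsup_le_limsup` + `Tendsto.limsup_eq`; the filter `𝓝[≠] x` may be `⊥` (isolated point): then `limsup = ⊥ = 0`, or argue by: for every `ε > 0` eventually `quotient ≤ a (w x + ε)`, `Filter.limsup_le_of_le` works for any filter in a complete lattice; then `ENNReal.le_of_forall_pos_le_add` or continuity of `ofReal`.) -/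
theorem hf_w_slope (ha : 0 ≤ a) (o : X) (n : ℕ) (x : X) :
    localSlope (hf_w o a n) x ≤ ENNReal.ofReal (a * hf_w o a n x) := by
  unfold localSlope
  have hcont : Continuous (hf_w o a n) := hf_w_continuous o a n
  have hG : Tendsto (fun y => ENNReal.ofReal (a * max (hf_w o a n y) (hf_w o a n x))) (𝓝[≠] x)
      (𝓝 (ENNReal.ofReal (a * hf_w o a n x))) := by
    have h1 : Continuous (fun y => ENNReal.ofReal (a * max (hf_w o a n y) (hf_w o a n x))) :=
      ENNReal.continuous_ofReal.comp (continuous_const.mul (hcont.max continuous_const))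
    have h2 := (h1.tendsto x).mono_left (nhdsWithin_le_nhds (s := {x}ᶜ))
    simpa using h2
  have hle : ∀ᶠ y in 𝓝[≠] x, ENNReal.ofReal (|hf_w o a n y - hf_w o a n x| / dist y x)
      ≤ ENNReal.ofReal (a * max (hf_w o a n y) (hf_w o a n x)) := by
    filter_upwards [self_mem_nhdsWithin] with y hy
    apply ENNReal.ofReal_le_ofReal
    have hd : 0 < dist y x := dist_pos.2 hy
    rw [div_le_iff₀ hd]
    have h1 := hf_w_1d ha n (dist y o) (dist x o)
    have h2 : |dist y o - dist x o| ≤ dist y x := abs_dist_sub_le y x o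
    have h3 : 0 ≤ a * max (hf_w o a n y) (hf_w o a n x) :=
      mul_nonneg ha (le_max_of_le_left (hf_w_nonneg o a n y))
    calc |hf_w o a n y - hf_w o a n x|
        ≤ a * max (hf_w o a n y) (hf_w o a n x) * |dist y o - dist x o| := h1
      _ ≤ a * max (hf_w o a n y) (hf_w o a n x) * dist y x := mul_le_mul_of_nonneg_left h2 h3
  rcases (𝓝[≠] x).eq_or_neBot with hb | hb
  · rw [hb, Filter.limsup_bot]
    exact bot_le
  · calc Filter.limsup (fun y => ENNReal.ofReal (|hf_w o a n y - hf_w o a n x| / dist y x)) (𝓝[≠] x)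
        ≤ Filter.limsup (fun y => ENNReal.ofReal (a * max (hf_w o a n y) (hf_w o a n x))) (𝓝[≠] x) :=
          Filter.limsup_le_limsup hle
      _ = ENNReal.ofReal (a * hf_w o a n x) := hG.limsup_eq

/-- monotone convergence (`lintegral_iSup`, or `lintegral_tendsto_of_tendsto_of_monotone`): `w_n² f² ↑ e^{2aζ} f²`.  (no measurability of `f` is available in general: assume a.e.-measurability) -/
theorem hf_wn_eq_iSup (hf : AEStronglyMeasurable f m) (o : X) (a : ℝ) :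
    hf_wn m o a f = ⨆ n : ℕ, ∫⁻ x, ENNReal.ofReal (hf_w o a n x ^ 2 * f x ^ 2) ∂m := by
  have hmono : ∀ x, Monotone (fun n : ℕ => ENNReal.ofReal (hf_w o a n x ^ 2 * f x ^ 2)) := by
    intro x i j hij
    refine ENNReal.ofReal_le_ofReal ?_
    have h1 : hf_w o a i x ≤ hf_w o a j x := hf_w_mono o a x hij
    have h0 : 0 ≤ hf_w o a i x := hf_w_nonneg o a i x
    have h2 : hf_w o a i x ^ 2 ≤ hf_w o a j x ^ 2 := pow_le_pow_left₀ h0 h1 2
    exact mul_le_mul_of_nonneg_right h2 (sq_nonneg _)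
  have hpt : ∀ x, ENNReal.ofReal (Real.exp (2 * a * dist x o) * f x ^ 2)
      = ⨆ n : ℕ, ENNReal.ofReal (hf_w o a n x ^ 2 * f x ^ 2) := by
    intro x
    have h1 : Tendsto (fun n : ℕ => ENNReal.ofReal (hf_w o a n x ^ 2 * f x ^ 2)) atTop
        (𝓝 (ENNReal.ofReal (Real.exp (a * dist x o) ^ 2 * f x ^ 2))) :=
      ENNReal.tendsto_ofReal (((hf_w_tendsto o a x).pow 2).mul_const _)
    have h2 : Real.exp (a * dist x o) ^ 2 = Real.exp (2 * a * dist x o) := by
      rw [← Real.exp_nat_mul]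
      congr 1
      push_cast
      ring
    rw [h2] at h1
    exact tendsto_nhds_unique h1 (tendsto_atTop_iSup (hmono x))
  have hmeas : ∀ n : ℕ, AEMeasurable (fun x => ENNReal.ofReal (hf_w o a n x ^ 2 * f x ^ 2)) m := by
    intro n
    exact (((hf_w_continuous o a n).measurable.pow_const 2).aemeasurable.mul
      (hf.aemeasurable.pow_const 2)).ennreal_ofReal
  unfold hf_wn
  rw [← lintegral_iSup' hmeas (Filter.Eventually.of_forall hmono)]
  exact lintegral_congr hpt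

/-- `w_n f ∈ L²` -/
theorem hf_w_mul_memLp (hf : MemLp f 2 m) (o : X) (a : ℝ) (n : ℕ) : MemLp (fun x => hf_w o a n x * f x) 2 m := by
  refine (hf.const_mul (n : ℝ)).mono
    ((hf_w_continuous o a n).aestronglyMeasurable.mul hf.aestronglyMeasurable)
    (Filter.Eventually.of_forall fun x => ?_)
  simp only [norm_mul, Real.norm_eq_abs, Pi.mul_apply]
  refine mul_le_mul_of_nonneg_right ?_ (abs_nonneg _)
  rw [abs_of_nonneg (hf_w_nonneg o a n x)]
  exact le_trans (hf_w_le o a n x) (le_abs_self _)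

theorem hf_wn_congr (h : f =ᵐ[m] g) (o : X) (a : ℝ) : hf_wn m o a f = hf_wn m o a g := by
  unfold hf_wn
  refine lintegral_congr_ae (h.mono fun x hx => ?_)
  simp only [hx]

/-- `hf_wn < ∞` iff the weighted square is integrable -/
theorem hf_wn_lt_top_iff (hf : AEStronglyMeasurable f m) (o : X) (a : ℝ) :
    hf_wn m o a f < ∞ ↔ Integrable (fun x => Real.exp (2 * a * dist x o) * f x ^ 2) m := by
  have hcont : Continuous (fun x : X => Real.exp (2 * a * dist x o)) :=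
    Real.continuous_exp.comp (continuous_const.mul (continuous_id.dist continuous_const))
  have hmeas : AEStronglyMeasurable (fun x => Real.exp (2 * a * dist x o) * f x ^ 2) m :=
    hcont.aestronglyMeasurable.mul (hf.pow 2)
  have hnn : 0 ≤ᵐ[m] (fun x => Real.exp (2 * a * dist x o) * f x ^ 2) :=
    Filter.Eventually.of_forall fun x => mul_nonneg (Real.exp_pos _).le (sq_nonneg _)
  unfold hf_wn
  rw [← hasFiniteIntegral_iff_ofReal hnn]
  exact ⟨fun h => ⟨hmeas, h⟩, fun h => h.2⟩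

/-! ### part b: the resolvent -/

/-- the common bound `n + a n` of `w_n` and `a w_n`. -/
theorem hf_w_bounds (ha : 0 ≤ a) (o : X) (n : ℕ) (x : X) :
    |hf_w o a n x| ≤ (n : ℝ) + a * n ∧ |a * hf_w o a n x| ≤ (n : ℝ) + a * n := by
  have h0 := hf_w_nonneg o a n x
  have h1 := hf_w_le o a n x
  have hn : (0 : ℝ) ≤ n := Nat.cast_nonneg n
  have h2 : a * hf_w o a n x ≤ a * n := mul_le_mul_of_nonneg_left h1 ha
  have h3 : 0 ≤ a * n := mul_nonneg ha hn
  rw [abs_of_nonneg h0, abs_of_nonneg (mul_nonneg ha h0)]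
  constructor <;> linarith

/-- `u ∈ Dom` ⟹ `u w_n² ∈ Dom`:  `R.rel_mul` with `g = w_n²` (Lipschitz, bounded by `n²`, `Lg = 2 a w_n²`:  `localSlope (w²) ≤ 2 w localSlope w`;  simpler: apply `R.rel_mul` TWICE with `g = w_n`, `Lg = a w_n`), then `R.rel_ch`, `R.rel_memLp`. -/
theorem hf_mul_w_sq_dom (R : hf_RS m rs Rel) (ha : 0 ≤ a) (hu : hf_Dom m u) (o : X) (n : ℕ) :
    hf_Dom m (fun x => u x * hf_w o a n x ^ 2) := by
  have hmul := R.rel_mul (hf_w o a n) (fun x => a * hf_w o a n x) ((n : ℝ) + a * n) (hf_w_lipschitz ha o n)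
    (fun x => (hf_w_bounds ha o n x).1) ((hf_w_continuous o a n).measurable.const_mul a)
    (fun x => (hf_w_bounds ha o n x).2) (fun x => mul_nonneg ha (hf_w_nonneg o a n x)) (fun x => hf_w_slope ha o n x)
  have h1 := hmul _ _ (R.rel_rs u hu)
  have h2 := hmul _ _ h1
  have e : (fun x => u x * hf_w o a n x ^ 2) = fun x => u x * hf_w o a n x * hf_w o a n x := by
    funext x
    ring
  rw [e]
  exact ⟨(R.rel_memLp _ _ h2).1, lt_of_le_of_lt (R.rel_ch _ _ h2) ENNReal.ofReal_lt_top⟩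

/-- the main computation (see the header).  All integrals are integrals of integrable functions: `w_n` bounded, `u, f, rs u ∈ L²`. -/
theorem hf_res_w_trunc (R : hf_RS m rs Rel) (hδ : 0 < δ) (ha : 0 ≤ a) (hf : MemLp f 2 m) (o : X) (n : ℕ) :
    (1 - 2 * δ * a ^ 2) * ∫ x, hf_w o a n x ^ 2 * resF m δ f x ^ 2 ∂m
        + δ / 2 * ∫ x, hf_w o a n x ^ 2 * rs (resF m δ f) x ^ 2 ∂m
      ≤ ∫ x, (hf_w o a n x * f x) * (hf_w o a n x * resF m δ f x) ∂m := by
  set u : X → ℝ := resF m δ f with hudef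
  set w : X → ℝ := hf_w o a n with hwdef
  have hu : hf_Dom m u := hf_res_dom R hδ hf
  have hrs : MemLp (rs u) 2 m := (R.rel_memLp _ _ (R.rel_rs u hu)).2.1
  have hwu : MemLp (fun x => w x * u x) 2 m := hf_w_mul_memLp hu.1 o a n
  have hwau : MemLp (fun x => w x * |u x|) 2 m := hf_w_mul_memLp (f := fun x => |u x|) hu.1.norm o a n
  have hwrs : MemLp (fun x => w x * rs u x) 2 m := hf_w_mul_memLp hrs o a n
  have hP : Integrable (fun x => w x ^ 2 * rs u x ^ 2) m := by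
    refine hwrs.integrable_sq.congr (Eventually.of_forall fun x => ?_)
    show (w x * rs u x) ^ 2 = _
    ring
  have hQ : Integrable (fun x => w x ^ 2 * u x ^ 2) m := by
    refine hwu.integrable_sq.congr (Eventually.of_forall fun x => ?_)
    show (w x * u x) ^ 2 = _
    ring
  have hM : Integrable (fun x => |u x| * w x * (a * w x) * rs u x) m := by
    refine ((hf_integrable_mul hwau hwrs).const_mul a).congr (Eventually.of_forall fun x => ?_)
    show a * (w x * |u x| * (w x * rs u x)) = _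
    ring
  have hform := R.form_mul w (fun x => a * w x) ((n : ℝ) + a * n) (hf_w_lipschitz ha o n)
    (fun x => ⟨hf_w_nonneg o a n x, (le_abs_self _).trans (hf_w_bounds ha o n x).1⟩)
    ((hf_w_continuous o a n).measurable.const_mul a)
    (fun x => (hf_w_bounds ha o n x).2) (fun x => mul_nonneg ha (hf_w_nonneg o a n x)) (fun x => hf_w_slope ha o n x) u hu
  have h1 : 2 * ∫ x, |u x| * w x * (a * w x) * rs u x ∂m
      ≤ 1 / 2 * ∫ x, w x ^ 2 * rs u x ^ 2 ∂m + 2 * a ^ 2 * ∫ x, w x ^ 2 * u x ^ 2 ∂m := by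
    rw [← integral_const_mul, ← integral_const_mul, ← integral_const_mul,
      ← integral_add (hP.const_mul _) (hQ.const_mul _)]
    refine integral_mono (hM.const_mul _) ((hP.const_mul _).add (hQ.const_mul _)) fun x => ?_
    show 2 * (|u x| * w x * (a * w x) * rs u x)
      ≤ 1 / 2 * (w x ^ 2 * rs u x ^ 2) + 2 * a ^ 2 * (w x ^ 2 * u x ^ 2)
    have h2 : 0 ≤ w x ^ 2 * (rs u x - 2 * a * |u x|) ^ 2 := by positivity
    have h3 : 1 / 2 * (w x ^ 2 * rs u x ^ 2) + 2 * a ^ 2 * (w x ^ 2 * |u x| ^ 2)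
        - 2 * (|u x| * w x * (a * w x) * rs u x) = 1 / 2 * (w x ^ 2 * (rs u x - 2 * a * |u x|) ^ 2) := by ring
    rw [sq_abs] at h3
    linarith
  have heq := hf_res_eq R hδ hf (hf_mul_w_sq_dom R ha hu o n)
  have e1 : ∫ x, resF m δ f x * (u x * hf_w o a n x ^ 2) ∂m = ∫ x, w x ^ 2 * u x ^ 2 ∂m := by
    refine integral_congr_ae (Eventually.of_forall fun x => ?_)
    show u x * (u x * w x ^ 2) = _
    ring
  have e2 : ∫ x, f x * (u x * hf_w o a n x ^ 2) ∂m = ∫ x, (w x * f x) * (w x * u x) ∂m := by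
    refine integral_congr_ae (Eventually.of_forall fun x => ?_)
    show f x * (u x * w x ^ 2) = _
    ring
  rw [e1, e2] at heq
  rw [← heq]
  have h4 : 1 / 2 * ∫ x, w x ^ 2 * rs u x ^ 2 ∂m - 2 * a ^ 2 * ∫ x, w x ^ 2 * u x ^ 2 ∂m
      ≤ hf_E m u (fun x => u x * w x ^ 2) := by linarith
  have h5 := mul_le_mul_of_nonneg_left h4 hδ.le
  nlinarith

/-- auxiliary (real numbers): `θ A² + (δ/2) G² ≤ F A` gives `A² ≤ e^{8a²δ} F²`. -/
theorem hf_real_wn_aux {A2 F2 G2 : ℝ} (hδ : 0 < δ) (h4 : 4 * δ * a ^ 2 ≤ 1) (hA : 0 ≤ A2) (hF : 0 ≤ F2) (hG : 0 ≤ G2)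
    (h : (1 - 2 * δ * a ^ 2) * A2 + δ / 2 * G2 ≤ Real.sqrt F2 * Real.sqrt A2) :
    A2 ≤ Real.exp (8 * a ^ 2 * δ) * F2 := by
  set A := Real.sqrt A2 with hAdef
  set F := Real.sqrt F2 with hFdef
  have hA2 : A2 = A ^ 2 := (Real.sq_sqrt hA).symm
  have hF2 : F2 = F ^ 2 := (Real.sq_sqrt hF).symm
  have hA0 : 0 ≤ A := Real.sqrt_nonneg _
  have hF0 : 0 ≤ F := Real.sqrt_nonneg _
  set x := 2 * δ * a ^ 2 with hx
  have hx0 : 0 ≤ x := by positivity
  have hx1 : x ≤ 1 / 2 := by rw [hx]; linarith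
  have hGG : 0 ≤ δ / 2 * G2 := by positivity
  have h1 : (1 - x) * A ^ 2 ≤ F * A := by rw [← hA2]; linarith
  have h2 : (1 - x) * A ≤ F := by
    rcases hA0.eq_or_lt with h0 | h0
    · rw [← h0]; simpa using hF0
    · have : ((1 - x) * A) * A ≤ F * A := by nlinarith
      exact le_of_mul_le_mul_right this h0
  have he : 1 + 2 * x ≤ Real.exp (2 * x) := by
    have := Real.add_one_le_exp (2 * x); linarith
  have he1 : 1 ≤ Real.exp (2 * x) * (1 - x) := by
    have h3 : (1 + 2 * x) * (1 - x) ≤ Real.exp (2 * x) * (1 - x) :=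
      mul_le_mul_of_nonneg_right he (by linarith)
    nlinarith
  have hexp : Real.exp (8 * a ^ 2 * δ) = Real.exp (2 * x) ^ 2 := by
    rw [← Real.exp_nat_mul]; congr 1; rw [hx]; push_cast; ring
  rw [hexp, hA2, hF2]
  have hE0 : 0 ≤ Real.exp (2 * x) := (Real.exp_pos _).le
  have h5 : A ≤ Real.exp (2 * x) * F := by
    calc A = 1 * A := (one_mul A).symm
      _ ≤ (Real.exp (2 * x) * (1 - x)) * A := mul_le_mul_of_nonneg_right he1 hA0
      _ = Real.exp (2 * x) * ((1 - x) * A) := by ring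
      _ ≤ Real.exp (2 * x) * F := mul_le_mul_of_nonneg_left h2 hE0
  calc A ^ 2 ≤ (Real.exp (2 * x) * F) ^ 2 := pow_le_pow_left₀ hA0 h5 2
    _ = Real.exp (2 * x) ^ 2 * F ^ 2 := by ring

/-- auxiliary (real numbers): `θ A² + (δ/2) G² ≤ F A` gives `δ G² ≤ 4 F²`. -/
theorem hf_real_wgrad_aux {A2 F2 G2 : ℝ} (hδ : 0 < δ) (h4 : 4 * δ * a ^ 2 ≤ 1) (hA : 0 ≤ A2) (hF : 0 ≤ F2) (hG : 0 ≤ G2)
    (h : (1 - 2 * δ * a ^ 2) * A2 + δ / 2 * G2 ≤ Real.sqrt F2 * Real.sqrt A2) :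
    δ * G2 ≤ 4 * F2 := by
  set A := Real.sqrt A2 with hAdef
  set F := Real.sqrt F2 with hFdef
  have hA2 : A2 = A ^ 2 := (Real.sq_sqrt hA).symm
  have hF2 : F2 = F ^ 2 := (Real.sq_sqrt hF).symm
  have hx1 : 2 * δ * a ^ 2 ≤ 1 / 2 := by linarith
  have h1 : 1 / 2 * A2 ≤ (1 - 2 * δ * a ^ 2) * A2 := mul_le_mul_of_nonneg_right (by linarith) hA
  rw [hA2] at h1 h
  rw [hF2]
  nlinarith [sq_nonneg (F - A), sq_nonneg F]

/-- auxiliary: `hf_res_w_trunc` + Cauchy-Schwarz in the form used by the two real lemmas. -/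
theorem hf_res_trunc_aux (R : hf_RS m rs Rel) (hδ : 0 < δ) (ha : 0 ≤ a) (hf : MemLp f 2 m) (o : X) (n : ℕ) :
    0 ≤ ∫ x, hf_w o a n x ^ 2 * resF m δ f x ^ 2 ∂m ∧ 0 ≤ ∫ x, hf_w o a n x ^ 2 * f x ^ 2 ∂m ∧
      0 ≤ ∫ x, hf_w o a n x ^ 2 * rs (resF m δ f) x ^ 2 ∂m ∧
      (1 - 2 * δ * a ^ 2) * ∫ x, hf_w o a n x ^ 2 * resF m δ f x ^ 2 ∂m
          + δ / 2 * ∫ x, hf_w o a n x ^ 2 * rs (resF m δ f) x ^ 2 ∂m
        ≤ Real.sqrt (∫ x, hf_w o a n x ^ 2 * f x ^ 2 ∂m)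
          * Real.sqrt (∫ x, hf_w o a n x ^ 2 * resF m δ f x ^ 2 ∂m) := by
  refine ⟨integral_nonneg fun x => by positivity, integral_nonneg fun x => by positivity,
    integral_nonneg fun x => by positivity, ?_⟩
  have h1 := hf_res_w_trunc R hδ ha hf o n
  have h2 := hf_integral_mul_le (hf_w_mul_memLp hf o a n) (hf_w_mul_memLp (hf_resF_memLp m δ f) o a n)
  have e1 : (fun x => (hf_w o a n x * f x) ^ 2) = fun x => hf_w o a n x ^ 2 * f x ^ 2 := by
    funext x; ring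
  have e2 : (fun x => (hf_w o a n x * resF m δ f x) ^ 2) = fun x => hf_w o a n x ^ 2 * resF m δ f x ^ 2 := by
    funext x; ring
  rw [e1, e2] at h2
  exact h1.trans ((le_abs_self _).trans h2)

/-- From `hf_res_w_trunc` and Cauchy-Schwarz (`hf_integral_mul_le`): with `A² = ∫ w_n² u²`, `F² = ∫ w_n² f²`, `θ = 1 - 2δa² ≥ 1/2`:  `θ A² ≤ F A` ⟹ `A² ≤ F²/θ² ≤ e^{8 δ a²} F²`
(`1/θ ≤ e^{2x}` for `x = 2δa² ∈ [0,1/2]`:  `(1-x) e^{2x} ≥ (1-x)(1+2x) = 1 + x - 2x² ≥ 1`). -/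
theorem hf_res_wn_trunc (R : hf_RS m rs Rel) (hδ : 0 < δ) (ha : 0 ≤ a) (h4 : 4 * δ * a ^ 2 ≤ 1) (hf : MemLp f 2 m)
    (o : X) (n : ℕ) :
    ∫ x, hf_w o a n x ^ 2 * resF m δ f x ^ 2 ∂m ≤ Real.exp (8 * a ^ 2 * δ) * ∫ x, hf_w o a n x ^ 2 * f x ^ 2 ∂m := by
  obtain ⟨hA, hF, hG, h1⟩ := hf_res_trunc_aux R hδ ha hf o n
  exact hf_real_wn_aux hδ h4 hA hF hG h1

/-- `(δ/2) ∫ w_n² rs(u)² ≤ F A ≤ F²/θ ≤ 2 F²`. -/
theorem hf_res_wgrad_trunc (R : hf_RS m rs Rel) (hδ : 0 < δ) (ha : 0 ≤ a) (h4 : 4 * δ * a ^ 2 ≤ 1) (hf : MemLp f 2 m)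
    (o : X) (n : ℕ) :
    δ * ∫ x, hf_w o a n x ^ 2 * rs (resF m δ f) x ^ 2 ∂m ≤ 4 * ∫ x, hf_w o a n x ^ 2 * f x ^ 2 ∂m := by
  obtain ⟨hA, hF, hG, h1⟩ := hf_res_trunc_aux R hδ ha hf o n
  exact hf_real_wgrad_aux hδ h4 hA hF hG h1

/-- the truncated weighted integral as a `lintegral`. -/
theorem hf_w_lintegral_eq (hf : MemLp f 2 m) (o : X) (a : ℝ) (n : ℕ) :
    ∫⁻ x, ENNReal.ofReal (hf_w o a n x ^ 2 * f x ^ 2) ∂m
      = ENNReal.ofReal (∫ x, hf_w o a n x ^ 2 * f x ^ 2 ∂m) := by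
  have h1 : MemLp (fun x => hf_w o a n x * f x) 2 m := hf_w_mul_memLp hf o a n
  have h2 : Integrable (fun x => hf_w o a n x ^ 2 * f x ^ 2) m := by
    refine (hf_integrable_mul h1 h1).congr (Eventually.of_forall fun x => ?_)
    simp only
    ring
  rw [ofReal_integral_eq_lintegral_ofReal h2 (Eventually.of_forall fun x => by positivity)]

theorem hf_w_lintegral_le_wn (hf : MemLp f 2 m) (o : X) (a : ℝ) (n : ℕ) :
    ENNReal.ofReal (∫ x, hf_w o a n x ^ 2 * f x ^ 2 ∂m) ≤ hf_wn m o a f := by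
  rw [← hf_w_lintegral_eq hf, hf_wn_eq_iSup hf.aestronglyMeasurable]
  exact le_iSup (fun n : ℕ => ∫⁻ x, ENNReal.ofReal (hf_w o a n x ^ 2 * f x ^ 2) ∂m) n

/-- **HF2 for the resolvent.**  `hf_wn_eq_iSup` on both sides, `hf_res_wn_trunc` (`ofReal_integral_eq_lintegral_ofReal`). -/
theorem hf_res_wn (R : hf_RS m rs Rel) (hδ : 0 < δ) (ha : 0 ≤ a) (h4 : 4 * δ * a ^ 2 ≤ 1) (hf : MemLp f 2 m) (o : X) :
    hf_wn m o a (resF m δ f) ≤ ENNReal.ofReal (Real.exp (8 * a ^ 2 * δ)) * hf_wn m o a f := by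
  have hu : MemLp (resF m δ f) 2 m := hf_resF_memLp m δ f
  rw [hf_wn_eq_iSup hu.aestronglyMeasurable]
  refine iSup_le fun n => ?_
  rw [hf_w_lintegral_eq hu]
  calc ENNReal.ofReal (∫ x, hf_w o a n x ^ 2 * resF m δ f x ^ 2 ∂m)
      ≤ ENNReal.ofReal (Real.exp (8 * a ^ 2 * δ) * ∫ x, hf_w o a n x ^ 2 * f x ^ 2 ∂m) :=
        ENNReal.ofReal_le_ofReal (hf_res_wn_trunc R hδ ha h4 hf o n)
    _ = ENNReal.ofReal (Real.exp (8 * a ^ 2 * δ)) * ENNReal.ofReal (∫ x, hf_w o a n x ^ 2 * f x ^ 2 ∂m) :=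
        ENNReal.ofReal_mul (Real.exp_pos _).le
    _ ≤ ENNReal.ofReal (Real.exp (8 * a ^ 2 * δ)) * hf_wn m o a f :=
        mul_le_mul_right (hf_w_lintegral_le_wn hf o a n) _

/-- **HF2, gradient part.** -/
theorem hf_res_wgrad (R : hf_RS m rs Rel) (hδ : 0 < δ) (ha : 0 ≤ a) (h4 : 4 * δ * a ^ 2 ≤ 1) (hf : MemLp f 2 m) (o : X) :
    ENNReal.ofReal δ * hf_wn m o a (rs (resF m δ f)) ≤ 4 * hf_wn m o a f := by
  have hu : hf_Dom m (resF m δ f) := hf_res_dom R hδ hf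
  have hg : MemLp (rs (resF m δ f)) 2 m := (R.rel_memLp _ _ (R.rel_rs _ hu)).2.1
  rw [hf_wn_eq_iSup hg.aestronglyMeasurable, ENNReal.mul_iSup]
  refine iSup_le fun n => ?_
  rw [hf_w_lintegral_eq hg, ← ENNReal.ofReal_mul hδ.le]
  calc ENNReal.ofReal (δ * ∫ x, hf_w o a n x ^ 2 * rs (resF m δ f) x ^ 2 ∂m)
      ≤ ENNReal.ofReal (4 * ∫ x, hf_w o a n x ^ 2 * f x ^ 2 ∂m) :=
        ENNReal.ofReal_le_ofReal (hf_res_wgrad_trunc R hδ ha h4 hf o n)
    _ = 4 * ENNReal.ofReal (∫ x, hf_w o a n x ^ 2 * f x ^ 2 ∂m) := by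
        rw [ENNReal.ofReal_mul (by norm_num)]
        congr 1
        simp
    _ ≤ 4 * hf_wn m o a f := mul_le_mul_right (hf_w_lintegral_le_wn hf o a n) _

/-- induction on `k`:  `e^{8a²δ}^k = e^{8a²δk}`. -/
theorem hf_res_iter_wn (R : hf_RS m rs Rel) (hδ : 0 < δ) (ha : 0 ≤ a) (h4 : 4 * δ * a ^ 2 ≤ 1) (hf : MemLp f 2 m) (o : X)
    (k : ℕ) : hf_wn m o a ((resF m δ)^[k] f) ≤ ENNReal.ofReal (Real.exp (8 * a ^ 2 * (δ * k))) * hf_wn m o a f := by
  induction k with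
  | zero => simp
  | succ k ih =>
    rw [Function.iterate_succ_apply']
    calc hf_wn m o a (resF m δ ((resF m δ)^[k] f))
        ≤ ENNReal.ofReal (Real.exp (8 * a ^ 2 * δ)) * hf_wn m o a ((resF m δ)^[k] f) :=
          hf_res_wn R hδ ha h4 (hf_res_iter_memLp hf δ k) o
      _ ≤ ENNReal.ofReal (Real.exp (8 * a ^ 2 * δ)) *
            (ENNReal.ofReal (Real.exp (8 * a ^ 2 * (δ * k))) * hf_wn m o a f) :=
          mul_le_mul_right ih _
      _ = ENNReal.ofReal (Real.exp (8 * a ^ 2 * (δ * (k + 1 : ℕ)))) * hf_wn m o a f := by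
          rw [← mul_assoc, ← ENNReal.ofReal_mul (Real.exp_pos _).le, ← Real.exp_add]
          congr 3
          push_cast
          ring

/-! ### part c: the heat flow -/

/-- weighted bounds pass to `L²` limits.  For fixed `k`:  `‖w_k fs_n - w_k g‖₂ ≤ k ‖fs_n - g‖₂ → 0`, so `∫⁻ w_k² g² = lim ∫⁻ w_k² fs_n² ≤ c` (or: a.e. convergent subsequence + Fatou directly for `hf_wn`, as in `Markov.hf_closed_l1`). -/
theorem hf_closed_wn {fs : ℕ → X → ℝ} (hfs : ∀ n, MemLp (fs n) 2 m) (hg : MemLp g 2 m)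
    (hlim : Tendsto (fun n => eLpNorm (fun x => fs n x - g x) 2 m) atTop (𝓝 0)) (o : X) (a : ℝ) {c : ℝ≥0∞}
    (h : ∀ᶠ n in atTop, hf_wn m o a (fs n) ≤ c) : hf_wn m o a g ≤ c := by
  have hmeas : TendstoInMeasure m fs atTop g :=
    tendstoInMeasure_of_tendsto_eLpNorm (p := 2) (by norm_num) (fun n => (hfs n).1) hg.1 hlim
  obtain ⟨ns, hns, hae⟩ := hmeas.exists_seq_tendsto_ae
  have hcont : Continuous fun x : X => Real.exp (2 * a * dist x o) := by fun_prop
  have hm : ∀ i, AEMeasurable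
      (fun x => ENNReal.ofReal (Real.exp (2 * a * dist x o) * fs (ns i) x ^ 2)) m := by
    intro i
    exact (hcont.aestronglyMeasurable.aemeasurable.mul
      ((hfs (ns i)).1.aemeasurable.pow_const 2)).ennreal_ofReal
  have h1 : hf_wn m o a g
      = ∫⁻ x, liminf (fun i => ENNReal.ofReal (Real.exp (2 * a * dist x o) * fs (ns i) x ^ 2)) atTop ∂m := by
    unfold hf_wn
    refine lintegral_congr_ae ?_
    filter_upwards [hae] with x hx
    have ht : Tendsto (fun i => ENNReal.ofReal (Real.exp (2 * a * dist x o) * fs (ns i) x ^ 2)) atTop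
        (𝓝 (ENNReal.ofReal (Real.exp (2 * a * dist x o) * g x ^ 2))) :=
      (ENNReal.continuous_ofReal.tendsto _).comp ((hx.pow 2).const_mul _)
    exact ht.liminf_eq.symm
  rw [h1]
  refine (lintegral_liminf_le' hm).trans ?_
  refine Filter.liminf_le_of_frequently_le' ?_
  have h2 : ∀ᶠ i in atTop, hf_wn m o a (fs (ns i)) ≤ c := hns.tendsto_atTop.eventually h
  exact h2.frequently

/-- **HF2 for the heat flow.**  `t ≤ 0`: `hf_heat_of_nonpos`, `hf_wn_congr` (`1 ≤ e^{..}` needs `t ≥ 0`; so the statement is for `0 ≤ t`; `t = 0` separately).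
`t > 0`: `hf_heat_limit`, `hf_res_iter_wn` with `δ = t/(n+1)`, `k = n+1` (`δ k = t`), valid as soon as `4 t a² ≤ n + 1`; `hf_closed_wn`. -/
theorem hf_heat_wn (R : hf_RS m rs Rel) (ht : 0 ≤ t) (ha : 0 ≤ a) (hf : MemLp f 2 m) (o : X) :
    hf_wn m o a (heatF m t f) ≤ ENNReal.ofReal (Real.exp (8 * a ^ 2 * t)) * hf_wn m o a f := by
  rcases ht.eq_or_lt with h0 | hpos
  · subst h0
    rw [hf_wn_congr (hf_heat_of_nonpos le_rfl hf) o a]
    simp
  · refine hf_closed_wn (fs := fun n : ℕ => (resF m (t / (n + 1)))^[n + 1] f)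
      (fun n => hf_res_iter_memLp hf _ _) (hf_heatF_memLp m t f) (hf_heat_limit R hpos hf) o a ?_
    obtain ⟨N, hN⟩ := exists_nat_ge (4 * t * a ^ 2)
    filter_upwards [eventually_ge_atTop N] with n hn
    have hn1 : (0 : ℝ) < (n : ℝ) + 1 := by positivity
    have hNn : (N : ℝ) ≤ (n : ℝ) := by exact_mod_cast hn
    have hδ : 0 < t / ((n : ℝ) + 1) := div_pos hpos hn1
    have h4 : 4 * (t / ((n : ℝ) + 1)) * a ^ 2 ≤ 1 := by
      have e : 4 * (t / ((n : ℝ) + 1)) * a ^ 2 = (4 * t * a ^ 2) / ((n : ℝ) + 1) := by ring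
      rw [e, div_le_one hn1]
      linarith
    have := hf_res_iter_wn R hδ ha h4 hf o (n + 1)
    have e2 : t / ((n : ℝ) + 1) * ((n + 1 : ℕ) : ℝ) = t := by
      push_cast
      field_simp
    rwa [e2] at this

end Claimed.Agent.R210.HF.Weight
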