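/-
Row 210 (S0432), layer HF, architect helper897.   File Mass (HF3): INTEGRABILITY FROM THE WEIGHT, MASS CONSERVATION, NICE DENSITIES ARE PRESERVED.
   `GoodExp m o a`:  `0 < a` and `e^{-(a/4) ζ}` is integrable, `ζ = dist · o`.      `hf_wn m o a f = ∫⁻ e^{2aζ} f²`.
   Cauchy-Schwarz with the weight:   `∫_S |f| = ∫_S (e^{aζ}|f|) e^{-aζ} ≤ (hf_wn f)^{1/2} (∫_S e^{-2aζ})^{1/2}`.
Tools: HF/Basic.lean, HF/Markov.lean, HF/Weight.lean (black boxes), the package `R`.
-/
import Claimed.Agent.R210.HF.Markov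
import Claimed.Agent.R210.HF.Weight

set_option autoImplicit false

open Claims.C0366 Claims.C0366.WeakHessian
open Claimed.Agent.R210.Defs Claimed.Agent.R210.Defs2 Claimed.Agent.R210.HS.Defs Claimed.Agent.R210.HF.Defs
open Set Filter MeasureTheory
open scoped ENNReal NNReal Topology

open Claimed.Agent.R210.HF.Basic Claimed.Agent.R210.HF.Markov Claimed.Agent.R210.HF.Weight

namespace Claimed.Agent.R210.HF.Mass

variable {X : Type*} [MetricSpace X] [MeasurableSpace X] [BorelSpace X] {m : Measure X}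
  {rs : (X → ℝ) → X → ℝ} {Rel : (X → ℝ) → (X → ℝ) → Prop} {f g u v ρ : X → ℝ} {δ t s a B c : ℝ} {o : X}

/-! ### part a: integrability -/

/-- `e^{-cζ} ≤ e^{-(a/4)ζ}` for `c ≥ a/4`  (`Integrable.mono'`; continuity gives measurability). -/
theorem hf_exp_integrable (hG : GoodExp m o a) (hc : a / 4 ≤ c) : Integrable (fun x => Real.exp (-c * dist x o)) m := by
  refine hG.2.mono' ?_ ?_
  · exact (Real.continuous_exp.comp (continuous_const.mul (continuous_id.dist continuous_const))).aestronglyMeasurable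
  · refine Filter.Eventually.of_forall (fun x => ?_)
    rw [Real.norm_eq_abs, abs_of_pos (Real.exp_pos _)]
    apply Real.exp_le_exp.mpr
    have hd : 0 ≤ dist x o := dist_nonneg
    nlinarith

/-- weighted Cauchy-Schwarz on a measurable set `S` (`ENNReal.lintegral_mul_le_Lp_mul_Lq` with `p = q = 2`, or: `2 x y ≤ λ x² + y²/λ` and optimise; any proof).
Stated squared to avoid square roots in `ℝ≥0∞`. -/
theorem hf_l1_sq_le (hf : AEStronglyMeasurable f m) (o : X) (a : ℝ) {S : Set X} (hS : MeasurableSet S) :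
    (∫⁻ x in S, ENNReal.ofReal |f x| ∂m) ^ 2
      ≤ hf_wn m o a f * ∫⁻ x in S, ENNReal.ofReal (Real.exp (-(2 * a) * dist x o)) ∂m := by
  have hcont1 : Continuous (fun x : X => Real.exp (a * dist x o)) :=
    Real.continuous_exp.comp (continuous_const.mul (continuous_id.dist continuous_const))
  have hcont2 : Continuous (fun x : X => Real.exp (-a * dist x o)) :=
    Real.continuous_exp.comp (continuous_const.mul (continuous_id.dist continuous_const))
  set F : X → ℝ≥0∞ := fun x => ENNReal.ofReal (Real.exp (a * dist x o) * |f x|) with hF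
  set G : X → ℝ≥0∞ := fun x => ENNReal.ofReal (Real.exp (-a * dist x o)) with hGdef
  have hFm : AEMeasurable F (m.restrict S) := by
    have h1 : AEMeasurable (fun x => Real.exp (a * dist x o) * |f x|) m :=
      (hcont1.measurable.aemeasurable).mul (hf.aemeasurable.abs)
    exact (h1.ennreal_ofReal).restrict
  have hGm : AEMeasurable G (m.restrict S) :=
    (hcont2.measurable.ennreal_ofReal).aemeasurable
  have hmul : ∀ x, ENNReal.ofReal |f x| = (F * G) x := by
    intro x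
    simp only [Pi.mul_apply, hF, hGdef]
    rw [← ENNReal.ofReal_mul (by positivity)]
    congr 1
    have : Real.exp (a * dist x o) * Real.exp (-a * dist x o) = 1 := by
      rw [← Real.exp_add]; simp
    calc |f x| = (Real.exp (a * dist x o) * Real.exp (-a * dist x o)) * |f x| := by rw [this, one_mul]
      _ = _ := by ring
  have hH := ENNReal.lintegral_mul_le_Lp_mul_Lq (m.restrict S) (Real.HolderConjugate.two_two) hFm hGm
  have hF2 : ∫⁻ x in S, F x ^ (2 : ℝ) ∂m ≤ hf_wn m o a f := by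
    refine le_trans (le_of_eq ?_) (setLIntegral_le_lintegral S _)
    refine lintegral_congr (fun x => ?_)
    simp only [hF]
    rw [ENNReal.ofReal_rpow_of_nonneg (by positivity) (by norm_num)]
    congr 1
    rw [Real.rpow_two, mul_pow, sq_abs, ← Real.exp_nat_mul]
    congr 2
    push_cast; ring
  have hG2 : ∫⁻ x in S, G x ^ (2 : ℝ) ∂m = ∫⁻ x in S, ENNReal.ofReal (Real.exp (-(2 * a) * dist x o)) ∂m := by
    refine lintegral_congr (fun x => ?_)
    simp only [hGdef]
    rw [ENNReal.ofReal_rpow_of_nonneg (by positivity) (by norm_num)]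
    congr 1
    rw [Real.rpow_two, ← Real.exp_nat_mul]
    congr 1
    push_cast; ring
  have h0 : ∫⁻ x in S, ENNReal.ofReal |f x| ∂m = ∫⁻ x in S, (F * G) x ∂m :=
    lintegral_congr hmul
  rw [h0]
  calc (∫⁻ x in S, (F * G) x ∂m) ^ 2
      ≤ ((∫⁻ x in S, F x ^ (2 : ℝ) ∂m) ^ (1 / (2 : ℝ)) * (∫⁻ x in S, G x ^ (2 : ℝ) ∂m) ^ (1 / (2 : ℝ))) ^ 2 := by
        gcongr
    _ = (∫⁻ x in S, F x ^ (2 : ℝ) ∂m) * (∫⁻ x in S, G x ^ (2 : ℝ) ∂m) := by
        rw [mul_pow, ← ENNReal.rpow_natCast, ← ENNReal.rpow_natCast, ← ENNReal.rpow_mul, ← ENNReal.rpow_mul]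
        norm_num
    _ ≤ _ := by
        rw [hG2]
        gcongr

/-- `hf_l1_sq_le` with `S = univ`, `hf_exp_integrable` with `c = 2a`. -/
theorem hf_integrable_of_wn (hG : GoodExp m o a) (hf : AEStronglyMeasurable f m) (hw : hf_wn m o a f < ∞) :
    Integrable f m := by
  refine ⟨hf, ?_⟩
  have h1 := hf_l1_sq_le hf o a (S := Set.univ) MeasurableSet.univ (m := m)
  simp only [Measure.restrict_univ] at h1
  have h2 : Integrable (fun x => Real.exp (-(2 * a) * dist x o)) m :=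
    hf_exp_integrable hG (by have := hG.1; linarith)
  have h3 : ∫⁻ x, ENNReal.ofReal (Real.exp (-(2 * a) * dist x o)) ∂m < ∞ := by
    have := h2.hasFiniteIntegral
    rw [hasFiniteIntegral_iff_ofReal (Filter.Eventually.of_forall (fun x => (Real.exp_pos _).le))] at this
    exact this
  have h4 : (∫⁻ x, ENNReal.ofReal |f x| ∂m) ^ 2 < ∞ := lt_of_le_of_lt h1 (ENNReal.mul_lt_top hw h3)
  have h5 : ∫⁻ x, ENNReal.ofReal |f x| ∂m < ∞ := by
    by_contra hcon
    rw [not_lt, top_le_iff] at hcon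
    rw [hcon] at h4
    simp at h4
  rw [hasFiniteIntegral_iff_norm]
  simpa [Real.norm_eq_abs] using h5

/-- the tails `∫_{ζ ≥ r} e^{-2aζ} → 0` (dominated convergence / `tendsto_setLIntegral_zero`-type / antitone sets with empty intersection: `tendsto_measure_iInter` for the finite measure `withDensity`). -/
theorem hf_exp_tail (hG : GoodExp m o a) :
    Tendsto (fun n : ℕ => ∫⁻ x in {x | (n : ℝ) ≤ dist x o}, ENNReal.ofReal (Real.exp (-(2 * a) * dist x o)) ∂m)
      atTop (𝓝 0) := by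
  have ha : 0 < a := hG.1
  have hint : Integrable (fun x => Real.exp (-(2 * a) * dist x o)) m := hf_exp_integrable hG (by linarith)
  have hmeasF : Measurable (fun x : X => ENNReal.ofReal (Real.exp (-(2 * a) * dist x o))) := by fun_prop
  have hS : ∀ n : ℕ, MeasurableSet {x : X | (n : ℝ) ≤ dist x o} := fun n =>
    measurableSet_le measurable_const (by fun_prop)
  have key := tendsto_lintegral_of_dominated_convergence (μ := m)
    (F := fun n : ℕ => Set.indicator {x : X | (n : ℝ) ≤ dist x o}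
      (fun x => ENNReal.ofReal (Real.exp (-(2 * a) * dist x o))))
    (f := fun _ => 0) (fun x => ENNReal.ofReal (Real.exp (-(2 * a) * dist x o)))
    (fun n => hmeasF.indicator (hS n))
    (fun n => Eventually.of_forall fun x => Set.indicator_le_self _ _ x)
    hint.lintegral_lt_top.ne
    (Eventually.of_forall fun x => by
      refine tendsto_const_nhds.congr' ?_
      obtain ⟨N, hN⟩ := exists_nat_gt (dist x o)
      filter_upwards [eventually_ge_atTop N] with n hn
      have hx : x ∉ {x : X | (n : ℝ) ≤ dist x o} := by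
        intro h
        have h1 : (n : ℝ) ≤ dist x o := h
        have h2 : (N : ℝ) ≤ (n : ℝ) := by exact_mod_cast hn
        linarith
      exact (Set.indicator_of_notMem hx _).symm)
  simp only [lintegral_zero] at key
  refine key.congr fun n => ?_
  exact lintegral_indicator (hS n) _

/-- `√f ∈ L¹` for `f ≥ 0` with finite weighted norm:  `∫ √f ≤ (∫ f e^{(a/2)ζ})^{1/2} (∫ e^{-(a/2)ζ})^{1/2}`,  `∫ f e^{(a/2)ζ} ≤ (hf_wn f)^{1/2} (∫ e^{-aζ})^{1/2}`;   `a/2, a ≥ a/4`.
(Or without Hölder:  `√f = √(f e^{(a/2)ζ}) · e^{-(a/4)ζ} ≤ (f e^{(a/2)ζ} + e^{-(a/2)ζ})/2`  and  `f e^{(a/2)ζ} = (f e^{aζ}) e^{-(a/2)ζ} ≤ (f² e^{2aζ} + e^{-aζ})/2`: pointwise AM-GM, then `Integrable.mono'`.) -/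
theorem hf_sqrt_integrable (hG : GoodExp m o a) (hf : AEStronglyMeasurable f m) (h0 : ∀ᵐ x ∂m, 0 ≤ f x)
    (hw : hf_wn m o a f < ∞) : Integrable (fun x => Real.sqrt (f x)) m := by
  have ha : 0 < a := hG.1
  have i1 : Integrable (fun x => Real.exp (2 * a * dist x o) * f x ^ 2) m := (hf_wn_lt_top_iff hf o a).1 hw
  have i2 : Integrable (fun x => Real.exp (-a * dist x o)) m := hf_exp_integrable hG (by linarith)
  have i3 : Integrable (fun x => Real.exp (-(a / 2) * dist x o)) m := hf_exp_integrable hG (by linarith)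
  have iG : Integrable (fun x => (Real.exp (2 * a * dist x o) * f x ^ 2 + Real.exp (-a * dist x o)) / 4
      + Real.exp (-(a / 2) * dist x o) / 2) m := ((i1.add i2).div_const 4).add (i3.div_const 2)
  refine iG.mono' (Real.continuous_sqrt.comp_aestronglyMeasurable hf) ?_
  filter_upwards [h0] with x hx
  rw [Real.norm_eq_abs, abs_of_nonneg (Real.sqrt_nonneg _)]
  obtain ⟨P, hP⟩ : ∃ P : ℝ, P = Real.exp (-(a / 2) * dist x o) := ⟨_, rfl⟩
  obtain ⟨Q, hQ⟩ : ∃ Q : ℝ, Q = Real.exp ((a / 2) * dist x o) := ⟨_, rfl⟩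
  obtain ⟨r, hr⟩ : ∃ r : ℝ, r = Real.sqrt (f x) := ⟨_, rfl⟩
  have hP0 : 0 < P := by rw [hP]; exact Real.exp_pos _
  have hQ0 : 0 < Q := by rw [hQ]; exact Real.exp_pos _
  have hPQ : P * Q = 1 := by
    rw [hP, hQ, ← Real.exp_add]
    rw [show -(a / 2) * dist x o + a / 2 * dist x o = 0 by ring, Real.exp_zero]
  have e1 : Real.exp (2 * a * dist x o) = Q ^ 4 := by
    rw [hQ, ← Real.exp_nat_mul]
    congr 1
    push_cast
    ring
  have e2 : Real.exp (-a * dist x o) = P ^ 2 := by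
    rw [hP, ← Real.exp_nat_mul]
    congr 1
    push_cast
    ring
  have hr0 : 0 ≤ r := by rw [hr]; exact Real.sqrt_nonneg _
  have hrf : f x = r ^ 2 := by rw [hr, Real.sq_sqrt hx]
  rw [e1, e2, ← hP, ← hr, hrf]
  have h1 : 2 * r ≤ r ^ 2 * Q + P := by
    have h := mul_nonneg hP0.le (sq_nonneg (r * Q - 1))
    have e : P * (r * Q - 1) ^ 2 = r ^ 2 * Q * (P * Q) - 2 * r * (P * Q) + P := by ring
    rw [e, hPQ] at h
    linarith
  have h2 : 2 * (r ^ 2 * Q) ≤ Q ^ 4 * (r ^ 2) ^ 2 + P ^ 2 := by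
    have h := sq_nonneg (Q ^ 2 * r ^ 2 - P)
    have e : (Q ^ 2 * r ^ 2 - P) ^ 2 = Q ^ 4 * (r ^ 2) ^ 2 - 2 * (r ^ 2 * Q) * (P * Q) + P ^ 2 := by ring
    rw [e, hPQ] at h
    linarith
  linarith

/-! ### part b: the cut-offs -/

theorem hf_chi_mem (o : X) (r : ℝ) (x : X) : 0 ≤ hf_chi o r x ∧ hf_chi o r x ≤ 1 :=
  ⟨le_max_left _ _, max_le zero_le_one (min_le_left _ _)⟩

theorem hf_chi_eq_one {r : ℝ} {x : X} (h : dist x o ≤ r) : hf_chi o r x = 1 := by
  unfold hf_chi
  rw [min_eq_left (by linarith), max_eq_right zero_le_one]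

theorem hf_chi_eq_zero {r : ℝ} {x : X} (h : r + 1 ≤ dist x o) : hf_chi o r x = 0 := by
  unfold hf_chi
  exact max_eq_left ((min_le_right _ _).trans (by linarith))

theorem hf_chi_lipschitz (o : X) (r : ℝ) : LipschitzWith 1 (hf_chi o r) := by
  have h1 : LipschitzWith 1 (fun x : X => r + 1 - dist x o) := by
    refine LipschitzWith.of_le_add fun x y => ?_
    have := dist_triangle y x o
    rw [dist_comm y x] at this
    linarith
  exact (h1.const_min 1).const_max 0

/-- bounded, measurable, supported in a ball of finite measure -/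
theorem hf_chi_memLp (hfin : FiniteOnBoundedSets m) (o : X) (r : ℝ) : MemLp (hf_chi o r) 2 m := by
  have hg : MemLp ((Metric.closedBall o (r + 1)).indicator fun _ => (1 : ℝ)) 2 m :=
    memLp_indicator_const 2 Metric.isClosed_closedBall.measurableSet 1
      (Or.inr (hfin _ Metric.isBounded_closedBall).ne)
  refine hg.of_le (hf_chi_lipschitz o r).continuous.aestronglyMeasurable (Eventually.of_forall fun x => ?_)
  by_cases hx : x ∈ Metric.closedBall o (r + 1)
  · rw [indicator_of_mem hx, Real.norm_eq_abs, abs_of_nonneg (hf_chi_mem o r x).1, norm_one]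
    exact (hf_chi_mem o r x).2
  · have h1 : r + 1 ≤ dist x o := (not_le.1 hx).le
    rw [hf_chi_eq_zero h1, norm_zero]
    exact norm_nonneg _

/-- the slope vanishes where `χ` is locally constant (the sets `ζ < r`, `ζ > r + 1` are nbhds), and is `≤ 1` everywhere (1-Lipschitz). -/
theorem hf_chi_slope (o : X) (r : ℝ) (x : X) :
    localSlope (hf_chi o r) x ≤ ENNReal.ofReal (Set.indicator {x | r ≤ dist x o ∧ dist x o ≤ r + 1} (fun _ => (1 : ℝ)) x) := by
  unfold localSlope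
  by_cases hx : x ∈ {x | r ≤ dist x o ∧ dist x o ≤ r + 1}
  · rw [Set.indicator_of_mem hx]
    refine Filter.limsup_le_of_le (h := Filter.Eventually.of_forall fun y => ?_)
    refine ENNReal.ofReal_le_ofReal ?_
    have h1 : |hf_chi o r y - hf_chi o r x| ≤ dist y x := by
      have := (hf_chi_lipschitz o r).dist_le_mul y x
      simpa [Real.dist_eq] using this
    exact div_le_one_of_le₀ h1 dist_nonneg
  · rw [Set.indicator_of_notMem hx]
    have hc : Continuous fun y : X => dist y o := continuous_id.dist continuous_const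
    have hev : ∀ᶠ y in 𝓝 x, hf_chi o r y = hf_chi o r x := by
      simp only [Set.mem_setOf_eq, not_and_or, not_le] at hx
      rcases hx with hx | hx
      · have : ∀ᶠ y in 𝓝 x, dist y o < r := hc.continuousAt.eventually (gt_mem_nhds hx)
        filter_upwards [this] with y hy
        rw [hf_chi_eq_one hy.le, hf_chi_eq_one hx.le]
      · have : ∀ᶠ y in 𝓝 x, r + 1 < dist y o := hc.continuousAt.eventually (lt_mem_nhds hx)
        filter_upwards [this] with y hy
        rw [hf_chi_eq_zero hy.le, hf_chi_eq_zero hx.le]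
    refine Filter.limsup_le_of_le (h := ?_)
    filter_upwards [hev.filter_mono nhdsWithin_le_nhds] with y hy
    rw [hy]
    simp

/-- `R.rel_lip` -/
theorem hf_chi_rel (R : hf_RS m rs Rel) (hfin : FiniteOnBoundedSets m) (o : X) (r : ℝ) :
    Rel (hf_chi o r) (Set.indicator {x | r ≤ dist x o ∧ dist x o ≤ r + 1} (fun _ => (1 : ℝ))) := by
  have hc : Continuous fun y : X => dist y o := continuous_id.dist continuous_const
  have hS : MeasurableSet {x : X | r ≤ dist x o ∧ dist x o ≤ r + 1} :=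
    (measurableSet_le measurable_const hc.measurable).inter (measurableSet_le hc.measurable measurable_const)
  have hb : m {x : X | r ≤ dist x o ∧ dist x o ≤ r + 1} < ∞ :=
    hfin _ (Metric.isBounded_closedBall.subset (fun x hx => Metric.mem_closedBall.2 hx.2))
  exact R.rel_lip _ _ ⟨1, hf_chi_lipschitz o r⟩ (hf_chi_memLp hfin o r)
    (memLp_indicator_const 2 hS 1 (Or.inr hb.ne))
    (Filter.Eventually.of_forall fun x => Set.indicator_nonneg (fun _ _ => zero_le_one) x)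
    (Filter.Eventually.of_forall (hf_chi_slope o r))

/-- `∫ f χ_n → ∫ f` for integrable `f` (dominated convergence) -/
theorem hf_chi_tendsto (hf : Integrable f m) (o : X) :
    Tendsto (fun n : ℕ => ∫ x, f x * hf_chi o n x ∂m) atTop (𝓝 (∫ x, f x ∂m)) := by
  refine tendsto_integral_of_dominated_convergence (fun x => |f x|) (fun n => ?_) hf.abs (fun n => ?_) ?_
  · exact hf.aestronglyMeasurable.mul (hf_chi_lipschitz o n).continuous.aestronglyMeasurable
  · refine Eventually.of_forall fun x => ?_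
    rw [norm_mul, Real.norm_eq_abs, Real.norm_eq_abs, abs_of_nonneg (hf_chi_mem o n x).1]
    exact mul_le_of_le_one_right (abs_nonneg _) (hf_chi_mem o n x).2
  · refine Eventually.of_forall fun x => ?_
    refine tendsto_const_nhds.congr' ?_
    obtain ⟨N, hN⟩ := exists_nat_ge (dist x o)
    filter_upwards [eventually_ge_atTop N] with n hn
    have h1 : dist x o ≤ (n : ℝ) := hN.trans (by exact_mod_cast hn)
    rw [hf_chi_eq_one h1, mul_one]

/-! ### part c: mass conservation -/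

/-- `|E(u, χ_n)| ≤ ∫_{ζ ≥ n} rs(u) → 0` if `hf_wn (rs u) < ∞`:   `R.form_le` with `hf_chi_rel`;  `hf_l1_sq_le` with `S = {n ≤ ζ}`;  `hf_exp_tail`. -/
theorem hf_E_chi_tendsto (R : hf_RS m rs Rel) (hfin : FiniteOnBoundedSets m) (hG : GoodExp m o a) (hu : hf_Dom m u)
    (hw : hf_wn m o a (rs u) < ∞) : Tendsto (fun n : ℕ => hf_E m u (hf_chi o n)) atTop (𝓝 0) := by
  have hrs := R.rel_memLp _ _ (R.rel_rs u hu)
  have hrsL : MemLp (rs u) 2 m := hrs.2.1
  have hSmeas : ∀ n : ℕ, MeasurableSet {x : X | (n : ℝ) ≤ dist x o} := fun n =>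
    measurableSet_le measurable_const (continuous_id.dist continuous_const).measurable
  -- the tails of `rs u`
  have hA2 : Tendsto (fun n : ℕ => (∫⁻ x in {x | (n : ℝ) ≤ dist x o}, ENNReal.ofReal |rs u x| ∂m) ^ 2) atTop (𝓝 0) := by
    have h1 : Tendsto (fun n : ℕ => hf_wn m o a (rs u)
        * ∫⁻ x in {x | (n : ℝ) ≤ dist x o}, ENNReal.ofReal (Real.exp (-(2 * a) * dist x o)) ∂m) atTop (𝓝 0) := by
      have := ENNReal.Tendsto.const_mul (a := hf_wn m o a (rs u)) (hf_exp_tail hG) (Or.inr hw.ne)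
      simpa using this
    exact tendsto_of_tendsto_of_tendsto_of_le_of_le tendsto_const_nhds h1 (fun n => zero_le)
      (fun n => hf_l1_sq_le hrsL.aestronglyMeasurable o a (hSmeas n))
  have hA : Tendsto (fun n : ℕ => ∫⁻ x in {x | (n : ℝ) ≤ dist x o}, ENNReal.ofReal |rs u x| ∂m) atTop (𝓝 0) := by
    rw [ENNReal.tendsto_nhds_zero] at hA2 ⊢
    intro ε hε
    have hε2 : 0 < ε ^ 2 := by positivity
    filter_upwards [hA2 _ hε2] with n hn
    by_contra hcon
    rw [not_le] at hcon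
    exact absurd hn (not_le.2 (ENNReal.pow_lt_pow_left two_ne_zero hcon))
  have hbound : ∀ n : ℕ, ENNReal.ofReal |hf_E m u (hf_chi o n)|
      ≤ ∫⁻ x in {x | (n : ℝ) ≤ dist x o}, ENNReal.ofReal |rs u x| ∂m := by
    intro n
    have hrel := hf_chi_rel R hfin o (n : ℝ)
    have hGL : MemLp (Set.indicator {x : X | (n : ℝ) ≤ dist x o ∧ dist x o ≤ (n : ℝ) + 1} (fun _ => (1 : ℝ))) 2 m :=
      (R.rel_memLp _ _ hrel).2.1
    have hint := hf_integrable_mul hrsL hGL
    have h1 := R.form_le u (hf_chi o n) _ hu hrel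
    have h2 : |hf_E m u (hf_chi o n)| ≤ ∫ x, ‖rs u x
        * Set.indicator {x : X | (n : ℝ) ≤ dist x o ∧ dist x o ≤ (n : ℝ) + 1} (fun _ => (1 : ℝ)) x‖ ∂m :=
      h1.trans ((Real.le_norm_self _).trans (norm_integral_le_integral_norm _))
    refine (ENNReal.ofReal_le_ofReal h2).trans ?_
    rw [ofReal_integral_norm_eq_lintegral_enorm hint, ← lintegral_indicator (hSmeas n)]
    refine lintegral_mono fun x => ?_
    by_cases hx : (n : ℝ) ≤ dist x o
    · rw [Set.indicator_of_mem (show x ∈ {x : X | (n : ℝ) ≤ dist x o} from hx)]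
      rw [← ofReal_norm]
      refine ENNReal.ofReal_le_ofReal ?_
      rw [norm_mul, Real.norm_eq_abs, Real.norm_eq_abs]
      have : |Set.indicator {x : X | (n : ℝ) ≤ dist x o ∧ dist x o ≤ (n : ℝ) + 1} (fun _ => (1 : ℝ)) x| ≤ 1 := by
        by_cases hx2 : x ∈ {x : X | (n : ℝ) ≤ dist x o ∧ dist x o ≤ (n : ℝ) + 1}
        · rw [Set.indicator_of_mem hx2]; simp
        · rw [Set.indicator_of_notMem hx2]; simp
      calc |rs u x| * _ ≤ |rs u x| * 1 := mul_le_mul_of_nonneg_left this (abs_nonneg _)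
        _ = |rs u x| := mul_one _
    · have hx2 : x ∉ {x : X | (n : ℝ) ≤ dist x o ∧ dist x o ≤ (n : ℝ) + 1} := fun h => hx h.1
      rw [Set.indicator_of_notMem hx2]
      simp
  have hE : Tendsto (fun n : ℕ => ENNReal.ofReal |hf_E m u (hf_chi o n)|) atTop (𝓝 0) :=
    tendsto_of_tendsto_of_tendsto_of_le_of_le tendsto_const_nhds hA (fun n => zero_le) hbound
  have hE2 : Tendsto (fun n : ℕ => |hf_E m u (hf_chi o n)|) atTop (𝓝 0) := by
    have := (ENNReal.tendsto_toReal ENNReal.zero_ne_top).comp hE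
    simpa [Function.comp_def, ENNReal.toReal_ofReal] using this
  exact (tendsto_zero_iff_abs_tendsto_zero _).2 hE2

/-- **HF3 for the resolvent.**  `u = J_δ f`.  `hf_res_eq` with `v = χ_n`:  `δ E(u,χ_n) + ∫ u χ_n = ∫ f χ_n`.   `u, f` integrable (`hf_integrable_of_wn`, `hf_res_wn`), `hf_wn (rs u) < ∞` (`hf_res_wgrad`).  Let `n → ∞` (`hf_chi_tendsto`, `hf_E_chi_tendsto`, `tendsto_nhds_unique`). -/
theorem hf_res_mass (R : hf_RS m rs Rel) (hfin : FiniteOnBoundedSets m) (hG : GoodExp m o a) (hδ : 0 < δ)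
    (h4 : 4 * δ * a ^ 2 ≤ 1) (hf : MemLp f 2 m) (hw : hf_wn m o a f < ∞) :
    ∫ x, resF m δ f x ∂m = ∫ x, f x ∂m := by
  have ha : 0 ≤ a := hG.1.le
  have hu : hf_Dom m (resF m δ f) := hf_res_dom R hδ hf
  have hwu : hf_wn m o a (resF m δ f) < ∞ :=
    lt_of_le_of_lt (hf_res_wn R hδ ha h4 hf o) (ENNReal.mul_lt_top ENNReal.ofReal_lt_top hw)
  have hwg : hf_wn m o a (rs (resF m δ f)) < ∞ := by
    have h1 : ENNReal.ofReal δ * hf_wn m o a (rs (resF m δ f)) < ∞ :=
      lt_of_le_of_lt (hf_res_wgrad R hδ ha h4 hf o) (ENNReal.mul_lt_top (by simp) hw)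
    by_contra hcon
    rw [not_lt, top_le_iff] at hcon
    rw [hcon, ENNReal.mul_top (by simpa using hδ)] at h1
    exact lt_irrefl _ h1
  have hχ : ∀ n : ℕ, hf_Dom m (hf_chi o (n : ℝ)) := fun n =>
    ⟨hf_chi_memLp hfin o n, lt_of_le_of_lt (R.rel_ch _ _ (hf_chi_rel R hfin o n)) ENNReal.ofReal_lt_top⟩
  have hiu : Integrable (resF m δ f) m := hf_integrable_of_wn hG hu.1.aestronglyMeasurable hwu
  have hif : Integrable f m := hf_integrable_of_wn hG hf.aestronglyMeasurable hw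
  have heq : ∀ n : ℕ, δ * hf_E m (resF m δ f) (hf_chi o (n : ℝ)) + ∫ x, resF m δ f x * hf_chi o (n : ℝ) x ∂m
      = ∫ x, f x * hf_chi o (n : ℝ) x ∂m := fun n => hf_res_eq R hδ hf (hχ n)
  have hL : Tendsto (fun n : ℕ => δ * hf_E m (resF m δ f) (hf_chi o (n : ℝ))
      + ∫ x, resF m δ f x * hf_chi o (n : ℝ) x ∂m) atTop (𝓝 (δ * 0 + ∫ x, resF m δ f x ∂m)) :=
    ((hf_E_chi_tendsto R hfin hG hu hwg).const_mul δ).add (hf_chi_tendsto hiu o)
  have hR : Tendsto (fun n : ℕ => δ * hf_E m (resF m δ f) (hf_chi o (n : ℝ))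
      + ∫ x, resF m δ f x * hf_chi o (n : ℝ) x ∂m) atTop (𝓝 (∫ x, f x ∂m)) := by
    simp only [heq]
    exact hf_chi_tendsto hif o
  have := tendsto_nhds_unique hL hR
  simpa using this

theorem hf_res_iter_mass (R : hf_RS m rs Rel) (hfin : FiniteOnBoundedSets m) (hG : GoodExp m o a) (hδ : 0 < δ)
    (h4 : 4 * δ * a ^ 2 ≤ 1) (hf : MemLp f 2 m) (hw : hf_wn m o a f < ∞) (k : ℕ) :
    ∫ x, (resF m δ)^[k] f x ∂m = ∫ x, f x ∂m := by
  induction k with
  | zero => rfl
  | succ k ih =>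
    rw [Function.iterate_succ_apply' (resF m δ)]
    rw [hf_res_mass R hfin hG hδ h4 (hf_res_iter_memLp hf δ k)
      (lt_of_le_of_lt (hf_res_iter_wn R hδ hG.1.le h4 hf o k) (ENNReal.mul_lt_top ENNReal.ofReal_lt_top hw)), ih]

/-- `hf_wn (f - g) ≤ 2 hf_wn f + 2 hf_wn g`. -/
theorem hf_wn_sub_le (hf : AEStronglyMeasurable f m) (o : X) (a : ℝ) :
    hf_wn m o a (fun x => f x - g x) ≤ 2 * hf_wn m o a f + 2 * hf_wn m o a g := by
  unfold hf_wn
  have hm : AEMeasurable (fun x => 2 * ENNReal.ofReal (Real.exp (2 * a * dist x o) * f x ^ 2)) m := by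
    refine AEMeasurable.const_mul ?_ 2
    refine ENNReal.measurable_ofReal.comp_aemeasurable ?_
    refine AEMeasurable.mul ?_ (hf.aemeasurable.pow_const 2)
    exact (Real.continuous_exp.comp (by fun_prop : Continuous fun x : X => 2 * a * dist x o)).measurable.aemeasurable
  rw [← lintegral_const_mul' 2 _ (by norm_num), ← lintegral_const_mul' 2 _ (by norm_num),
    ← lintegral_add_left' hm]
  refine lintegral_mono fun x => ?_
  have he : 0 ≤ Real.exp (2 * a * dist x o) := (Real.exp_pos _).le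
  have h2 : (2 : ℝ≥0∞) = ENNReal.ofReal 2 := by norm_num
  rw [h2, ← ENNReal.ofReal_mul (by norm_num), ← ENNReal.ofReal_mul (by norm_num),
    ← ENNReal.ofReal_add (by positivity) (by positivity)]
  refine ENNReal.ofReal_le_ofReal ?_
  have : (f x - g x) ^ 2 ≤ 2 * f x ^ 2 + 2 * g x ^ 2 := by nlinarith [sq_nonneg (f x + g x)]
  calc Real.exp (2 * a * dist x o) * (f x - g x) ^ 2
      ≤ Real.exp (2 * a * dist x o) * (2 * f x ^ 2 + 2 * g x ^ 2) := mul_le_mul_of_nonneg_left this he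
    _ = _ := by ring

/-- **`L²` convergence + uniform weighted bound ⟹ `L¹` convergence.**   `h_n = fs n - g`:  `hf_wn h_n ≤ 2 hf_wn (fs n) + 2 hf_wn g ≤ 4c` (`hf_closed_wn`).
`∫⁻ |h_n| = ∫⁻_{ζ < k} + ∫⁻_{ζ ≥ k} ≤ (m (ball o k))^{1/2} ‖h_n‖₂ + (4c ∫_{ζ ≥ k} e^{-2aζ})^{1/2}`.   Given `ε`: first `k` (`hf_exp_tail`), then `n`. -/
theorem hf_l1_of_l2_wn (hfin : FiniteOnBoundedSets m) (hG : GoodExp m o a) {fs : ℕ → X → ℝ} (hfs : ∀ n, MemLp (fs n) 2 m)
    (hg : MemLp g 2 m) (hlim : Tendsto (fun n => eLpNorm (fun x => fs n x - g x) 2 m) atTop (𝓝 0)) {c : ℝ≥0∞}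
    (hc : c < ∞) (h : ∀ᶠ n in atTop, hf_wn m o a (fs n) ≤ c) :
    Tendsto (fun n => eLpNorm (fun x => fs n x - g x) 1 m) atTop (𝓝 0) := by
  have hgc : hf_wn m o a g ≤ c := hf_closed_wn hfs hg hlim o a h
  have hmeas : ∀ n, AEStronglyMeasurable (fun x => fs n x - g x) m := fun n =>
    (hfs n).aestronglyMeasurable.sub hg.aestronglyMeasurable
  have hS : ∀ k : ℕ, MeasurableSet {x : X | (k : ℝ) ≤ dist x o} := fun k =>
    measurableSet_le measurable_const (by fun_prop : Continuous fun x : X => dist x o).measurable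
  rw [ENNReal.tendsto_nhds_zero]
  intro ε hε
  have hε2 : 0 < (ε / 2) ^ 2 := by
    have : ε / 2 ≠ 0 := (ENNReal.half_pos hε.ne').ne'
    exact pos_iff_ne_zero.2 (pow_ne_zero 2 this)
  -- choice of `k`
  have hT : Tendsto (fun k : ℕ => 4 * c *
      ∫⁻ x in {x | (k : ℝ) ≤ dist x o}, ENNReal.ofReal (Real.exp (-(2 * a) * dist x o)) ∂m) atTop (𝓝 0) := by
    have := ENNReal.Tendsto.const_mul (a := 4 * c) (hf_exp_tail hG)
      (Or.inr (ENNReal.mul_ne_top (by norm_num) hc.ne))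
    simpa using this
  obtain ⟨k, hk⟩ := ((ENNReal.tendsto_nhds_zero.1 hT) _ hε2).exists
  -- the bounded part
  have hA : m {x : X | (k : ℝ) ≤ dist x o}ᶜ ≠ ∞ := by
    refine (hfin _ ?_).ne
    refine (Metric.isBounded_ball (x := o) (r := k)).subset fun x hx => ?_
    simpa [Metric.mem_ball] using hx
  have hI : Tendsto (fun n => eLpNorm (fun x => fs n x - g x) 2 m *
      (m {x : X | (k : ℝ) ≤ dist x o}ᶜ) ^ ((1 : ℝ) / 2)) atTop (𝓝 0) := by
    have := ENNReal.Tendsto.mul_const (b := (m {x : X | (k : ℝ) ≤ dist x o}ᶜ) ^ ((1 : ℝ) / 2)) hlim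
      (Or.inr (ENNReal.rpow_ne_top_of_nonneg (by norm_num) hA))
    simpa using this
  filter_upwards [h, (ENNReal.tendsto_nhds_zero.1 hI) _ (ENNReal.half_pos hε.ne')] with n hn1 hn2
  have e0 : eLpNorm (fun x => fs n x - g x) 1 m
      = (∫⁻ x in {x | (k : ℝ) ≤ dist x o}, ENNReal.ofReal |fs n x - g x| ∂m)
        + eLpNorm (fun x => fs n x - g x) 1 (m.restrict {x : X | (k : ℝ) ≤ dist x o}ᶜ) := by
    rw [eLpNorm_one_eq_lintegral_enorm, eLpNorm_one_eq_lintegral_enorm,
      ← lintegral_add_compl _ (hS k)]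
    simp only [Real.enorm_eq_ofReal_abs]
  have e1 : (∫⁻ x in {x | (k : ℝ) ≤ dist x o}, ENNReal.ofReal |fs n x - g x| ∂m) ≤ ε / 2 := by
    rw [← ENNReal.pow_le_pow_left_iff (two_ne_zero)]
    refine (hf_l1_sq_le (hmeas n) o a (hS k)).trans (le_trans ?_ hk)
    gcongr
    refine (hf_wn_sub_le (hfs n).aestronglyMeasurable o a).trans ?_
    calc 2 * hf_wn m o a (fs n) + 2 * hf_wn m o a g ≤ 2 * c + 2 * c := by gcongr
      _ = 4 * c := by ring
  have e2 : eLpNorm (fun x => fs n x - g x) 1 (m.restrict {x : X | (k : ℝ) ≤ dist x o}ᶜ) ≤ ε / 2 := by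
    refine le_trans ?_ hn2
    have h3 := eLpNorm_le_eLpNorm_mul_rpow_measure_univ (μ := m.restrict {x : X | (k : ℝ) ≤ dist x o}ᶜ)
      (p := 1) (q := 2) (by norm_num) (hmeas n).restrict
    refine h3.trans ?_
    rw [Measure.restrict_apply_univ]
    have h4 : (1 / (1 : ℝ≥0∞).toReal - 1 / (2 : ℝ≥0∞).toReal) = (1 : ℝ) / 2 := by norm_num
    rw [h4]
    gcongr
    exact Measure.restrict_le_self
  rw [e0]
  calc _ ≤ ε / 2 + ε / 2 := add_le_add e1 e2
    _ = ε := ENNReal.add_halves ε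

/-- the same for a general filter with a countable basis is not needed; version for real parameters: sequences suffice (`tendsto_of_seq_tendsto`). -/
theorem hf_l1_of_l2_wn_real (hfin : FiniteOnBoundedSets m) (hG : GoodExp m o a) {F : ℝ → X → ℝ} (hF : ∀ s, MemLp (F s) 2 m)
    (s₀ : ℝ) (hlim : Tendsto (fun s => eLpNorm (fun x => F s x - F s₀ x) 2 m) (𝓝 s₀) (𝓝 0)) {c : ℝ≥0∞}
    (hc : c < ∞) (h : ∀ᶠ s in 𝓝 s₀, hf_wn m o a (F s) ≤ c) :
    Tendsto (fun s => eLpNorm (fun x => F s x - F s₀ x) 1 m) (𝓝 s₀) (𝓝 0) := by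
  refine tendsto_of_seq_tendsto fun w hw => ?_
  exact hf_l1_of_l2_wn hfin hG (fun n => hF (w n)) (hF s₀) (hlim.comp hw) hc (hw.eventually h)

/-- **HF3 for the heat flow.**  `t = 0`: `hf_heat_of_nonpos`.  `t > 0`: `fs n = (resF m (t/(n+1)))^[n+1] f`; `hf_heat_limit`, `hf_res_iter_wn` (uniform bound `e^{8a²t} hf_wn f` for large `n`), `hf_l1_of_l2_wn`,
`hf_res_iter_mass`;  `|∫ fs n - ∫ g| ≤ ∫ |fs n - g|` (`tendsto_integral_of_L1'` or by hand). -/
theorem hf_heat_mass (R : hf_RS m rs Rel) (hfin : FiniteOnBoundedSets m) (hG : GoodExp m o a) (ht : 0 ≤ t)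
    (hf : MemLp f 2 m) (hw : hf_wn m o a f < ∞) : ∫ x, heatF m t f x ∂m = ∫ x, f x ∂m := by
  rcases ht.eq_or_lt with rfl | ht
  · exact integral_congr_ae (hf_heat_of_nonpos le_rfl hf)
  · have ha : 0 ≤ a := hG.1.le
    have hmem : ∀ n : ℕ, MemLp ((resF m (t / (n + 1)))^[n + 1] f) 2 m := fun n => hf_res_iter_memLp hf _ _
    have hg : MemLp (heatF m t f) 2 m := hf_heatF_memLp m t f
    have hlim := hf_heat_limit R ht hf
    have hev : ∀ᶠ n : ℕ in atTop, 4 * (t / (n + 1)) * a ^ 2 ≤ 1 := by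
      obtain ⟨N, hN⟩ := exists_nat_ge (4 * t * a ^ 2)
      filter_upwards [eventually_ge_atTop N] with n hn
      have h1 : (N : ℝ) ≤ n := by exact_mod_cast hn
      have hpos : (0 : ℝ) < n + 1 := by positivity
      rw [show 4 * (t / ((n : ℝ) + 1)) * a ^ 2 = (4 * t * a ^ 2) / ((n : ℝ) + 1) by ring, div_le_one hpos]
      linarith
    have hbound : ∀ᶠ n : ℕ in atTop, hf_wn m o a ((resF m (t / (n + 1)))^[n + 1] f)
        ≤ ENNReal.ofReal (Real.exp (8 * a ^ 2 * t)) * hf_wn m o a f := by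
      filter_upwards [hev] with n hn
      have hpos : (0 : ℝ) < n + 1 := by positivity
      have h1 := hf_res_iter_wn R (div_pos ht hpos) ha hn hf o (n + 1)
      have e : t / ((n : ℝ) + 1) * ((n + 1 : ℕ) : ℝ) = t := by
        push_cast
        field_simp
      rwa [e] at h1
    have hc : ENNReal.ofReal (Real.exp (8 * a ^ 2 * t)) * hf_wn m o a f < ∞ :=
      ENNReal.mul_lt_top ENNReal.ofReal_lt_top hw
    have hl1 := hf_l1_of_l2_wn hfin hG hmem hg hlim hc hbound
    have hfi : ∀ᶠ n : ℕ in atTop, Integrable ((resF m (t / (n + 1)))^[n + 1] f) m := by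
      filter_upwards [hbound] with n hn
      exact hf_integrable_of_wn hG (hmem n).1 (lt_of_le_of_lt hn hc)
    have hT : Tendsto (fun n : ℕ => ∫ x, (resF m (t / (n + 1)))^[n + 1] f x ∂m) atTop
        (𝓝 (∫ x, heatF m t f x ∂m)) :=
      tendsto_integral_of_L1' _ hg.1 hfi hl1
    have hconst : ∀ᶠ n : ℕ in atTop, ∫ x, (resF m (t / (n + 1)))^[n + 1] f x ∂m = ∫ x, f x ∂m := by
      filter_upwards [hev] with n hn
      exact hf_res_iter_mass R hfin hG (div_pos ht (by positivity)) hn hf hw (n + 1)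
    exact tendsto_nhds_unique hT ((tendsto_congr' hconst).2 tendsto_const_nhds)

/-! ### part d: nice densities -/

/-- `ρ² ≤ e^{2aζ} ρ²` (`a ≥ 0`) -/
theorem hf_nice_memLp (ha : 0 ≤ a) (h : NiceDens m o a B ρ) : MemLp ρ 2 m := by
  refine (memLp_two_iff_integrable_sq h.meas).2 (Integrable.mono' h.tail (h.meas.pow 2) ?_)
  refine Filter.Eventually.of_forall fun x => ?_
  rw [Real.norm_eq_abs, abs_of_nonneg (sq_nonneg _)]
  have h1 : 1 ≤ Real.exp (2 * a * dist x o) := Real.one_le_exp (by positivity)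
  nlinarith [sq_nonneg (ρ x)]

theorem hf_nice_wn (h : NiceDens m o a B ρ) : hf_wn m o a ρ < ∞ := by
  exact (hf_wn_lt_top_iff h.meas o a).2 h.tail

/-- `1 = ∫ ρ ≤ ...`: the bound `B` is nonnegative (else `ρ < 0` a.e. and `ρ ≥ 0` a.e. force `m = 0`, contradiction with `∫ ρ = 1`). -/
theorem hf_nice_B_nonneg (h : NiceDens m o a B ρ) : 0 ≤ B := by
  by_contra hB
  have h0 : ρ =ᵐ[m] fun _ => (0 : ℝ) := by
    filter_upwards [h.nonneg, h.le] with x h1 h2
    exact absurd (h1.trans h2) hB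
  have h1 := h.mass
  rw [integral_congr_ae h0, integral_zero] at h1
  exact zero_ne_one h1

/-- assemble: `hf_res_nonneg`, `hf_res_le`, `hf_res_wn`, `hf_integrable_of_wn`, `hf_res_mass`, `hf_wn_lt_top_iff`. -/
theorem hf_res_nice (R : hf_RS m rs Rel) (hfin : FiniteOnBoundedSets m) (hG : GoodExp m o a) (hδ : 0 < δ)
    (h4 : 4 * δ * a ^ 2 ≤ 1) (h : NiceDens m o a B ρ) : NiceDens m o a B (resF m δ ρ) := by
  have hρ : MemLp ρ 2 m := hf_nice_memLp hG.1.le h
  have hm : AEStronglyMeasurable (resF m δ ρ) m := (hf_resF_memLp m δ ρ).1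
  have hw : hf_wn m o a (resF m δ ρ) < ∞ :=
    lt_of_le_of_lt (hf_res_wn R hδ hG.1.le h4 hρ o) (ENNReal.mul_lt_top ENNReal.ofReal_lt_top (hf_nice_wn h))
  exact
    { meas := hm
      nonneg := hf_res_nonneg R hδ hρ h.nonneg
      le := hf_res_le R hδ hρ (hf_nice_B_nonneg h) h.le
      int := hf_integrable_of_wn hG hm hw
      mass := (hf_res_mass R hfin hG hδ h4 hρ (hf_nice_wn h)).trans h.mass
      tail := (hf_wn_lt_top_iff hm o a).1 hw }

theorem hf_heat_nice (R : hf_RS m rs Rel) (hfin : FiniteOnBoundedSets m) (hG : GoodExp m o a) (ht : 0 ≤ t)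
    (h : NiceDens m o a B ρ) : NiceDens m o a B (heatF m t ρ) := by
  have hρ : MemLp ρ 2 m := hf_nice_memLp hG.1.le h
  have hm : AEStronglyMeasurable (heatF m t ρ) m := (hf_heatF_memLp m t ρ).1
  have hw : hf_wn m o a (heatF m t ρ) < ∞ :=
    lt_of_le_of_lt (hf_heat_wn R ht hG.1.le hρ o) (ENNReal.mul_lt_top ENNReal.ofReal_lt_top (hf_nice_wn h))
  exact
    { meas := hm
      nonneg := hf_heat_nonneg R t hρ h.nonneg
      le := hf_heat_le R t hρ (hf_nice_B_nonneg h) h.le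
      int := hf_integrable_of_wn hG hm hw
      mass := (hf_heat_mass R hfin hG ht hρ (hf_nice_wn h)).trans h.mass
      tail := (hf_wn_lt_top_iff hm o a).1 hw }

end Claimed.Agent.R210.HF.Mass
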