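/-
Row 210 (S0432), layer HF, architect helper897.   File Cont (HF6): CONTINUITY of `s ↦ H_s f` in `L¹` (in `L²`: `Basic.hf_heat_cont`), and of `s ↦ √(H_s ρ)` in `L²`.
Tools: HF/Basic.lean, HF/Weight.lean, HF/Mass.lean (black boxes).
-/
import Claimed.Agent.R210.HF.Mass

set_option autoImplicit false

open Claims.C0366 Claims.C0366.WeakHessian
open Claimed.Agent.R210.Defs Claimed.Agent.R210.Defs2 Claimed.Agent.R210.HS.Defs Claimed.Agent.R210.HF.Defs
open Set Filter MeasureTheory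
open scoped ENNReal NNReal Topology

open Claimed.Agent.R210.HF.Basic Claimed.Agent.R210.HF.Markov Claimed.Agent.R210.HF.Weight Claimed.Agent.R210.HF.Mass

namespace Claimed.Agent.R210.HF.Cont

variable {X : Type*} [MetricSpace X] [MeasurableSpace X] [BorelSpace X] {m : Measure X}
  {rs : (X → ℝ) → X → ℝ} {Rel : (X → ℝ) → (X → ℝ) → Prop} {f g u v ρ : X → ℝ} {δ t s a B : ℝ} {o : X}

/-- weighted bound for all real times (`s ≤ 0`: `hf_heat_of_nonpos`, `hf_wn_congr`; `s ≥ 0`: `hf_heat_wn`; `1 ≤ exp`, `exp` monotone) -/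
theorem hf_heat_wn_all (R : hf_RS m rs Rel) (ha : 0 ≤ a) (hf : MemLp f 2 m) (o : X) {T : ℝ} (hT : 0 ≤ T) (hs : s ≤ T) :
    hf_wn m o a (heatF m s f) ≤ ENNReal.ofReal (Real.exp (8 * a ^ 2 * T)) * hf_wn m o a f := by
  rcases le_total s 0 with h0 | h0
  · rw [hf_wn_congr (hf_heat_of_nonpos h0 hf) o a]
    have h1 : (1 : ℝ≥0∞) ≤ ENNReal.ofReal (Real.exp (8 * a ^ 2 * T)) := by
      rw [← ENNReal.ofReal_one]
      apply ENNReal.ofReal_le_ofReal
      apply Real.one_le_exp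
      positivity
    calc hf_wn m o a f = 1 * hf_wn m o a f := (one_mul _).symm
      _ ≤ ENNReal.ofReal (Real.exp (8 * a ^ 2 * T)) * hf_wn m o a f := mul_le_mul_left h1 _
  · refine (hf_heat_wn R h0 ha hf o).trans ?_
    apply mul_le_mul_left
    apply ENNReal.ofReal_le_ofReal
    apply Real.exp_le_exp.2
    apply mul_le_mul_of_nonneg_left hs
    positivity

/-- **HF6.**  `hf_l1_of_l2_wn_real` with `F s = heatF m s f`, `hf_heat_cont`, `hf_heat_wn_all` with `T = |s₀| + 1` (eventually `s ≤ T`). -/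
theorem hf_heat_cont_l1 (R : hf_RS m rs Rel) (hfin : FiniteOnBoundedSets m) (hG : GoodExp m o a) (hf : MemLp f 2 m)
    (hw : hf_wn m o a f < ∞) (s₀ : ℝ) :
    Tendsto (fun s => eLpNorm (fun x => heatF m s f x - heatF m s₀ f x) 1 m) (𝓝 s₀) (𝓝 0) := by
  have hT : (0 : ℝ) ≤ |s₀| + 1 := by positivity
  refine hf_l1_of_l2_wn_real hfin hG (F := fun s => heatF m s f) (fun s => hf_heatF_memLp m s f) s₀
    (hf_heat_cont R hf s₀)
    (c := ENNReal.ofReal (Real.exp (8 * a ^ 2 * (|s₀| + 1))) * hf_wn m o a f)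
    (ENNReal.mul_lt_top ENNReal.ofReal_lt_top hw) ?_
  have hev : ∀ᶠ s in 𝓝 s₀, s ≤ |s₀| + 1 := by
    have : s₀ < |s₀| + 1 := by linarith [le_abs_self s₀]
    exact (eventually_lt_nhds this).mono fun s hs => hs.le
  filter_upwards [hev] with s hs
  exact hf_heat_wn_all R hG.1.le hf o hT hs

/-- `|√x - √y|² ≤ |x - y|` for `x, y ≥ 0`, hence `‖√f - √g‖₂² ≤ ‖f - g‖₁`. -/
theorem hf_sqrt_l2_le (hf : AEStronglyMeasurable f m) (hg : AEStronglyMeasurable g m) (hf0 : ∀ᵐ x ∂m, 0 ≤ f x)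
    (hg0 : ∀ᵐ x ∂m, 0 ≤ g x) :
    eLpNorm (fun x => Real.sqrt (f x) - Real.sqrt (g x)) 2 m ^ 2 ≤ eLpNorm (fun x => f x - g x) 1 m := by
  rw [eLpNorm_one_eq_lintegral_enorm,
    eLpNorm_eq_lintegral_rpow_enorm_toReal (by norm_num) (by norm_num)]
  have e2 : ((2 : ℝ≥0∞).toReal) = 2 := by norm_num
  rw [e2, ← ENNReal.rpow_natCast, ← ENNReal.rpow_mul]
  norm_num
  refine lintegral_mono_ae ?_
  filter_upwards [hf0, hg0] with x hx hy
  rw [Real.enorm_eq_ofReal_abs, Real.enorm_eq_ofReal_abs, ← ENNReal.ofReal_pow (abs_nonneg _)]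
  refine ENNReal.ofReal_le_ofReal ?_
  have h1 : f x - g x = (Real.sqrt (f x) - Real.sqrt (g x)) * (Real.sqrt (f x) + Real.sqrt (g x)) := by
    have a1 := Real.sq_sqrt hx
    have a2 := Real.sq_sqrt hy
    nlinarith
  rw [h1, abs_mul, sq]
  refine mul_le_mul_of_nonneg_left ?_ (abs_nonneg _)
  have b1 := Real.sqrt_nonneg (f x)
  have b2 := Real.sqrt_nonneg (g x)
  rw [abs_of_nonneg (add_nonneg b1 b2), abs_le]
  constructor <;> linarith

/-- `√f ∈ L²` for integrable `f ≥ 0` -/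
theorem hf_sqrt_memLp (hf : Integrable f m) (hf0 : ∀ᵐ x ∂m, 0 ≤ f x) : MemLp (fun x => Real.sqrt (f x)) 2 m := by
  have hm : AEStronglyMeasurable (fun x => Real.sqrt (f x)) m :=
    Real.continuous_sqrt.comp_aestronglyMeasurable hf.aestronglyMeasurable
  rw [memLp_two_iff_integrable_sq hm]
  refine hf.congr ?_
  filter_upwards [hf0] with x hx
  exact (Real.sq_sqrt hx).symm

/-- continuity of `s ↦ √ρ_s` in `L²` (all real `s`) -/
theorem hf_sqrt_heat_cont (R : hf_RS m rs Rel) (hfin : FiniteOnBoundedSets m) (hG : GoodExp m o a)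
    (h : NiceDens m o a B ρ) (s₀ : ℝ) :
    Tendsto (fun s => eLpNorm (fun x => Real.sqrt (heatF m s ρ x) - Real.sqrt (heatF m s₀ ρ x)) 2 m) (𝓝 s₀) (𝓝 0) := by
  have hρ : MemLp ρ 2 m := hf_nice_memLp hG.1.le h
  have hl1 := hf_heat_cont_l1 R hfin hG hρ (hf_nice_wn h) s₀
  have hsq : Tendsto (fun s => eLpNorm (fun x => Real.sqrt (heatF m s ρ x) - Real.sqrt (heatF m s₀ ρ x)) 2 m ^ 2)
      (𝓝 s₀) (𝓝 0) := by
    refine tendsto_of_tendsto_of_tendsto_of_le_of_le tendsto_const_nhds hl1 (fun _ => zero_le) (fun s => ?_)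
    exact hf_sqrt_l2_le (hf_heatF_memLp m s ρ).aestronglyMeasurable (hf_heatF_memLp m s₀ ρ).aestronglyMeasurable
      (hf_heat_nonneg R s hρ h.nonneg) (hf_heat_nonneg R s₀ hρ h.nonneg)
  have h2 := ((ENNReal.continuous_rpow_const (y := (1 / 2 : ℝ))).tendsto 0).comp hsq
  have e0 : ((0 : ℝ≥0∞) ^ (1 / 2 : ℝ)) = 0 := ENNReal.zero_rpow_of_pos (by norm_num)
  rw [e0] at h2
  refine h2.congr (fun s => ?_)
  simp only [Function.comp_def]
  rw [← ENNReal.rpow_natCast, ← ENNReal.rpow_mul]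
  norm_num

end Claimed.Agent.R210.HF.Cont
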