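/-
Row 210 (S0432), layer HF, architect helper897.   File Fn1d: ONE-DIMENSIONAL CALCULUS for the functions `hf_phi, hf_e, hf_psi, hf_sq` of HF/Defs.lean (pure real analysis, no measure space).   `η > 0`, `b ≥ 0`.
   `hf_dphi η y = 1/(y⁺+η)`,  `hf_phi η z = ∫_0^z hf_dphi`,  `hf_e η z = ∫_0^z hf_phi`,  `hf_dpsi η y = 1/(2√(y⁺+η))`,  `hf_psi η z = ∫_0^z hf_dpsi`,  `hf_dsq b y = 2 clamp(y,-b,b)`,  `hf_sq b z = ∫_0^z hf_dsq`.
Tools: `intervalIntegral.integral_hasDerivAt_right` (integrand continuous: `Continuous.intervalIntegrable`, `Continuous.stronglyMeasurableAtFilter`, `ContinuousAt`), i.e. `Continuous.deriv_integral`/`intervalIntegral.deriv_integral_right`;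
explicit formulas on `z ≥ 0`: both sides have the same derivative on `(0,∞)`/are equal at `0`: `intervalIntegral.integral_eq_sub_of_hasDerivAt` with the explicit primitive (on `[0,z]`: `max y 0 = y`; use `intervalIntegral.integral_congr`);
inequalities: mean value theorem / monotonicity (`monotone_of_deriv_nonneg`, `Convex.norm_image_sub_le_of_norm_hasDerivWithin_le`, `image_sub_le_mul_sub_of_deriv_le`) or `intervalIntegral.integral_mono_on`.
-/
import Claimed.Agent.R210.HF.Defs

set_option autoImplicit false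

open Claims.C0366 Claims.C0366.WeakHessian
open Claimed.Agent.R210.Defs Claimed.Agent.R210.Defs2 Claimed.Agent.R210.HS.Defs Claimed.Agent.R210.HF.Defs
open Set Filter MeasureTheory
open scoped ENNReal NNReal Topology

namespace Claimed.Agent.R210.HF.Fn1d

variable {η b z y : ℝ}

/-! ### part a: `φ_η` -/

theorem hf_dphi_continuous (hη : 0 < η) : Continuous (hf_dphi η) := by
  unfold hf_dphi
  refine Continuous.inv₀ (by fun_prop) (fun y => ?_)
  have : 0 ≤ max y 0 := le_max_right _ _
  positivity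

theorem hf_dphi_pos (hη : 0 < η) (y : ℝ) : 0 < hf_dphi η y := by
  unfold hf_dphi
  have : 0 ≤ max y 0 := le_max_right _ _
  positivity

theorem hf_dphi_le (hη : 0 < η) (y : ℝ) : hf_dphi η y ≤ η⁻¹ := by
  unfold hf_dphi
  have : 0 ≤ max y 0 := le_max_right _ _
  exact inv_anti₀ hη (by linarith)

theorem hf_phi_hasDerivAt (hη : 0 < η) (z : ℝ) : HasDerivAt (hf_phi η) (hf_dphi η z) z := by
  have hc := hf_dphi_continuous hη
  exact intervalIntegral.integral_hasDerivAt_right (hc.intervalIntegrable _ _)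
    (hc.stronglyMeasurableAtFilter _ _) hc.continuousAt

theorem hf_phi_zero (η : ℝ) : hf_phi η 0 = 0 := by
  simp [hf_phi]

theorem hf_phi_of_nonneg (hη : 0 < η) (hz : 0 ≤ z) : hf_phi η z = Real.log (z + η) - Real.log η := by
  have hc := hf_dphi_continuous hη
  have h : ∫ y in (0 : ℝ)..z, hf_dphi η y = Real.log (z + η) - Real.log (0 + η) := by
    refine intervalIntegral.integral_eq_sub_of_hasDerivAt (f := fun y => Real.log (y + η)) (fun y hy => ?_)
      (hc.intervalIntegrable _ _)
    rw [uIcc_of_le hz] at hy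
    have hy0 : 0 ≤ y := hy.1
    have h1 : HasDerivAt (fun y : ℝ => y + η) 1 y := (hasDerivAt_id y).add_const η
    have h2 := h1.log (by positivity : y + η ≠ 0)
    unfold hf_dphi
    rw [max_eq_left hy0]
    simpa [one_div] using h2
  unfold hf_phi
  rw [h, zero_add]

theorem hf_phi_mono (hη : 0 < η) : Monotone (hf_phi η) :=
  monotone_of_deriv_nonneg (fun z => (hf_phi_hasDerivAt hη z).differentiableAt)
    (fun z => by rw [(hf_phi_hasDerivAt hη z).deriv]; exact (hf_dphi_pos hη z).le)

theorem hf_phi_lip (hη : 0 < η) (z z' : ℝ) : |hf_phi η z - hf_phi η z'| ≤ η⁻¹ * |z - z'| := by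
  have h := Convex.norm_image_sub_le_of_norm_hasDerivWithin_le (f := hf_phi η) (f' := hf_dphi η) (C := η⁻¹)
    (s := univ) (x := z') (y := z) (fun x _ => (hf_phi_hasDerivAt hη x).hasDerivWithinAt)
    (fun x _ => by
      rw [Real.norm_eq_abs, abs_of_pos (hf_dphi_pos hη x)]
      exact hf_dphi_le hη x) convex_univ (mem_univ _) (mem_univ _)
  simpa [Real.norm_eq_abs] using h

theorem hf_phi_continuous (hη : 0 < η) : Continuous (hf_phi η) :=
  continuous_iff_continuousAt.2 (fun z => (hf_phi_hasDerivAt hη z).continuousAt)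

/-! ### part b: `e_η` -/

theorem hf_e_hasDerivAt (hη : 0 < η) (z : ℝ) : HasDerivAt (hf_e η) (hf_phi η z) z := by
  have c := hf_phi_continuous hη
  exact intervalIntegral.integral_hasDerivAt_right (c.intervalIntegrable _ _)
    (c.stronglyMeasurableAtFilter _ _) c.continuousAt

theorem hf_e_zero (η : ℝ) : hf_e η 0 = 0 := by
  simp [hf_e]

theorem hf_e_continuous (hη : 0 < η) : Continuous (hf_e η) :=
  continuous_iff_continuousAt.2 fun z => (hf_e_hasDerivAt hη z).continuousAt

/-- convexity: `e(b') - e(a') ≥ φ(a') (b' - a')`  (`g(x) = e(x) - φ(a') x` has derivative `φ(x) - φ(a')`, `≤ 0` left of `a'`, `≥ 0` right of it) -/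
theorem hf_e_convex (hη : 0 < η) (a' b' : ℝ) : hf_phi η a' * (b' - a') ≤ hf_e η b' - hf_e η a' := by
  rcases lt_trichotomy a' b' with h | h | h
  · obtain ⟨c, hc, hcs⟩ := exists_hasDerivAt_eq_slope (hf_e η) (hf_phi η) h
      (hf_e_continuous hη).continuousOn (fun x _ => hf_e_hasDerivAt hη x)
    have hpos : 0 < b' - a' := sub_pos.2 h
    have h1 : hf_e η b' - hf_e η a' = hf_phi η c * (b' - a') := by
      rw [hcs]; field_simp
    rw [h1]
    exact mul_le_mul_of_nonneg_right (hf_phi_mono hη hc.1.le) hpos.le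
  · subst h; simp
  · obtain ⟨c, hc, hcs⟩ := exists_hasDerivAt_eq_slope (hf_e η) (hf_phi η) h
      (hf_e_continuous hη).continuousOn (fun x _ => hf_e_hasDerivAt hη x)
    have hpos : 0 < a' - b' := sub_pos.2 h
    have h1 : hf_e η a' - hf_e η b' = hf_phi η c * (a' - b') := by
      rw [hcs]; field_simp
    have h2 : hf_phi η c * (a' - b') ≤ hf_phi η a' * (a' - b') :=
      mul_le_mul_of_nonneg_right (hf_phi_mono hη hc.2.le) hpos.le
    nlinarith

/-- `e(b') - e(a') - φ(a')(b' - a') ≤ (b' - a')²/(2η)`  (`φ` is `1/η`-Lipschitz) -/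
theorem hf_e_quad (hη : 0 < η) (a' b' : ℝ) :
    hf_e η b' - hf_e η a' - hf_phi η a' * (b' - a') ≤ (b' - a') ^ 2 / (2 * η) := by
  set G : ℝ → ℝ := fun x => hf_e η x - hf_phi η a' * (x - a') - (x - a') ^ 2 / (2 * η) with hG
  set G' : ℝ → ℝ := fun x => hf_phi η x - hf_phi η a' - (x - a') / η with hG'
  have hder : ∀ x, HasDerivAt G (G' x) x := by
    intro x
    have h1 : HasDerivAt (fun x : ℝ => x - a') 1 x := (hasDerivAt_id x).sub_const a'
    have h2 := ((hf_e_hasDerivAt hη x).sub (h1.const_mul (hf_phi η a'))).sub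
      ((h1.pow 2).div_const (2 * η))
    have h2' : HasDerivAt G (hf_phi η x - hf_phi η a' * 1 -
        (2 : ℕ) * (x - a') ^ (2 - 1) * 1 / (2 * η)) x := h2
    convert h2' using 1
    show hf_phi η x - hf_phi η a' - (x - a') / η = _
    field_simp
    ring
  have hcont : Continuous G := continuous_iff_continuousAt.2 fun x => (hder x).continuousAt
  have hGa : G a' = hf_e η a' := by simp [hG]
  have key : G b' ≤ G a' := by
    rcases lt_trichotomy a' b' with h | h | h
    · obtain ⟨c, hc, hcs⟩ := exists_hasDerivAt_eq_slope G G' h hcont.continuousOn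
        (fun x _ => hder x)
      have hpos : 0 < b' - a' := sub_pos.2 h
      have h1 : G b' - G a' = G' c * (b' - a') := by
        rw [hcs]; field_simp
      have h3 : G' c ≤ 0 := by
        have := hf_phi_lip hη c a'
        rw [abs_of_pos (sub_pos.2 hc.1)] at this
        have h4 := le_abs_self (hf_phi η c - hf_phi η a')
        show hf_phi η c - hf_phi η a' - (c - a') / η ≤ 0
        have : η⁻¹ * (c - a') = (c - a') / η := by field_simp
        linarith
      nlinarith
    · subst h; exact le_refl _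
    · obtain ⟨c, hc, hcs⟩ := exists_hasDerivAt_eq_slope G G' h hcont.continuousOn
        (fun x _ => hder x)
      have hpos : 0 < a' - b' := sub_pos.2 h
      have h1 : G a' - G b' = G' c * (a' - b') := by
        rw [hcs]; field_simp
      have h3 : 0 ≤ G' c := by
        have := hf_phi_lip hη c a'
        rw [abs_of_neg (sub_neg.2 hc.2)] at this
        have h4 := neg_abs_le (hf_phi η c - hf_phi η a')
        show 0 ≤ hf_phi η c - hf_phi η a' - (c - a') / η
        have : η⁻¹ * (-(c - a')) = -((c - a') / η) := by field_simp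
        linarith
      nlinarith
  rw [hGa] at key
  have key' : hf_e η b' - hf_phi η a' * (b' - a') - (b' - a') ^ 2 / (2 * η) ≤ hf_e η a' := key
  linarith

/-- `hf_e_convex` with `a' = 0` -/
theorem hf_e_nonneg (hη : 0 < η) (z : ℝ) : 0 ≤ hf_e η z := by
  have := hf_e_convex hη 0 z
  simpa [hf_phi_zero, hf_e_zero] using this

/-- `hf_e_quad` with `a' = 0` -/
theorem hf_e_le (hη : 0 < η) (z : ℝ) : hf_e η z ≤ z ^ 2 / (2 * η) := by
  have := hf_e_quad hη 0 z
  simpa [hf_phi_zero, hf_e_zero] using this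

/-- explicit formula -/
theorem hf_e_of_nonneg (hη : 0 < η) (hz : 0 ≤ z) :
    hf_e η z = (z + η) * Real.log (z + η) - η * Real.log η - z - z * Real.log η := by
  have hder : ∀ x ∈ uIcc (0 : ℝ) z, HasDerivAt
      (fun y : ℝ => (y + η) * Real.log (y + η) - (y + η) - y * Real.log η) (hf_phi η x) x := by
    intro x hx
    rw [uIcc_of_le hz] at hx
    have hxp : 0 < x + η := by linarith [hx.1]
    have h1 : HasDerivAt (fun y : ℝ => y + η) 1 x := (hasDerivAt_id x).add_const η
    have h2 := h1.log hxp.ne'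
    have h3 := ((h1.mul h2).sub h1).sub ((hasDerivAt_id x).mul_const (Real.log η))
    have h3' : HasDerivAt (fun y : ℝ => (y + η) * Real.log (y + η) - (y + η) - y * Real.log η)
        (1 * Real.log (x + η) + (x + η) * (1 / (x + η)) - 1 - 1 * Real.log η) x := h3
    convert h3' using 1
    rw [hf_phi_of_nonneg hη hx.1]
    field_simp
    ring
  have := intervalIntegral.integral_eq_sub_of_hasDerivAt hder
    ((hf_phi_continuous hη).intervalIntegrable _ _)
  rw [hf_e, this]
  simp
  ring

/-! ### part c: `ψ_η` -/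

theorem hf_dpsi_continuous (hη : 0 < η) : Continuous (hf_dpsi η) := by
  unfold hf_dpsi
  refine Continuous.inv₀ (by fun_prop) (fun y => ?_)
  have : 0 ≤ max y 0 := le_max_right _ _
  have h2 : 0 < Real.sqrt (max y 0 + η) := Real.sqrt_pos.2 (by linarith)
  positivity

theorem hf_dpsi_pos (hη : 0 < η) (y : ℝ) : 0 < hf_dpsi η y := by
  unfold hf_dpsi
  have : 0 ≤ max y 0 := le_max_right _ _
  have h2 : 0 < Real.sqrt (max y 0 + η) := Real.sqrt_pos.2 (by linarith)
  positivity

theorem hf_dpsi_le (hη : 0 < η) (y : ℝ) : hf_dpsi η y ≤ (2 * Real.sqrt η)⁻¹ := by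
  unfold hf_dpsi
  have : 0 ≤ max y 0 := le_max_right _ _
  have h1 : 0 < Real.sqrt η := Real.sqrt_pos.2 hη
  have h2 : Real.sqrt η ≤ Real.sqrt (max y 0 + η) := Real.sqrt_le_sqrt (by linarith)
  exact inv_anti₀ (by positivity) (by linarith)

/-- `4 ψ_η'² = φ_η'` -/
theorem hf_dpsi_sq (hη : 0 < η) (y : ℝ) : 4 * hf_dpsi η y ^ 2 = hf_dphi η y := by
  unfold hf_dpsi hf_dphi
  have : 0 ≤ max y 0 := le_max_right _ _
  have h0 : 0 < max y 0 + η := by linarith
  have h2 : Real.sqrt (max y 0 + η) ^ 2 = max y 0 + η := Real.sq_sqrt h0.le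
  rw [inv_pow, mul_pow, h2]
  field_simp
  norm_num

theorem hf_psi_hasDerivAt (hη : 0 < η) (z : ℝ) : HasDerivAt (hf_psi η) (hf_dpsi η z) z := by
  have hc := hf_dpsi_continuous hη
  exact intervalIntegral.integral_hasDerivAt_right (hc.intervalIntegrable _ _)
    (hc.stronglyMeasurableAtFilter _ _) hc.continuousAt

theorem hf_psi_zero (η : ℝ) : hf_psi η 0 = 0 := by
  simp [hf_psi]

theorem hf_psi_of_nonneg (hη : 0 < η) (hz : 0 ≤ z) : hf_psi η z = Real.sqrt (z + η) - Real.sqrt η := by
  have hc := hf_dpsi_continuous hη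
  have h : ∫ y in (0 : ℝ)..z, hf_dpsi η y = Real.sqrt (z + η) - Real.sqrt (0 + η) := by
    refine intervalIntegral.integral_eq_sub_of_hasDerivAt (f := fun y => Real.sqrt (y + η)) (fun y hy => ?_)
      (hc.intervalIntegrable _ _)
    rw [uIcc_of_le hz] at hy
    have hy0 : 0 ≤ y := hy.1
    have h1 : HasDerivAt (fun y : ℝ => y + η) 1 y := (hasDerivAt_id y).add_const η
    have h2 := h1.sqrt (by positivity : y + η ≠ 0)
    unfold hf_dpsi
    rw [max_eq_left hy0]
    simpa [one_div] using h2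
  unfold hf_psi
  rw [h, zero_add]

theorem hf_psi_lip (hη : 0 < η) : LipschitzWith (Real.toNNReal (2 * Real.sqrt η)⁻¹) (hf_psi η) := by
  have h1 : 0 < Real.sqrt η := Real.sqrt_pos.2 hη
  refine lipschitzWith_of_nnnorm_deriv_le (fun z => (hf_psi_hasDerivAt hη z).differentiableAt) (fun z => ?_)
  rw [(hf_psi_hasDerivAt hη z).deriv, ← NNReal.coe_le_coe, coe_nnnorm, Real.norm_eq_abs,
    abs_of_pos (hf_dpsi_pos hη z), Real.coe_toNNReal _ (by positivity)]
  exact hf_dpsi_le hη z

/-- `0 ≤ √z - ψ_η z`, `(√z - ψ_η z)² ≤ min z η`  for `z ≥ 0`:   `d = √z + √η - √(z+η)`, `0 ≤ d ≤ √z`, `d ≤ √η`. -/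
theorem hf_psi_sqrt (hη : 0 < η) (hz : 0 ≤ z) : (Real.sqrt z - hf_psi η z) ^ 2 ≤ min z η := by
  rw [hf_psi_of_nonneg hη hz]
  have a0 : 0 ≤ Real.sqrt z := Real.sqrt_nonneg _
  have b0 : 0 ≤ Real.sqrt η := Real.sqrt_nonneg _
  have c0 : 0 ≤ Real.sqrt (z + η) := Real.sqrt_nonneg _
  have a2 : Real.sqrt z ^ 2 = z := Real.sq_sqrt hz
  have b2 : Real.sqrt η ^ 2 = η := Real.sq_sqrt hη.le
  have c2 : Real.sqrt (z + η) ^ 2 = z + η := Real.sq_sqrt (by linarith)
  have hca : Real.sqrt z ≤ Real.sqrt (z + η) := Real.sqrt_le_sqrt (by linarith)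
  have hcb : Real.sqrt η ≤ Real.sqrt (z + η) := Real.sqrt_le_sqrt (by linarith)
  have hcab : Real.sqrt (z + η) ≤ Real.sqrt z + Real.sqrt η := by
    apply abs_le_of_sq_le_sq' _ (by positivity) |>.2
    nlinarith
  set a := Real.sqrt z
  set b' := Real.sqrt η
  set c := Real.sqrt (z + η)
  have d0 : 0 ≤ a - (c - b') := by linarith
  refine le_min ?_ ?_
  · rw [← a2]
    exact pow_le_pow_left₀ d0 (by linarith) 2
  · rw [← b2]
    exact pow_le_pow_left₀ d0 (by linarith) 2

/-! ### part d: the truncated square -/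

theorem hf_dsq_continuous (b : ℝ) : Continuous (hf_dsq b) := by
  unfold hf_dsq
  fun_prop

theorem hf_dsq_abs_le (hb : 0 ≤ b) (y : ℝ) : |hf_dsq b y| ≤ 2 * b := by
  unfold hf_dsq
  rw [abs_mul, abs_of_nonneg (by norm_num : (0:ℝ) ≤ 2)]
  have h1 : -b ≤ max (-b) (min b y) := le_max_left _ _
  have h2 : max (-b) (min b y) ≤ b := max_le (by linarith) (min_le_left _ _)
  have h3 : |max (-b) (min b y)| ≤ b := abs_le.2 ⟨h1, h2⟩
  linarith

theorem hf_dsq_of_mem (hy : |y| ≤ b) : hf_dsq b y = 2 * y := by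
  unfold hf_dsq
  have h := abs_le.1 hy
  rw [min_eq_right h.2, max_eq_right h.1]

theorem hf_sq_hasDerivAt (b z : ℝ) : HasDerivAt (hf_sq b) (hf_dsq b z) z := by
  have hc := hf_dsq_continuous b
  exact intervalIntegral.integral_hasDerivAt_right (hc.intervalIntegrable _ _)
    (hc.stronglyMeasurableAtFilter _ _) hc.continuousAt

theorem hf_sq_zero (b : ℝ) : hf_sq b 0 = 0 := by
  simp [hf_sq]

theorem hf_sq_of_mem (hz : |z| ≤ b) : hf_sq b z = z ^ 2 := by
  unfold hf_sq
  have hcongr : ∫ y in (0 : ℝ)..z, hf_dsq b y = ∫ y in (0 : ℝ)..z, 2 * y := by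
    apply intervalIntegral.integral_congr
    intro y hy
    have hy' : |y| ≤ |z| := by
      rcases le_total 0 z with h | h
      · rw [Set.uIcc_of_le h] at hy
        rw [abs_of_nonneg hy.1, abs_of_nonneg h]
        exact hy.2
      · rw [Set.uIcc_of_ge h] at hy
        rw [abs_of_nonpos hy.2, abs_of_nonpos h]
        linarith [hy.1]
    exact hf_dsq_of_mem (hy'.trans hz)
  rw [hcongr]
  have hd : ∀ x ∈ Set.uIcc (0 : ℝ) z, HasDerivAt (fun x : ℝ => x ^ 2) (2 * x) x := by
    intro x _
    simpa using hasDerivAt_pow 2 x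
  rw [intervalIntegral.integral_eq_sub_of_hasDerivAt hd
    ((by fun_prop : Continuous fun x : ℝ => 2 * x).intervalIntegrable _ _)]
  simp

/-! ### part e: `k_η(z) = (z+η) log (z+η) - η log η` -/

/-- `z log z ≥ -2√z` for `z ≥ 0`   (`-log √z ≤ 1/√z - 1`: `Real.log_le_sub_one_of_pos` applied to `1/√z`; `log z = 2 log √z`) -/
theorem hf_mul_log_ge (hz : 0 ≤ z) : -(2 * Real.sqrt z) ≤ z * Real.log z := by
  rcases hz.eq_or_lt with h | h
  · subst h; simp
  · have hs : 0 < Real.sqrt z := Real.sqrt_pos.2 h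
    have hsq : Real.sqrt z * Real.sqrt z = z := Real.mul_self_sqrt hz
    have hlog : Real.log z = 2 * Real.log (Real.sqrt z) := by
      conv_lhs => rw [← hsq]
      rw [Real.log_mul hs.ne' hs.ne']; ring
    have h1 := Real.one_sub_inv_le_log_of_pos hs
    have h2 : Real.sqrt z * (1 - (Real.sqrt z)⁻¹) ≤ Real.sqrt z * Real.log (Real.sqrt z) :=
      mul_le_mul_of_nonneg_left h1 hs.le
    have h3 : Real.sqrt z * (1 - (Real.sqrt z)⁻¹) = Real.sqrt z - 1 := by
      field_simp
    rw [h3] at h2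
    have h4 : -1 ≤ Real.sqrt z * Real.log (Real.sqrt z) := by linarith
    have h5 : z * Real.log z = 2 * Real.sqrt z * (Real.sqrt z * Real.log (Real.sqrt z)) := by
      rw [hlog]
      calc z * (2 * Real.log (Real.sqrt z))
          = (Real.sqrt z * Real.sqrt z) * (2 * Real.log (Real.sqrt z)) := by rw [hsq]
        _ = _ := by ring
    rw [h5]
    nlinarith

/-- lower bound: `(z+η) log (z+η) = z log (z+η) + η log (z+η) ≥ z log z + η log η` -/
theorem hf_k_ge (hη : 0 < η) (hz : 0 ≤ z) : z * Real.log z ≤ (z + η) * Real.log (z + η) - η * Real.log η := by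
  rcases hz.eq_or_lt with h | h
  · subst h; simp
  · have h1 : Real.log z ≤ Real.log (z + η) := Real.log_le_log h (by linarith)
    have h2 : Real.log η ≤ Real.log (z + η) := Real.log_le_log hη (by linarith)
    have h3 := mul_le_mul_of_nonneg_left h1 hz
    have h4 := mul_le_mul_of_nonneg_left h2 hη.le
    nlinarith

/-- upper bound for `z ≤ B`, `η ≤ 1`:  `k_η(z) = ∫_0^z (log (y+η) + 1) dy ≤ z (log (B+1) + 1)`
(or: mean value theorem for `x log x` on `[η, z+η]`, derivative `log x + 1 ≤ log (B+1) + 1`). -/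
theorem hf_k_le {B : ℝ} (hη : 0 < η) (hη1 : η ≤ 1) (hz : 0 ≤ z) (hzB : z ≤ B) :
    (z + η) * Real.log (z + η) - η * Real.log η ≤ z * (Real.log (B + 1) + 1) := by
  have hzη : 0 < z + η := by linarith
  have h1 : Real.log (z + η) ≤ Real.log (B + 1) := Real.log_le_log hzη (by linarith)
  have h2 : Real.log (z + η) - Real.log η ≤ z / η := by
    rw [← Real.log_div hzη.ne' hη.ne']
    have := Real.log_le_sub_one_of_pos (div_pos hzη hη)
    have h3 : (z + η) / η - 1 = z / η := by field_simp; ring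
    linarith
  have h4 : η * (Real.log (z + η) - Real.log η) ≤ z := by
    have := mul_le_mul_of_nonneg_left h2 hη.le
    have h5 : η * (z / η) = z := by field_simp
    linarith
  have h6 := mul_le_mul_of_nonneg_left h1 hz
  nlinarith

/-- `k_η(z) → z log z` as `η → 0`  (`Real.continuous_mul_log`) -/
theorem hf_k_tendsto (z : ℝ) :
    Tendsto (fun η : ℝ => (z + η) * Real.log (z + η) - η * Real.log η) (𝓝 0) (𝓝 (z * Real.log z)) := by
  have c1 : Continuous fun η : ℝ => (z + η) * Real.log (z + η) :=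
    Real.continuous_mul_log.comp (continuous_const.add continuous_id)
  have c : Continuous fun η : ℝ => (z + η) * Real.log (z + η) - η * Real.log η :=
    c1.sub Real.continuous_mul_log
  have := c.tendsto 0
  simpa using this

end Claimed.Agent.R210.HF.Fn1d
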