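/-
Row 210 (S0432), layer HF, architect helper897.   File Diss (HF4 (a)): REGULARISED ENTROPY DISSIPATION.      `η > 0`,  `f ∈ L²`,  `ρ_s = heatF m s f`,  `Φ_η(g) = ∫ e_η(g) dm` (`e_η = hf_e η`, `0 ≤ e_η(z) ≤ z²/(2η)`).
   d/ds Φ_η(ρ_s) = ∫ φ_η(ρ_s) Δρ_s = -E(ρ_s, φ_η(ρ_s)) ≤ -8 Ch(ψ_η(ρ_s)).
No sign condition on `f` is needed: `φ_η, ψ_η` are `C¹` on the whole line with bounded derivatives and `4 ψ_η'² = φ_η'`.
Tools: HF/Basic.lean (`hf_heat_deriv`, `hf_heat_cont`, `hf_heat_dom`, ...), HF/Fn1d.lean, the package `R`.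
-/
import Claimed.Agent.R210.HF.Basic
import Claimed.Agent.R210.HF.Fn1d

set_option autoImplicit false

open Claims.C0366 Claims.C0366.WeakHessian
open Claimed.Agent.R210.Defs Claimed.Agent.R210.Defs2 Claimed.Agent.R210.HS.Defs Claimed.Agent.R210.HF.Defs
open Set Filter MeasureTheory
open scoped ENNReal NNReal Topology

open Claimed.Agent.R210.HF.Basic Claimed.Agent.R210.HF.Fn1d

namespace Claimed.Agent.R210.HF.Diss

variable {X : Type*} [MetricSpace X] [MeasurableSpace X] [BorelSpace X] {m : Measure X}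
  {rs : (X → ℝ) → X → ℝ} {Rel : (X → ℝ) → (X → ℝ) → Prop} {f g u v ρ : X → ℝ} {δ t s η : ℝ}

/-! ### part a: static facts -/

/-- `|φ_η z| ≤ |z|/η`, `φ_η` continuous -/
theorem hf_phi_memLp (hη : 0 < η) (hf : MemLp f 2 m) : MemLp (fun x => hf_phi η (f x)) 2 m := by
  refine hf.of_le_mul (c := η⁻¹) ((hf_phi_continuous hη).comp_aestronglyMeasurable hf.1) ?_
  refine Eventually.of_forall (fun x => ?_)
  have h := hf_phi_lip hη (f x) 0
  simpa [hf_phi_zero, Real.norm_eq_abs] using h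

theorem hf_psi_memLp (hη : 0 < η) (hf : MemLp f 2 m) : MemLp (fun x => hf_psi η (f x)) 2 m := by
  exact (hf_psi_lip hη).comp_memLp (hf_psi_zero η) hf

/-- `0 ≤ e_η z ≤ z²/(2η)`, `e_η` continuous -/
theorem hf_e_integrable (hη : 0 < η) (hf : MemLp f 2 m) : Integrable (fun x => hf_e η (f x)) m := by
  refine (hf.integrable_sq.div_const (2 * η)).mono'
    ((hf_e_continuous hη).comp_aestronglyMeasurable hf.1) ?_
  refine Eventually.of_forall (fun x => ?_)
  rw [Real.norm_eq_abs, abs_of_nonneg (hf_e_nonneg hη _)]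
  exact hf_e_le hη _

/-- `R.rel_chain` (with `ψ = hf_phi η`, `ψ' = hf_dphi η`, `L = η⁻¹`), `R.rel_rs`, `R.rel_ch`, `R.rel_memLp` -/
theorem hf_phi_dom (R : hf_RS m rs Rel) (hη : 0 < η) (hf : hf_Dom m f) : hf_Dom m (fun x => hf_phi η (f x)) := by
  have hrel := R.rel_chain (hf_phi η) (hf_dphi η) η⁻¹ (hf_phi_hasDerivAt hη) (hf_dphi_continuous hη)
    (fun z => by rw [abs_of_pos (hf_dphi_pos hη z)]; exact hf_dphi_le hη z) (hf_phi_zero η) f (rs f)
    (R.rel_rs f hf)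
  exact ⟨(R.rel_memLp _ _ hrel).1, lt_of_le_of_lt (R.rel_ch _ _ hrel) ENNReal.ofReal_lt_top⟩

/-- `0 ≤ ∫ φ_η'(f) rs(f)² ≤ E(f, φ_η(f))`  (`R.form_chain`) -/
theorem hf_E_phi_nonneg (R : hf_RS m rs Rel) (hη : 0 < η) (hf : hf_Dom m f) :
    0 ≤ hf_E m f (fun x => hf_phi η (f x)) := by
  have h := R.form_chain (hf_phi η) (hf_dphi η) η⁻¹ (hf_phi_hasDerivAt hη) (hf_dphi_continuous hη)
    (fun z => ⟨(hf_dphi_pos hη z).le, hf_dphi_le hη z⟩) (hf_phi_zero η) f hf
  refine le_trans (integral_nonneg (fun x => ?_)) h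
  exact mul_nonneg (hf_dphi_pos hη _).le (sq_nonneg _)

/-- **Dissipation inequality.**  `Rel f (rs f)` ⟹ `Rel (ψ_η∘f) (|ψ_η'(f)| rs f)` (`R.rel_chain`) ⟹ `Ch(ψ_η∘f) ≤ ofReal ((1/2) ∫ ψ_η'(f)² rs(f)²) = ofReal ((1/8) ∫ φ_η'(f) rs(f)²)` (`R.rel_ch`, `hf_dpsi_sq`)
`≤ ofReal ((1/8) E(f, φ_η∘f))` (`R.form_chain`). -/
theorem hf_diss_static (R : hf_RS m rs Rel) (hη : 0 < η) (hf : hf_Dom m f) :
    8 * cheegerEnergy m (fun x => hf_psi η (f x)) ≤ ENNReal.ofReal (hf_E m f (fun x => hf_phi η (f x))) := by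
  have hrel := R.rel_chain (hf_psi η) (hf_dpsi η) (2 * Real.sqrt η)⁻¹ (hf_psi_hasDerivAt hη)
    (hf_dpsi_continuous hη)
    (fun z => by rw [abs_of_pos (hf_dpsi_pos hη z)]; exact hf_dpsi_le hη z) (hf_psi_zero η) f (rs f)
    (R.rel_rs f hf)
  have hch := R.rel_ch _ _ hrel
  have hform := R.form_chain (hf_phi η) (hf_dphi η) η⁻¹ (hf_phi_hasDerivAt hη) (hf_dphi_continuous hη)
    (fun z => ⟨(hf_dphi_pos hη z).le, hf_dphi_le hη z⟩) (hf_phi_zero η) f hf
  have hint : (1 / 2 * ∫ x, (|hf_dpsi η (f x)| * rs f x) ^ 2 ∂m)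
      = 1 / 8 * ∫ x, hf_dphi η (f x) * rs f x ^ 2 ∂m := by
    have : (fun x => (|hf_dpsi η (f x)| * rs f x) ^ 2)
        = fun x => 1 / 4 * (hf_dphi η (f x) * rs f x ^ 2) := by
      funext x
      rw [mul_pow, sq_abs, ← hf_dpsi_sq hη (f x)]
      ring
    rw [this, integral_const_mul]
    ring
  rw [hint] at hch
  calc 8 * cheegerEnergy m (fun x => hf_psi η (f x))
      ≤ 8 * ENNReal.ofReal (1 / 8 * ∫ x, hf_dphi η (f x) * rs f x ^ 2 ∂m) := by gcongr
    _ = ENNReal.ofReal (∫ x, hf_dphi η (f x) * rs f x ^ 2 ∂m) := by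
        have h8 : (8 : ℝ≥0∞) = ENNReal.ofReal 8 := by norm_num
        rw [h8, ← ENNReal.ofReal_mul (by norm_num)]
        congr 1
        ring
    _ ≤ ENNReal.ofReal (hf_E m f (fun x => hf_phi η (f x))) := ENNReal.ofReal_le_ofReal hform

/-- second order Taylor estimate of `Φ_η` on `L²` (integrate `hf_e_convex`, `hf_e_quad`) -/
theorem hf_Phi_taylor (hη : 0 < η) (hf : MemLp f 2 m) (hg : MemLp g 2 m) :
    |(∫ x, hf_e η (g x) ∂m) - (∫ x, hf_e η (f x) ∂m) - ∫ x, hf_phi η (f x) * (g x - f x) ∂m|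
      ≤ (∫ x, (g x - f x) ^ 2 ∂m) / (2 * η) := by
  have hd : MemLp (fun x => g x - f x) 2 m := hg.sub hf
  have i1 : Integrable (fun x => hf_e η (g x)) m := hf_e_integrable hη hg
  have i2 : Integrable (fun x => hf_e η (f x)) m := hf_e_integrable hη hf
  have i3 : Integrable (fun x => hf_phi η (f x) * (g x - f x)) m :=
    hf_integrable_mul (hf_phi_memLp hη hf) hd
  have i4 : Integrable (fun x => (g x - f x) ^ 2) m := by
    have := hf_integrable_mul hd hd
    simpa only [sq] using this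
  have e : (∫ x, hf_e η (g x) ∂m) - (∫ x, hf_e η (f x) ∂m) - ∫ x, hf_phi η (f x) * (g x - f x) ∂m
      = ∫ x, (hf_e η (g x) - hf_e η (f x) - hf_phi η (f x) * (g x - f x)) ∂m := by
    have i12 : Integrable (fun x => hf_e η (g x) - hf_e η (f x)) m := i1.sub i2
    rw [integral_sub i12 i3, integral_sub i1 i2]
  have e2 : (∫ x, (g x - f x) ^ 2 ∂m) / (2 * η) = ∫ x, (g x - f x) ^ 2 / (2 * η) ∂m := by
    rw [integral_div]
  rw [e, e2, abs_le]
  constructor
  · have h0 : 0 ≤ ∫ x, (g x - f x) ^ 2 / (2 * η) ∂m :=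
      integral_nonneg (fun x => by positivity)
    have h1 : 0 ≤ ∫ x, (hf_e η (g x) - hf_e η (f x) - hf_phi η (f x) * (g x - f x)) ∂m :=
      integral_nonneg (fun x => by
        have := hf_e_convex hη (f x) (g x)
        show 0 ≤ hf_e η (g x) - hf_e η (f x) - hf_phi η (f x) * (g x - f x)
        linarith)
    linarith
  · exact integral_mono ((i1.sub i2).sub i3) (i4.div_const _) (fun x => hf_e_quad hη (f x) (g x))

/-- convexity, integrated (exported to ID) -/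
theorem hf_Phi_convex (hη : 0 < η) (hf : MemLp f 2 m) (hg : MemLp g 2 m) :
    (∫ x, hf_e η (f x) ∂m) - (∫ x, hf_e η (g x) ∂m) ≤ ∫ x, hf_phi η (f x) * (f x - g x) ∂m := by
  have hd : MemLp (fun x => f x - g x) 2 m := hf.sub hg
  have i1 : Integrable (fun x => hf_e η (g x)) m := hf_e_integrable hη hg
  have i2 : Integrable (fun x => hf_e η (f x)) m := hf_e_integrable hη hf
  have i3 : Integrable (fun x => hf_phi η (f x) * (f x - g x)) m :=
    hf_integrable_mul (hf_phi_memLp hη hf) hd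
  rw [← integral_sub i2 i1]
  refine integral_mono (i2.sub i1) i3 (fun x => ?_)
  have := hf_e_convex hη (f x) (g x)
  show hf_e η (f x) - hf_e η (g x) ≤ hf_phi η (f x) * (f x - g x)
  nlinarith [this]

/-! ### part b: along the flow -/

theorem hf_int_sq_eq (hg : MemLp g 2 m) : ∫ x, g x ^ 2 ∂m = (eLpNorm g 2 m).toReal ^ 2 := by
  rw [← hf_norm_sq_eq hg, Lp.norm_toLp]

/-- continuity of `s ↦ Φ_η(ρ_s)`:  `hf_Phi_taylor` + Cauchy-Schwarz (`hf_integral_mul_le`) + `hf_heat_cont` (`∫ (g-f)² = (eLpNorm (g-f) 2 m).toReal²`). -/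
theorem hf_Phi_heat_continuous (R : hf_RS m rs Rel) (hη : 0 < η) (hf : MemLp f 2 m) :
    Continuous (fun s => ∫ x, hf_e η (heatF m s f x) ∂m) := by
  rw [continuous_iff_continuousAt]
  intro s₀
  have h0 : MemLp (heatF m s₀ f) 2 m := hf_heatF_memLp m s₀ f
  have hv : MemLp (fun x => hf_phi η (heatF m s₀ f x)) 2 m := hf_phi_memLp hη h0
  set d : ℝ → ℝ := fun s => (eLpNorm (fun x => heatF m s f x - heatF m s₀ f x) 2 m).toReal with hd
  have hd0 : Tendsto d (𝓝 s₀) (𝓝 0) := by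
    have := (ENNReal.tendsto_toReal ENNReal.zero_ne_top).comp (hf_heat_cont R hf s₀)
    rw [ENNReal.toReal_zero] at this
    exact this
  set c := Real.sqrt (∫ x, hf_phi η (heatF m s₀ f x) ^ 2 ∂m) with hc
  have key : ∀ s, |(∫ x, hf_e η (heatF m s f x) ∂m) - ∫ x, hf_e η (heatF m s₀ f x) ∂m|
      ≤ c * d s + d s ^ 2 / (2 * η) := by
    intro s
    have hs : MemLp (heatF m s f) 2 m := hf_heatF_memLp m s f
    have hsub : MemLp (fun x => heatF m s f x - heatF m s₀ f x) 2 m := hs.sub h0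
    have t1 := hf_Phi_taylor hη h0 hs
    have t2 := hf_integral_mul_le hv hsub
    rw [hf_int_sq_eq hsub] at t1 t2
    rw [Real.sqrt_sq ENNReal.toReal_nonneg] at t2
    have t1' := abs_le.1 t1
    have t2' := abs_le.1 t2
    rw [abs_le]
    constructor
    · linarith [t1'.1, t2'.1]
    · linarith [t1'.2, t2'.2]
  show Tendsto _ (𝓝 s₀) (𝓝 _)
  rw [tendsto_iff_norm_sub_tendsto_zero]
  have hb : Tendsto (fun s => c * d s + d s ^ 2 / (2 * η)) (𝓝 s₀) (𝓝 0) := by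
    have : Tendsto (fun s => c * d s + d s ^ 2 / (2 * η)) (𝓝 s₀) (𝓝 (c * 0 + 0 ^ 2 / (2 * η))) :=
      (hd0.const_mul c).add ((hd0.pow 2).div_const _)
    simpa using this
  exact squeeze_zero (fun s => norm_nonneg _) (fun s => key s) hb

/-- derivative for `t > 0`.   `hf_heat_deriv` gives `L` with `(ρ_{t+h} - ρ_t)/h → L` in `L²` and `E(ρ_t, v) = -∫ L v`;  `v = φ_η(ρ_t) ∈ Dom` (`hf_phi_dom`, `hf_heat_dom`).
`(Φ(ρ_{t+h}) - Φ(ρ_t))/h = ∫ φ_η(ρ_t) (ρ_{t+h} - ρ_t)/h + O(‖ρ_{t+h} - ρ_t‖²/(2η|h|))` (`hf_Phi_taylor`);  first term `→ ∫ φ_η(ρ_t) L`,  second term `= |h| ‖(ρ_{t+h}-ρ_t)/h‖²/(2η) → 0`.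
(`hasDerivAt_iff_tendsto_slope_zero`.) -/
theorem hf_Phi_heat_hasDerivAt (R : hf_RS m rs Rel) (hη : 0 < η) (hf : MemLp f 2 m) (ht : 0 < t) :
    HasDerivAt (fun s => ∫ x, hf_e η (heatF m s f x) ∂m)
      (-hf_E m (heatF m t f) (fun x => hf_phi η (heatF m t f x))) t := by
  obtain ⟨L, hL, hE, hlim⟩ := hf_heat_deriv R ht hf
  have h0 : MemLp (heatF m t f) 2 m := hf_heatF_memLp m t f
  have hv : MemLp (fun x => hf_phi η (heatF m t f x)) 2 m := hf_phi_memLp hη h0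
  rw [hE _ (hf_phi_dom R hη (hf_heat_dom R ht hf)), neg_neg, hasDerivAt_iff_tendsto_slope_zero]
  set e : ℝ → ℝ := fun h =>
    (eLpNorm (fun x => (heatF m (t + h) f x - heatF m t f x) / h - L x) 2 m).toReal with he
  have he0 : Tendsto e (𝓝[≠] 0) (𝓝 0) := by
    have := (ENNReal.tendsto_toReal ENNReal.zero_ne_top).comp hlim
    rw [ENNReal.toReal_zero] at this
    exact this
  set c := Real.sqrt (∫ x, hf_phi η (heatF m t f x) ^ 2 ∂m) with hc
  set l2 := ∫ x, L x ^ 2 ∂m with hl2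
  have key : ∀ h : ℝ, h ≠ 0 →
      |h⁻¹ * ((∫ x, hf_e η (heatF m (t + h) f x) ∂m) - ∫ x, hf_e η (heatF m t f x) ∂m)
        - ∫ x, L x * hf_phi η (heatF m t f x) ∂m|
      ≤ |h| * ((2 * e h ^ 2 + 2 * l2) / (2 * η)) + c * e h := by
    intro h hh
    have hs : MemLp (heatF m (t + h) f) 2 m := hf_heatF_memLp m (t + h) f
    have hsub : MemLp (fun x => heatF m (t + h) f x - heatF m t f x) 2 m := hs.sub h0
    have hD : MemLp (fun x => (heatF m (t + h) f x - heatF m t f x) / h) 2 m := by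
      have := hsub.const_mul h⁻¹
      refine this.ae_eq (Eventually.of_forall fun x => ?_)
      show h⁻¹ * (heatF m (t + h) f x - heatF m t f x) = (heatF m (t + h) f x - heatF m t f x) / h
      rw [div_eq_inv_mul]
    have hDL : MemLp (fun x => (heatF m (t + h) f x - heatF m t f x) / h - L x) 2 m := hD.sub hL
    have t1 := hf_Phi_taylor hη h0 hs
    have t2 := hf_integral_mul_le hv hDL
    rw [hf_int_sq_eq hDL, Real.sqrt_sq ENNReal.toReal_nonneg] at t2
    -- `∫ A² = h² ∫ D²`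
    have e1 : ∫ x, (heatF m (t + h) f x - heatF m t f x) ^ 2 ∂m
        = h ^ 2 * ∫ x, ((heatF m (t + h) f x - heatF m t f x) / h) ^ 2 ∂m := by
      rw [← integral_const_mul]
      refine integral_congr_ae (Eventually.of_forall fun x => ?_)
      show _ = h ^ 2 * ((heatF m (t + h) f x - heatF m t f x) / h) ^ 2
      field_simp
    -- `∫ v A = h ∫ v D`
    have e2 : ∫ x, hf_phi η (heatF m t f x) * (heatF m (t + h) f x - heatF m t f x) ∂m
        = h * ∫ x, hf_phi η (heatF m t f x) * ((heatF m (t + h) f x - heatF m t f x) / h) ∂m := by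
      rw [← integral_const_mul]
      refine integral_congr_ae (Eventually.of_forall fun x => ?_)
      show _ = h * (hf_phi η (heatF m t f x) * ((heatF m (t + h) f x - heatF m t f x) / h))
      field_simp
    -- `∫ D² ≤ 2 ∫ (D - L)² + 2 ∫ L²`
    have e3 : ∫ x, ((heatF m (t + h) f x - heatF m t f x) / h) ^ 2 ∂m ≤ 2 * e h ^ 2 + 2 * l2 := by
      have i1 : Integrable (fun x => ((heatF m (t + h) f x - heatF m t f x) / h - L x) ^ 2) m := hDL.integrable_sq
      have i2 : Integrable (fun x => L x ^ 2) m := hL.integrable_sq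
      have : 2 * e h ^ 2 + 2 * l2
          = ∫ x, (2 * ((heatF m (t + h) f x - heatF m t f x) / h - L x) ^ 2 + 2 * L x ^ 2) ∂m := by
        rw [integral_add (i1.const_mul 2) (i2.const_mul 2), integral_const_mul, integral_const_mul,
          hf_int_sq_eq hDL]
      rw [this]
      refine integral_mono hD.integrable_sq ((i1.const_mul 2).add (i2.const_mul 2)) (fun x => ?_)
      show ((heatF m (t + h) f x - heatF m t f x) / h) ^ 2
        ≤ 2 * ((heatF m (t + h) f x - heatF m t f x) / h - L x) ^ 2 + 2 * L x ^ 2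
      nlinarith [sq_nonneg ((heatF m (t + h) f x - heatF m t f x) / h - 2 * L x)]
    -- `∫ v (D - L) = ∫ v D - ∫ L v`
    have e4 : ∫ x, hf_phi η (heatF m t f x) * ((heatF m (t + h) f x - heatF m t f x) / h - L x) ∂m
        = (∫ x, hf_phi η (heatF m t f x) * ((heatF m (t + h) f x - heatF m t f x) / h) ∂m)
          - ∫ x, L x * hf_phi η (heatF m t f x) ∂m := by
      rw [← integral_sub (hf_integrable_mul hv hD) (hf_integrable_mul hL hv)]
      refine integral_congr_ae (Eventually.of_forall fun x => ?_)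
      show hf_phi η (heatF m t f x) * ((heatF m (t + h) f x - heatF m t f x) / h - L x) = _
      ring
    rw [e1, e2] at t1
    rw [e4] at t2
    set P1 := ∫ x, hf_e η (heatF m (t + h) f x) ∂m
    set P0 := ∫ x, hf_e η (heatF m t f x) ∂m
    set I1 := ∫ x, hf_phi η (heatF m t f x) * ((heatF m (t + h) f x - heatF m t f x) / h) ∂m
    set I2 := ∫ x, L x * hf_phi η (heatF m t f x) ∂m
    set Q := ∫ x, ((heatF m (t + h) f x - heatF m t f x) / h) ^ 2 ∂m
    have hη2 : 0 < 2 * η := by positivity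
    have s1 : |h⁻¹ * (P1 - P0) - I1| ≤ |h| * ((2 * e h ^ 2 + 2 * l2) / (2 * η)) := by
      have a1 : h⁻¹ * (P1 - P0) - I1 = h⁻¹ * (P1 - P0 - h * I1) := by field_simp
      rw [a1, abs_mul, abs_inv]
      have a2 : |h|⁻¹ * |P1 - P0 - h * I1| ≤ |h|⁻¹ * (h ^ 2 * Q / (2 * η)) :=
        mul_le_mul_of_nonneg_left t1 (by positivity)
      have a3 : |h|⁻¹ * (h ^ 2 * Q / (2 * η)) = |h| * (Q / (2 * η)) := by
        have hh' : |h| ≠ 0 := abs_ne_zero.2 hh
        rw [← sq_abs h]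
        field_simp
      rw [a3] at a2
      refine a2.trans (mul_le_mul_of_nonneg_left ?_ (abs_nonneg h))
      exact div_le_div_of_nonneg_right e3 hη2.le
    calc |h⁻¹ * (P1 - P0) - I2| = |(h⁻¹ * (P1 - P0) - I1) + (I1 - I2)| := by ring_nf
      _ ≤ |h⁻¹ * (P1 - P0) - I1| + |I1 - I2| := abs_add_le _ _
      _ ≤ _ := add_le_add s1 t2
  rw [tendsto_iff_norm_sub_tendsto_zero]
  have hb : Tendsto (fun h : ℝ => |h| * ((2 * e h ^ 2 + 2 * l2) / (2 * η)) + c * e h) (𝓝[≠] 0) (𝓝 0) := by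
    have habs : Tendsto (fun h : ℝ => |h|) (𝓝[≠] 0) (𝓝 0) := by
      have : Tendsto (fun h : ℝ => |h|) (𝓝 0) (𝓝 |0|) := continuous_abs.continuousAt
      rw [abs_zero] at this
      exact this.mono_left nhdsWithin_le_nhds
    have := (habs.mul ((((he0.pow 2).const_mul 2).add_const (2 * l2)).div_const (2 * η))).add (he0.const_mul c)
    simpa using this
  refine squeeze_zero' (Eventually.of_forall fun s => norm_nonneg _) ?_ hb
  filter_upwards [self_mem_nhdsWithin] with h hh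
  rw [Real.norm_eq_abs, smul_eq_mul]
  exact key h hh

/-- **HF4 (a).**   `G(s) = -Φ_η(ρ_s)` is continuous on `[0,t]`, `G' = E(ρ_s, φ_η(ρ_s)) ≥ 0` on `(0,t)`:  `intervalIntegral.integrableOn_deriv_of_nonneg`, `intervalIntegral.integral_eq_sub_of_hasDerivAt_of_le`:
`∫_0^t G' = Φ_η(ρ_0) - Φ_η(ρ_t)`, `ρ_0 = f` a.e. (`hf_heat_of_nonpos`).    `∫⁻ 8 Ch(ψ_η(ρ_s)) ≤ ∫⁻ ofReal (G' s) = ofReal (∫ G')` (`hf_diss_static`, `setLIntegral_mono'`/`lintegral_mono`, `ofReal_integral_eq_lintegral_ofReal`). -/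
theorem hf_diss (R : hf_RS m rs Rel) (hη : 0 < η) (hf : MemLp f 2 m) (ht : 0 ≤ t) :
    ∫⁻ s in Ioc 0 t, 8 * cheegerEnergy m (fun x => hf_psi η (heatF m s f x))
      ≤ ENNReal.ofReal ((∫ x, hf_e η (f x) ∂m) - ∫ x, hf_e η (heatF m t f x) ∂m) := by
  set D : ℝ → ℝ := fun s => hf_E m (heatF m s f) (fun x => hf_phi η (heatF m s f x)) with hD
  set G : ℝ → ℝ := fun s => -∫ x, hf_e η (heatF m s f x) ∂m with hG
  have hGc : ContinuousOn G (Icc 0 t) := (hf_Phi_heat_continuous R hη hf).neg.continuousOn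
  have hGd : ∀ s ∈ Ioo 0 t, HasDerivAt G (D s) s := by
    intro s hs
    have := (hf_Phi_heat_hasDerivAt R hη hf hs.1).neg
    rw [neg_neg] at this
    exact this
  have hD0 : ∀ s, 0 < s → 0 ≤ D s := fun s hs => hf_E_phi_nonneg R hη (hf_heat_dom R hs hf)
  have hDi : IntegrableOn D (Ioc 0 t) :=
    intervalIntegral.integrableOn_deriv_of_nonneg hGc hGd (fun s hs => hD0 s hs.1)
  have hFTC : ∫ s in (0 : ℝ)..t, D s = G t - G 0 :=
    intervalIntegral.integral_eq_sub_of_hasDerivAt_of_le ht hGc hGd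
      ((intervalIntegrable_iff_integrableOn_Ioc_of_le ht).2 hDi)
  have hG0 : G 0 = -∫ x, hf_e η (f x) ∂m := by
    simp only [hG]
    congr 1
    apply integral_congr_ae
    filter_upwards [hf_heat_of_nonpos (m := m) (t := 0) le_rfl hf] with x hx
    rw [hx]
  calc ∫⁻ s in Ioc 0 t, 8 * cheegerEnergy m (fun x => hf_psi η (heatF m s f x))
      ≤ ∫⁻ s in Ioc 0 t, ENNReal.ofReal (D s) :=
        setLIntegral_mono' measurableSet_Ioc (fun s hs => hf_diss_static R hη (hf_heat_dom R hs.1 hf))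
    _ = ENNReal.ofReal (∫ s in Ioc 0 t, D s) := by
        rw [ofReal_integral_eq_lintegral_ofReal hDi]
        exact (ae_restrict_iff' measurableSet_Ioc).2 (Eventually.of_forall (fun s hs => hD0 s hs.1))
    _ = ENNReal.ofReal ((∫ x, hf_e η (f x) ∂m) - ∫ x, hf_e η (heatF m t f x) ∂m) := by
        rw [← intervalIntegral.integral_of_le ht, hFTC, hG0]
        congr 1
        simp only [hG]
        ring

/-- general principle: sequential lower semicontinuity on `ℝ` implies `LowerSemicontinuous`.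
(If not lsc at `s₀`: `∃ y < F s₀`, `∃ᶠ s in 𝓝 s₀, F s ≤ y`; `Filter.exists_seq_forall_of_frequently` gives `s_n → s₀` with `F (s_n) ≤ y`, so `liminf ≤ y`.) -/
theorem hf_lsc_of_seq {F : ℝ → ℝ≥0∞}
    (h : ∀ (s₀ : ℝ) (σ : ℕ → ℝ), Tendsto σ atTop (𝓝 s₀) → F s₀ ≤ liminf (fun n => F (σ n)) atTop) :
    LowerSemicontinuous F := by
  intro s₀ y hy
  by_contra hcon
  rw [not_eventually] at hcon
  obtain ⟨σ, hσ, hσy⟩ := exists_seq_forall_of_frequently hcon
  have h1 := h s₀ σ hσ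
  have h2 : liminf (fun n => F (σ n)) atTop ≤ y :=
    liminf_le_of_frequently_le (Frequently.of_forall fun n => not_lt.1 (hσy n))
  exact absurd (lt_of_lt_of_le hy (h1.trans h2)) (lt_irrefl _)

/-- `s ↦ Ch(ψ(ρ_s))` is lower semicontinuous for every Lipschitz `ψ` with `ψ 0 = 0`:  `hf_lsc_of_seq`, `hf_ch_lsc`, `‖ψ(ρ_s) - ψ(ρ_{s₀})‖₂ ≤ K ‖ρ_s - ρ_{s₀}‖₂` (`eLpNorm_le_nnreal_smul_eLpNorm_of_ae_le_mul`), `hf_heat_cont`. -/
theorem hf_ch_comp_heat_lsc (R : hf_RS m rs Rel) (hf : MemLp f 2 m) {ψ : ℝ → ℝ} {K : ℝ≥0} (hψ : LipschitzWith K ψ)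
    (h0 : ψ 0 = 0) : LowerSemicontinuous (fun s => cheegerEnergy m (fun x => ψ (heatF m s f x))) := by
  apply hf_lsc_of_seq
  intro s₀ σ hσ
  have hm : ∀ s, MemLp (fun x => ψ (heatF m s f x)) 2 m :=
    fun s => hψ.comp_memLp h0 (hf_heatF_memLp m s f)
  refine hf_ch_lsc R (fun n => hm (σ n)) (hm s₀) ?_
  have h1 : Tendsto (fun n => eLpNorm (fun x => heatF m (σ n) f x - heatF m s₀ f x) 2 m) atTop (𝓝 0) :=
    (hf_heat_cont R hf s₀).comp hσ
  have h2 : ∀ n, eLpNorm (fun x => ψ (heatF m (σ n) f x) - ψ (heatF m s₀ f x)) 2 m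
      ≤ K • eLpNorm (fun x => heatF m (σ n) f x - heatF m s₀ f x) 2 m := fun n =>
    eLpNorm_le_nnreal_smul_eLpNorm_of_ae_le_mul (Eventually.of_forall fun x => by
      have := hψ.nndist_le (heatF m (σ n) f x) (heatF m s₀ f x)
      rwa [nndist_eq_nnnorm, nndist_eq_nnnorm] at this) 2
  have h3 : Tendsto (fun n => K • eLpNorm (fun x => heatF m (σ n) f x - heatF m s₀ f x) 2 m) atTop (𝓝 0) := by
    have := ENNReal.Tendsto.const_mul (a := (K : ℝ≥0∞)) h1 (Or.inr ENNReal.coe_ne_top)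
    simpa [ENNReal.smul_def] using this
  exact tendsto_of_tendsto_of_tendsto_of_le_of_le tendsto_const_nhds h3 (fun _ => bot_le) h2

end Claimed.Agent.R210.HF.Diss
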