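/-
Row 210 (S0432), layer HF, architect helper897.   File Ent (HF4 (b), right hand side): ENTROPY OF NICE DENSITIES as the limit of the regularised functionals.
   For `z ≥ 0`:  `e_η(z) = k_η(z) - z - z log η`,  `k_η(z) = (z+η) log (z+η) - η log η` (`Fn1d.hf_e_of_nonneg`).     For a nice density `∫ ρ = 1`, so `∫ e_η(ρ) = ∫ k_η(ρ) - 1 - log η`: the linear terms cancel in differences.
   Domination (`0 ≤ z ≤ B`, `0 < η ≤ 1`):  `-2√z ≤ z log z ≤ k_η(z) ≤ z (log (B+1) + 1)`;   `ρ, √ρ ∈ L¹` (`Mass.hf_sqrt_integrable`).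
Tools: HF/Fn1d.lean, HF/Mass.lean, HF/Diss.lean (black boxes).
-/
import Claimed.Agent.R210.HF.Mass
import Claimed.Agent.R210.HF.Diss

set_option autoImplicit false

open Claims.C0366 Claims.C0366.WeakHessian
open Claimed.Agent.R210.Defs Claimed.Agent.R210.Defs2 Claimed.Agent.R210.HS.Defs Claimed.Agent.R210.HF.Defs
open Set Filter MeasureTheory
open scoped ENNReal NNReal Topology

open Claimed.Agent.R210.HF.Basic Claimed.Agent.R210.HF.Fn1d Claimed.Agent.R210.HF.Mass Claimed.Agent.R210.HF.Diss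

namespace Claimed.Agent.R210.HF.Ent

variable {X : Type*} [MetricSpace X] [MeasurableSpace X] [BorelSpace X] {m : Measure X}
  {f g u v ρ ρ' : X → ℝ} {δ t s a B B' η : ℝ} {o : X}

/-- domination: `-2√ρ ≤ F ≤ ρ (log (B+1) + 1)` and `F` measurable  ⟹  `F` integrable. -/
theorem hf_ent_dom_integrable (hG : GoodExp m o a) (h : NiceDens m o a B ρ) {F : X → ℝ}
    (hF : AEStronglyMeasurable F m) (hlo : ∀ᵐ x ∂m, -(2 * Real.sqrt (ρ x)) ≤ F x)
    (hhi : ∀ᵐ x ∂m, F x ≤ ρ x * (Real.log (B + 1) + 1)) : Integrable F m := by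
  have hB : 0 ≤ B := hf_nice_B_nonneg h
  have hL : 0 ≤ Real.log (B + 1) + 1 := by
    have := Real.log_nonneg (by linarith : (1 : ℝ) ≤ B + 1)
    linarith
  have hs : Integrable (fun x => Real.sqrt (ρ x)) m := hf_sqrt_integrable hG h.meas h.nonneg (hf_nice_wn h)
  have hb : Integrable (fun x => ρ x * (Real.log (B + 1) + 1) + 2 * Real.sqrt (ρ x)) m :=
    (h.int.mul_const _).add (hs.const_mul 2)
  refine hb.mono' hF ?_
  filter_upwards [hlo, hhi, h.nonneg] with x h1 h2 h3
  have h4 : 0 ≤ Real.sqrt (ρ x) := Real.sqrt_nonneg _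
  have h5 : 0 ≤ ρ x * (Real.log (B + 1) + 1) := mul_nonneg h3 hL
  rw [Real.norm_eq_abs, abs_le]
  constructor <;> linarith

/-- `|ρ log ρ| ≤ ρ (log (B+1) + 1) + 2√ρ`  (`hf_mul_log_ge`;  `z log z ≤ z log (B+1)`);  measurability: `Real.continuous_mul_log` composed with `ρ`. -/
theorem hf_ent_integrable (hG : GoodExp m o a) (h : NiceDens m o a B ρ) :
    Integrable (fun x => ρ x * Real.log (ρ x)) m := by
  refine hf_ent_dom_integrable hG h (Real.continuous_mul_log.comp_aestronglyMeasurable h.meas) ?_ ?_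
  · filter_upwards [h.nonneg] with x h0
    exact hf_mul_log_ge h0
  · filter_upwards [h.nonneg, h.le] with x h0 h1
    exact (hf_k_ge one_pos h0).trans (hf_k_le one_pos le_rfl h0 h1)

/-- `k_η(ρ)` is integrable (same domination, `hf_k_ge`, `hf_k_le`) -/
theorem hf_k_integrable (hG : GoodExp m o a) (h : NiceDens m o a B ρ) (hη : 0 < η) (hη1 : η ≤ 1) :
    Integrable (fun x => (ρ x + η) * Real.log (ρ x + η) - η * Real.log η) m := by
  have hcont : Continuous fun z : ℝ => (z + η) * Real.log (z + η) - η * Real.log η :=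
    (Real.continuous_mul_log.comp (continuous_id.add continuous_const)).sub continuous_const
  refine hf_ent_dom_integrable hG h (hcont.comp_aestronglyMeasurable h.meas) ?_ ?_
  · filter_upwards [h.nonneg] with x h0
    exact (hf_mul_log_ge h0).trans (hf_k_ge hη h0)
  · filter_upwards [h.nonneg, h.le] with x h0 h1
    exact hf_k_le hη hη1 h0 h1

/-- `∫ e_η(ρ) = ∫ k_η(ρ) - 1 - log η` -/
theorem hf_Phi_eq (hG : GoodExp m o a) (h : NiceDens m o a B ρ) (hη : 0 < η) (hη1 : η ≤ 1) :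
    ∫ x, hf_e η (ρ x) ∂m = (∫ x, ((ρ x + η) * Real.log (ρ x + η) - η * Real.log η) ∂m) - 1 - Real.log η := by
  have hk := hf_k_integrable hG h hη hη1
  have e : ∫ x, hf_e η (ρ x) ∂m
      = ∫ x, (((ρ x + η) * Real.log (ρ x + η) - η * Real.log η) - ρ x - ρ x * Real.log η) ∂m := by
    refine integral_congr_ae ?_
    filter_upwards [h.nonneg] with x h0
    exact hf_e_of_nonneg hη h0
  have i1 : Integrable (fun x => ((ρ x + η) * Real.log (ρ x + η) - η * Real.log η) - ρ x) m := hk.sub h.int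
  rw [e, integral_sub i1 (h.int.mul_const _), integral_sub hk h.int, integral_mul_const, h.mass, one_mul]

/-- dominated convergence along `η_n = 1/(n+1)` (`hf_k_tendsto`, `tendsto_integral_of_dominated_convergence`) -/
theorem hf_k_tendsto_ent (hG : GoodExp m o a) (h : NiceDens m o a B ρ) :
    Tendsto (fun n : ℕ => ∫ x, ((ρ x + 1 / ((n : ℝ) + 1)) * Real.log (ρ x + 1 / ((n : ℝ) + 1))
      - 1 / ((n : ℝ) + 1) * Real.log (1 / ((n : ℝ) + 1))) ∂m) atTop (𝓝 (entF m ρ)) := by
  have hη : ∀ n : ℕ, 0 < 1 / ((n : ℝ) + 1) := fun n => by positivity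
  have hη1 : ∀ n : ℕ, 1 / ((n : ℝ) + 1) ≤ 1 := fun n => by
    rw [div_le_one (by positivity)]
    have : (0 : ℝ) ≤ n := Nat.cast_nonneg n
    linarith
  unfold entF
  refine tendsto_integral_of_dominated_convergence
    (fun x => ρ x * (|Real.log (B + 1)| + 1) + 2 * Real.sqrt (ρ x))
    (fun n => (hf_k_integrable hG h (hη n) (hη1 n)).aestronglyMeasurable)
    ((h.int.mul_const _).add ((hf_sqrt_integrable hG h.meas h.nonneg (hf_nice_wn h)).const_mul 2))
    (fun n => ?_) (Eventually.of_forall fun x => ?_)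
  · filter_upwards [h.nonneg, h.le] with x hx0 hxB
    have h1 := hf_k_le (hη n) (hη1 n) hx0 hxB
    have h2 := hf_k_ge (hη n) hx0
    have h3 := hf_mul_log_ge hx0
    have h4 : ρ x * (Real.log (B + 1) + 1) ≤ ρ x * (|Real.log (B + 1)| + 1) :=
      mul_le_mul_of_nonneg_left (by linarith [le_abs_self (Real.log (B + 1))]) hx0
    have h5 : 0 ≤ ρ x * (|Real.log (B + 1)| + 1) :=
      mul_nonneg hx0 (by linarith [abs_nonneg (Real.log (B + 1))])
    have h6 : 0 ≤ Real.sqrt (ρ x) := Real.sqrt_nonneg _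
    rw [Real.norm_eq_abs, abs_le]
    constructor <;> linarith
  · exact (hf_k_tendsto (ρ x)).comp tendsto_one_div_add_atTop_nhds_zero_nat

/-- **the differences of the regularised functionals converge to the difference of the entropies** -/
theorem hf_Phi_sub_tendsto (hG : GoodExp m o a) (h : NiceDens m o a B ρ) (h' : NiceDens m o a B' ρ') :
    Tendsto (fun n : ℕ => (∫ x, hf_e (1 / ((n : ℝ) + 1)) (ρ x) ∂m) - ∫ x, hf_e (1 / ((n : ℝ) + 1)) (ρ' x) ∂m) atTop
      (𝓝 (entF m ρ - entF m ρ')) := by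
  have hη : ∀ n : ℕ, 0 < 1 / ((n : ℝ) + 1) := fun n => by positivity
  have hη1 : ∀ n : ℕ, 1 / ((n : ℝ) + 1) ≤ 1 := fun n => by
    rw [div_le_one (by positivity)]
    have : (0 : ℝ) ≤ n := Nat.cast_nonneg n
    linarith
  refine ((hf_k_tendsto_ent hG h).sub (hf_k_tendsto_ent hG h')).congr fun n => ?_
  rw [hf_Phi_eq hG h (hη n) (hη1 n), hf_Phi_eq hG h' (hη n) (hη1 n)]
  ring

end Claimed.Agent.R210.HF.Ent
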