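/-
Row 210 (S0432), layer HF, architect helper897.   File Fisher (HF4): FISHER INFORMATION ALONG THE FLOW.     `I(ρ) = fisher m ρ = 8 Ch(√ρ)`,  `ρ_s = heatF m s ρ`, `ρ` nice.
   (1) `ψ_η(ρ) → √ρ` in `L²` as `η → 0`, so `I(ρ) ≤ liminf 8 Ch(ψ_η(ρ))`;      (2) Fatou in `s`;      (3) `Diss.hf_diss`;      (4) `Ent.hf_Phi_sub_tendsto`.
Tools: all previous files of HF (black boxes).
-/
import Claimed.Agent.R210.HF.Ent
import Claimed.Agent.R210.HF.Cont

set_option autoImplicit false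

open Claims.C0366 Claims.C0366.WeakHessian
open Claimed.Agent.R210.Defs Claimed.Agent.R210.Defs2 Claimed.Agent.R210.HS.Defs Claimed.Agent.R210.HF.Defs
open Set Filter MeasureTheory
open scoped ENNReal NNReal Topology

open Claimed.Agent.R210.HF.Basic Claimed.Agent.R210.HF.Fn1d Claimed.Agent.R210.HF.Markov Claimed.Agent.R210.HF.Mass
open Claimed.Agent.R210.HF.Diss Claimed.Agent.R210.HF.Ent Claimed.Agent.R210.HF.Cont

namespace Claimed.Agent.R210.HF.Fisher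

variable {X : Type*} [MetricSpace X] [MeasurableSpace X] [BorelSpace X] {m : Measure X}
  {rs : (X → ℝ) → X → ℝ} {Rel : (X → ℝ) → (X → ℝ) → Prop} {f g u v ρ : X → ℝ} {δ t s a B η c : ℝ} {o : X}

/-- `‖ψ_{η_n}(ρ) - √ρ‖₂ → 0`, `η_n = 1/(n+1)`:  `(√z - ψ_η z)² ≤ min z η` (`hf_psi_sqrt`), dominated convergence with the integrable majorant `ρ`
(`eLpNorm .. 2 m ^ 2 = ∫⁻ ofReal (..)²`; `tendsto_lintegral_of_dominated_convergence`). -/
theorem hf_psi_tendsto_sqrt (hρ : Integrable ρ m) (h0 : ∀ᵐ x ∂m, 0 ≤ ρ x) :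
    Tendsto (fun n : ℕ => eLpNorm (fun x => hf_psi (1 / ((n : ℝ) + 1)) (ρ x) - Real.sqrt (ρ x)) 2 m) atTop (𝓝 0) := by
  have hη : ∀ n : ℕ, 0 < 1 / ((n : ℝ) + 1) := fun n => by positivity
  have hcont : ∀ n : ℕ, Continuous (hf_psi (1 / ((n : ℝ) + 1))) := fun n => (hf_psi_lip (hη n)).continuous
  have hmeas : ∀ n : ℕ, AEStronglyMeasurable
      (fun x => hf_psi (1 / ((n : ℝ) + 1)) (ρ x) - Real.sqrt (ρ x)) m := fun n =>
    ((hcont n).comp_aestronglyMeasurable hρ.aestronglyMeasurable).sub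
      (Real.continuous_sqrt.comp_aestronglyMeasurable hρ.aestronglyMeasurable)
  have hen : ∀ (n : ℕ) (x : X), ‖hf_psi (1 / ((n : ℝ) + 1)) (ρ x) - Real.sqrt (ρ x)‖ₑ ^ (2 : ℝ)
      = ENNReal.ofReal ((Real.sqrt (ρ x) - hf_psi (1 / ((n : ℝ) + 1)) (ρ x)) ^ 2) := by
    intro n x
    rw [Real.enorm_eq_ofReal_abs, ENNReal.ofReal_rpow_of_nonneg (abs_nonneg _) (by norm_num)]
    congr 1
    rw [Real.rpow_two, sq_abs]
    ring
  have key : Tendsto (fun n : ℕ => ∫⁻ x, ‖hf_psi (1 / ((n : ℝ) + 1)) (ρ x) - Real.sqrt (ρ x)‖ₑ ^ (2 : ℝ) ∂m)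
      atTop (𝓝 0) := by
    have h1 := tendsto_lintegral_of_dominated_convergence' (μ := m)
      (F := fun (n : ℕ) x => ‖hf_psi (1 / ((n : ℝ) + 1)) (ρ x) - Real.sqrt (ρ x)‖ₑ ^ (2 : ℝ))
      (f := fun _ => 0) (fun x => ENNReal.ofReal (ρ x)) ?_ ?_ ?_ ?_
    · simpa using h1
    · intro n
      exact (hmeas n).enorm.pow_const _
    · intro n
      filter_upwards [h0] with x hx
      rw [hen]
      exact ENNReal.ofReal_le_ofReal ((hf_psi_sqrt (hη n) hx).trans (min_le_left _ _))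
    · have := hρ.2
      rw [hasFiniteIntegral_iff_norm] at this
      refine ne_of_lt (lt_of_le_of_lt (lintegral_mono (fun x => ?_)) this)
      exact ENNReal.ofReal_le_ofReal ((le_abs_self _).trans_eq (Real.norm_eq_abs _).symm)
    · filter_upwards [h0] with x hx
      simp only [hen]
      have h2 : Tendsto (fun n : ℕ => ENNReal.ofReal (1 / ((n : ℝ) + 1))) atTop (𝓝 0) := by
        have := (ENNReal.continuous_ofReal.tendsto 0).comp tendsto_one_div_add_atTop_nhds_zero_nat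
        simpa [Function.comp_def] using this
      refine tendsto_of_tendsto_of_tendsto_of_le_of_le tendsto_const_nhds h2 (fun _ => zero_le) (fun n => ?_)
      exact ENNReal.ofReal_le_ofReal ((hf_psi_sqrt (hη n) hx).trans (min_le_right _ _))
  have heq : (fun n : ℕ => eLpNorm (fun x => hf_psi (1 / ((n : ℝ) + 1)) (ρ x) - Real.sqrt (ρ x)) 2 m)
      = fun n : ℕ => (∫⁻ x, ‖hf_psi (1 / ((n : ℝ) + 1)) (ρ x) - Real.sqrt (ρ x)‖ₑ ^ (2 : ℝ) ∂m) ^ (1 / 2 : ℝ) := by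
    funext n
    rw [eLpNorm_eq_lintegral_rpow_enorm_toReal (by norm_num) (by norm_num)]
    simp
  rw [heq]
  have h3 := ((ENNReal.continuous_rpow_const (y := (1 / 2 : ℝ))).tendsto 0).comp key
  simpa [Function.comp_def] using h3

/-- `hf_ch_lsc` + `hf_psi_tendsto_sqrt` (`hf_psi_memLp`, `hf_sqrt_memLp`);  `8 * liminf = liminf (8 * ·)` (`ENNReal.mul_liminf`-type lemma or redo: `liminf` of a monotone continuous image). -/
theorem hf_fisher_le_liminf (R : hf_RS m rs Rel) (hρ : Integrable ρ m) (hρ2 : MemLp ρ 2 m) (h0 : ∀ᵐ x ∂m, 0 ≤ ρ x) :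
    fisher m ρ ≤ liminf (fun n : ℕ => 8 * cheegerEnergy m (fun x => hf_psi (1 / ((n : ℝ) + 1)) (ρ x))) atTop := by
  have hη : ∀ n : ℕ, 0 < 1 / ((n : ℝ) + 1) := fun n => by positivity
  have h1 := hf_ch_lsc R (fs := fun (n : ℕ) x => hf_psi (1 / ((n : ℝ) + 1)) (ρ x))
    (fun n => hf_psi_memLp (hη n) hρ2) (hf_sqrt_memLp hρ h0) (hf_psi_tendsto_sqrt hρ h0)
  rw [ENNReal.liminf_const_mul_of_ne_top (by norm_num)]
  unfold fisher
  gcongr

/-- auxiliary: `c * liminf u ≤ liminf (c * u)` in `ℝ≥0∞`. -/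
theorem hf_const_mul_liminf_le (c : ℝ≥0∞) (u : ℕ → ℝ≥0∞) :
    c * liminf u atTop ≤ liminf (fun n => c * u n) atTop := by
  have h := ENNReal.le_liminf_mul (f := (atTop : Filter ℕ)) (u := fun _ => c) (v := u)
  rwa [liminf_const] at h

/-- auxiliary: integrability and nonnegativity of `ρ_s` for ALL real `s`. -/
theorem hf_heat_int_all (R : hf_RS m rs Rel) (hfin : FiniteOnBoundedSets m) (hG : GoodExp m o a)
    (h : NiceDens m o a B ρ) (s : ℝ) : Integrable (heatF m s ρ) m ∧ ∀ᵐ x ∂m, 0 ≤ heatF m s ρ x := by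
  rcases le_total 0 s with hs | hs
  · exact ⟨(hf_heat_nice R hfin hG hs h).int, (hf_heat_nice R hfin hG hs h).nonneg⟩
  · have he : heatF m s ρ =ᵐ[m] ρ := hf_heat_of_nonpos hs (hf_nice_memLp hG.1.le h)
    refine ⟨h.int.congr he.symm, ?_⟩
    filter_upwards [he, h.nonneg] with x hx h0
    rw [hx]; exact h0

/-- auxiliary (common part of `hf_fisher_int_le_of` and `hf_fisher_int_le`): Fatou in time + `hf_diss`. -/
theorem hf_fisher_int_le_liminf (R : hf_RS m rs Rel) (hfin : FiniteOnBoundedSets m) (hG : GoodExp m o a)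
    (h : NiceDens m o a B ρ) (ht : 0 ≤ t) :
    ∫⁻ s in Ioc 0 t, fisher m (heatF m s ρ) ≤ liminf (fun n : ℕ => ENNReal.ofReal
      ((∫ x, hf_e (1 / ((n : ℝ) + 1)) (ρ x) ∂m) - ∫ x, hf_e (1 / ((n : ℝ) + 1)) (heatF m t ρ x) ∂m)) atTop := by
  have hρ2 : MemLp ρ 2 m := hf_nice_memLp hG.1.le h
  have hη : ∀ n : ℕ, 0 < 1 / ((n : ℝ) + 1) := fun n => by positivity
  have hmeas : ∀ n : ℕ, Measurable
      (fun s => 8 * cheegerEnergy m (fun x => hf_psi (1 / ((n : ℝ) + 1)) (heatF m s ρ x))) := fun n =>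
    ((hf_ch_comp_heat_lsc R hρ2 (hf_psi_lip (hη n)) (hf_psi_zero _)).measurable).const_mul 8
  calc ∫⁻ s in Ioc 0 t, fisher m (heatF m s ρ)
      ≤ ∫⁻ s in Ioc 0 t, liminf (fun n : ℕ =>
          8 * cheegerEnergy m (fun x => hf_psi (1 / ((n : ℝ) + 1)) (heatF m s ρ x))) atTop := by
        apply setLIntegral_mono' measurableSet_Ioc
        intro s hs
        have hn := hf_heat_nice R hfin hG hs.1.le h
        exact hf_fisher_le_liminf R hn.int (hf_heatF_memLp m s ρ) hn.nonneg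
    _ ≤ liminf (fun n : ℕ => ∫⁻ s in Ioc 0 t,
          8 * cheegerEnergy m (fun x => hf_psi (1 / ((n : ℝ) + 1)) (heatF m s ρ x))) atTop :=
        lintegral_liminf_le hmeas
    _ ≤ _ := liminf_le_liminf (Eventually.of_forall fun n => hf_diss R (hη n) hρ2 ht)

/-- **Key export for ID.**   If `Φ_η(ρ) - Φ_η(ρ_t) ≤ c` for all `η = 1/(n+1)`, then `∫_0^t I(ρ_s) ds ≤ c`.
`∫⁻ I(ρ_s) ≤ ∫⁻ liminf_n 8Ch(ψ_{η_n}(ρ_s)) ≤ liminf_n ∫⁻ 8 Ch(ψ_{η_n}(ρ_s)) ≤ ofReal c`:  `hf_fisher_le_liminf` for `ρ_s` (nice by `hf_heat_nice`), `lintegral_liminf_le` (measurability: `hf_ch_comp_heat_lsc` with `hf_psi_lip`, `LowerSemicontinuous.measurable`), `hf_diss`. -/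
theorem hf_fisher_int_le_of (R : hf_RS m rs Rel) (hfin : FiniteOnBoundedSets m) (hG : GoodExp m o a)
    (h : NiceDens m o a B ρ) (ht : 0 ≤ t)
    (hc : ∀ n : ℕ, (∫ x, hf_e (1 / ((n : ℝ) + 1)) (ρ x) ∂m) - ∫ x, hf_e (1 / ((n : ℝ) + 1)) (heatF m t ρ x) ∂m ≤ c) :
    ∫⁻ s in Ioc 0 t, fisher m (heatF m s ρ) ≤ ENNReal.ofReal c := by
  refine (hf_fisher_int_le_liminf R hfin hG h ht).trans ?_
  exact liminf_le_of_frequently_le' (Frequently.of_forall fun n => ENNReal.ofReal_le_ofReal (hc n))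

/-- **HF4 (b).**  As above with `liminf_n ofReal (Φ_{η_n}(ρ) - Φ_{η_n}(ρ_t)) = ofReal (Ent ρ - Ent ρ_t)` (`hf_Phi_sub_tendsto`, continuity of `ofReal`, `Tendsto.liminf_eq`). -/
theorem hf_fisher_int_le (R : hf_RS m rs Rel) (hfin : FiniteOnBoundedSets m) (hG : GoodExp m o a)
    (h : NiceDens m o a B ρ) (ht : 0 ≤ t) :
    ∫⁻ s in Ioc 0 t, fisher m (heatF m s ρ) ≤ ENNReal.ofReal (entF m ρ - entF m (heatF m t ρ)) := by
  refine (hf_fisher_int_le_liminf R hfin hG h ht).trans (le_of_eq ?_)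
  have h1 := hf_Phi_sub_tendsto hG h (hf_heat_nice R hfin hG ht h)
  exact ((ENNReal.continuous_ofReal.tendsto _).comp h1).liminf_eq

/-- `s ↦ I(ρ_s)` is lower semicontinuous on `ℝ`:  `hf_lsc_of_seq`, `hf_ch_lsc`, `hf_sqrt_heat_cont`. -/
theorem hf_fisher_lsc (R : hf_RS m rs Rel) (hfin : FiniteOnBoundedSets m) (hG : GoodExp m o a)
    (h : NiceDens m o a B ρ) : LowerSemicontinuous (fun s => fisher m (heatF m s ρ)) := by
  apply hf_lsc_of_seq
  intro s₀ σ hσ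
  have hmem : ∀ s : ℝ, MemLp (fun x => Real.sqrt (heatF m s ρ x)) 2 m := fun s =>
    hf_sqrt_memLp (hf_heat_int_all R hfin hG h s).1 (hf_heat_int_all R hfin hG h s).2
  have h1 : cheegerEnergy m (fun x => Real.sqrt (heatF m s₀ ρ x))
      ≤ liminf (fun n => cheegerEnergy m (fun x => Real.sqrt (heatF m (σ n) ρ x))) atTop :=
    hf_ch_lsc R (fun n => hmem (σ n)) (hmem s₀) ((hf_sqrt_heat_cont R hfin hG h s₀).comp hσ)
  exact (mul_le_mul_right h1 8).trans (hf_const_mul_liminf_le 8 _)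

end Claimed.Agent.R210.HF.Fisher
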