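/-
Row 210 (S0432), layer HF, architect helper897.   File FormB (HF5):   `|E(ρ,u)| ≤ (∫ slope(u)² ρ)^{1/2} I(ρ)^{1/2}`.
   `ρ = (√ρ)²`, `0 ≤ ρ ≤ B`:  chain rule with the truncated square `hf_sq b`, `b = √B`:  `2√ρ rs(√ρ)` is a relaxed slope of `ρ`, so `rs ρ ≤ 2√ρ rs(√ρ)` a.e. (`R.rs_le`).
   `|E(ρ,u)| ≤ ∫ rs(ρ) sl(u) ≤ 2 ∫ √ρ sl(u) rs(√ρ) ≤ 2 (∫ ρ sl(u)²)^{1/2} (∫ rs(√ρ)²)^{1/2}`,   `∫ rs(√ρ)² = 2 Ch(√ρ) = I(ρ)/4`.
Tools: HF/Basic.lean, HF/Fn1d.lean, the package `R`, `HL.Ifc.hl6_*` (slope of Lipschitz functions: bounded, measurable).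
-/
import Claimed.Agent.R210.HF.Basic
import Claimed.Agent.R210.HF.Fn1d
import Claimed.Agent.R210.HL.Ifc

set_option autoImplicit false

open Claims.C0366 Claims.C0366.WeakHessian
open Claimed.Agent.R210.Defs Claimed.Agent.R210.Defs2 Claimed.Agent.R210.HS.Defs Claimed.Agent.R210.HF.Defs
open Set Filter MeasureTheory
open scoped ENNReal NNReal Topology

open Claimed.Agent.R210.HF.Basic Claimed.Agent.R210.HF.Fn1d

namespace Claimed.Agent.R210.HF.FormB

variable {X : Type*} [MetricSpace X] [MeasurableSpace X] [BorelSpace X] {m : Measure X}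
  {rs : (X → ℝ) → X → ℝ} {Rel : (X → ℝ) → (X → ℝ) → Prop} {f g u v ρ : X → ℝ} {B : ℝ}

/-- `fisher m ρ < ∞` means `√ρ ∈ Dom`  (`cheegerEnergy = ∞` outside `L²` by definition; `8 * x < ∞ ↔ x < ∞`) -/
theorem hf_sqrt_dom_of_fisher (h : fisher m ρ < ∞) : hf_Dom m (fun x => Real.sqrt (ρ x)) := by
  have h1 : cheegerEnergy m (fun x => Real.sqrt (ρ x)) < ∞ := by
    by_contra hc
    have hc' : cheegerEnergy m (fun x => Real.sqrt (ρ x)) = ∞ := not_lt_top_iff.1 hc
    unfold fisher at h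
    rw [hc'] at h
    simp at h
  refine ⟨?_, h1⟩
  by_contra hc
  unfold cheegerEnergy at h1
  rw [if_neg hc] at h1
  exact lt_irrefl _ h1

/-- `Rel ρ (2√ρ rs(√ρ))`:  `R.rel_chain` with `ψ = hf_sq b`, `ψ' = hf_dsq b`, `L = 2b`, `b = √B`, applied to `R.rel_rs (√ρ)`;  `R.rel_congr`:  a.e. `0 ≤ √ρ ≤ b`, so `hf_sq b (√ρ) = ρ`, `|hf_dsq b (√ρ)| = 2√ρ`. -/
theorem hf_rel_of_sqrt (R : hf_RS m rs Rel) (h0 : ∀ᵐ x ∂m, 0 ≤ ρ x) (hB : ∀ᵐ x ∂m, ρ x ≤ B) (hI : fisher m ρ < ∞) :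
    Rel ρ (fun x => 2 * Real.sqrt (ρ x) * rs (fun y => Real.sqrt (ρ y)) x) := by
  have hD := hf_sqrt_dom_of_fisher hI
  have hrel := R.rel_rs _ hD
  have hb : 0 ≤ Real.sqrt B := Real.sqrt_nonneg _
  have hch := R.rel_chain (hf_sq (Real.sqrt B)) (hf_dsq (Real.sqrt B)) (2 * Real.sqrt B)
    (hf_sq_hasDerivAt (Real.sqrt B)) (hf_dsq_continuous (Real.sqrt B)) (hf_dsq_abs_le hb)
    (hf_sq_zero (Real.sqrt B)) _ _ hrel
  refine R.rel_congr _ _ _ _ ?_ ?_ hch
  · filter_upwards [h0, hB] with x hx0 hxB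
    have h1 : |Real.sqrt (ρ x)| ≤ Real.sqrt B := by
      rw [abs_of_nonneg (Real.sqrt_nonneg _)]
      exact Real.sqrt_le_sqrt hxB
    rw [hf_sq_of_mem h1, Real.sq_sqrt hx0]
  · filter_upwards [h0, hB] with x hx0 hxB
    have h1 : |Real.sqrt (ρ x)| ≤ Real.sqrt B := by
      rw [abs_of_nonneg (Real.sqrt_nonneg _)]
      exact Real.sqrt_le_sqrt hxB
    rw [hf_dsq_of_mem h1, abs_of_nonneg (by positivity)]

theorem hf_dom_of_fisher (R : hf_RS m rs Rel) (h0 : ∀ᵐ x ∂m, 0 ≤ ρ x) (hB : ∀ᵐ x ∂m, ρ x ≤ B) (hI : fisher m ρ < ∞) :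
    hf_Dom m ρ := by
  have hrel := hf_rel_of_sqrt R h0 hB hI
  exact ⟨(R.rel_memLp _ _ hrel).1, (R.rel_ch _ _ hrel).trans_lt ENNReal.ofReal_lt_top⟩

/-- `∫ rs(√ρ)² = I(ρ)/4`  (`R.ch_eq`) -/
theorem hf_int_rs_sqrt (R : hf_RS m rs Rel) (hI : fisher m ρ < ∞) :
    ∫ x, rs (fun y => Real.sqrt (ρ y)) x ^ 2 ∂m = (fisher m ρ).toReal / 4 := by
  have hD := hf_sqrt_dom_of_fisher hI
  have h1 := R.ch_eq _ hD
  have h2 : 0 ≤ ∫ x, rs (fun y => Real.sqrt (ρ y)) x ^ 2 ∂m := integral_nonneg (fun x => sq_nonneg _)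
  unfold fisher
  rw [h1, ENNReal.toReal_mul, ENNReal.toReal_ofReal (by positivity)]
  norm_num
  ring

/-- the real slope of a Lipschitz function is a relaxed slope as soon as it is in `L²` (`R.rel_lip`; `localSlope u x ≤ L < ∞` by `hl6_localSlope_le_of_lipschitz`, so `ofReal (toReal ·) = ·`) -/
theorem hf_rel_sl (R : hf_RS m rs Rel) (hu : GloballyLipschitz u) (hu2 : MemLp u 2 m) (hs : MemLp (hf_sl u) 2 m) :
    Rel u (hf_sl u) := by
  obtain ⟨L, hL⟩ := hu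
  refine R.rel_lip u (hf_sl u) ⟨L, hL⟩ hu2 hs (Filter.Eventually.of_forall fun x => ENNReal.toReal_nonneg)
    (Filter.Eventually.of_forall fun x => ?_)
  have hfin : localSlope u x ≠ ∞ :=
    ne_top_of_le_ne_top ENNReal.coe_ne_top (Claimed.Agent.R210.HL.Ifc.hl6_localSlope_le_of_lipschitz hL x)
  simp only [hf_sl]
  rw [ENNReal.ofReal_toReal hfin]

/-- **HF5.** -/
theorem hf_form_bound (R : hf_RS m rs Rel) (h0 : ∀ᵐ x ∂m, 0 ≤ ρ x) (hB : ∀ᵐ x ∂m, ρ x ≤ B) (hI : fisher m ρ < ∞)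
    (hu : GloballyLipschitz u) (hu2 : MemLp u 2 m) (hs : MemLp (hf_sl u) 2 m) :
    |hf_E m ρ u| ≤ Real.sqrt (∫ x, hf_sl u x ^ 2 * ρ x ∂m) * Real.sqrt (fisher m ρ).toReal := by
  have hDρ : hf_Dom m ρ := hf_dom_of_fisher R h0 hB hI
  have hDs : hf_Dom m (fun x => Real.sqrt (ρ x)) := hf_sqrt_dom_of_fisher hI
  have hRel : Rel u (hf_sl u) := hf_rel_sl R hu hu2 hs
  have hRelρ := hf_rel_of_sqrt R h0 hB hI
  have h1 : |hf_E m ρ u| ≤ ∫ x, rs ρ x * hf_sl u x ∂m := R.form_le ρ u _ hDρ hRel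
  have hle : ∀ᵐ x ∂m, rs ρ x ≤ 2 * Real.sqrt (ρ x) * rs (fun y => Real.sqrt (ρ y)) x := R.rs_le ρ _ hRelρ
  have hrsρ : MemLp (rs ρ) 2 m := (R.rel_memLp ρ _ (R.rel_rs ρ hDρ)).2.1
  have hG : MemLp (fun x => 2 * Real.sqrt (ρ x) * rs (fun y => Real.sqrt (ρ y)) x) 2 m :=
    (R.rel_memLp ρ _ hRelρ).2.1
  have hrss : MemLp (rs (fun y => Real.sqrt (ρ y))) 2 m := (R.rel_memLp _ _ (R.rel_rs _ hDs)).2.1
  have hsl0 : ∀ x, 0 ≤ hf_sl u x := fun x => ENNReal.toReal_nonneg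
  have h2 : ∫ x, rs ρ x * hf_sl u x ∂m
      ≤ ∫ x, (2 * Real.sqrt (ρ x) * rs (fun y => Real.sqrt (ρ y)) x) * hf_sl u x ∂m := by
    refine integral_mono_ae (hf_integrable_mul hrsρ hs) (hf_integrable_mul hG hs) ?_
    filter_upwards [hle] with x hx
    exact mul_le_mul_of_nonneg_right hx (hsl0 x)
  have hP : MemLp (fun x => Real.sqrt (ρ x) * hf_sl u x) 2 m := by
    refine MemLp.of_le_mul (c := Real.sqrt B) hs (hDs.1.aestronglyMeasurable.mul hs.aestronglyMeasurable) ?_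
    filter_upwards [hB] with x hx
    rw [norm_mul]
    refine mul_le_mul_of_nonneg_right ?_ (norm_nonneg _)
    rw [Real.norm_of_nonneg (Real.sqrt_nonneg _)]
    exact Real.sqrt_le_sqrt hx
  have h3 : ∫ x, (2 * Real.sqrt (ρ x) * rs (fun y => Real.sqrt (ρ y)) x) * hf_sl u x ∂m
      = 2 * ∫ x, (Real.sqrt (ρ x) * hf_sl u x) * rs (fun y => Real.sqrt (ρ y)) x ∂m := by
    rw [← integral_const_mul]
    refine integral_congr_ae (Filter.Eventually.of_forall fun x => ?_)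
    simp only
    ring
  have h4 := hf_integral_mul_le hP hrss
  have h5 : ∫ x, (Real.sqrt (ρ x) * hf_sl u x) ^ 2 ∂m = ∫ x, hf_sl u x ^ 2 * ρ x ∂m := by
    refine integral_congr_ae ?_
    filter_upwards [h0] with x hx
    rw [mul_pow, Real.sq_sqrt hx, mul_comm]
  have h6 := hf_int_rs_sqrt R hI
  rw [h5, h6] at h4
  have h7 : Real.sqrt ((fisher m ρ).toReal / 4) = Real.sqrt (fisher m ρ).toReal / 2 := by
    rw [Real.sqrt_div ENNReal.toReal_nonneg]
    congr 1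
    rw [show (4 : ℝ) = 2 ^ 2 by norm_num]
    exact Real.sqrt_sq (by norm_num)
  rw [h7] at h4
  have h8 := (le_abs_self _).trans h4
  calc |hf_E m ρ u| ≤ ∫ x, rs ρ x * hf_sl u x ∂m := h1
    _ ≤ _ := h2
    _ = _ := h3
    _ ≤ 2 * (Real.sqrt (∫ x, hf_sl u x ^ 2 * ρ x ∂m) * (Real.sqrt (fisher m ρ).toReal / 2)) := by
        exact mul_le_mul_of_nonneg_left h8 (by norm_num)
    _ = _ := by ring

/-- a bounded measurable function vanishing outside a closed ball is in `L²`. -/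
theorem hf_memLp_of_bdd_supp (hfin : FiniteOnBoundedSets m) {o : X} {r C : ℝ}
    (hg : AEStronglyMeasurable g m) (hC : ∀ x, |g x| ≤ C) (hsupp : ∀ x, r < dist x o → g x = 0) :
    MemLp g 2 m := by
  have hS : MeasurableSet (Metric.closedBall o r) := Metric.isClosed_closedBall.measurableSet
  have hind : (Metric.closedBall o r).indicator g = g := by
    funext x
    by_cases hx : x ∈ Metric.closedBall o r
    · simp [hx]
    · have : r < dist x o := by simpa [Metric.mem_closedBall] using hx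
      simp [hx, hsupp x this]
  rw [← hind, memLp_indicator_iff_restrict hS]
  have : IsFiniteMeasure (m.restrict (Metric.closedBall o r)) :=
    ⟨by rw [Measure.restrict_apply_univ]; exact hfin _ Metric.isBounded_closedBall⟩
  exact MemLp.of_bound hg.restrict C (Eventually.of_forall fun x => by simpa using hC x)

/-- a Lipschitz function with bounded support is in `L²`, and so is its slope (bounded by the Lipschitz constant, measurable by `hl6_measurable_localSlope`, zero outside the closure of the support: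
outside `closedBall o r` the function vanishes on a neighbourhood). -/
theorem hf_lip_bdd_memLp (hfin : FiniteOnBoundedSets m) (hu : GloballyLipschitz u) {o : X} {r : ℝ}
    (hsupp : ∀ x, r < dist x o → u x = 0) : MemLp u 2 m ∧ MemLp (hf_sl u) 2 m := by
  obtain ⟨L, hL⟩ := hu
  refine ⟨hf_memLp_of_bdd_supp (C := |u o| + L * |r|) hfin hL.continuous.aestronglyMeasurable ?_ hsupp,
    hf_memLp_of_bdd_supp (C := L) (o := o) (r := r) hfin ?_ ?_ ?_⟩
  · intro x
    by_cases hx : r < dist x o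
    · rw [hsupp x hx]; simp; positivity
    · have h1 : dist x o ≤ |r| := (not_lt.1 hx).trans (le_abs_self r)
      have h2 : |u x - u o| ≤ L * dist x o := by
        have := hL.dist_le_mul x o
        rwa [Real.dist_eq] at this
      have h3 : |u x| ≤ |u o| + |u x - u o| := by
        have := abs_add_le (u o) (u x - u o)
        simpa using this
      have h4 : (L : ℝ) * dist x o ≤ L * |r| := mul_le_mul_of_nonneg_left h1 L.coe_nonneg
      linarith
  · exact ((HL.Ifc.hl6_measurable_localSlope hL.continuous).ennreal_toReal).aestronglyMeasurable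
  · intro x
    have h := HL.Ifc.hl6_localSlope_le_of_lipschitz hL x
    have h' : (localSlope u x).toReal ≤ ((L : ℝ≥0∞)).toReal :=
      ENNReal.toReal_mono ENNReal.coe_ne_top h
    rw [hf_sl, abs_of_nonneg ENNReal.toReal_nonneg]
    simpa using h'
  · intro x hx
    have hopen : IsOpen {y : X | r < dist y o} := isOpen_lt continuous_const (continuous_id.dist continuous_const)
    have hev : ∀ᶠ y in 𝓝[≠] x, ENNReal.ofReal (|u y - u x| / dist y x) ≤ 0 := by
      have : ∀ᶠ y in 𝓝 x, r < dist y o := hopen.mem_nhds hx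
      refine (this.filter_mono nhdsWithin_le_nhds).mono fun y hy => ?_
      rw [hsupp y hy, hsupp x hx]; simp
    have h0 : localSlope u x ≤ 0 := Filter.limsup_le_of_le (by isBoundedDefault) hev
    have h1 : localSlope u x = 0 := le_antisymm h0 bot_le
    simp [hf_sl, h1]

end Claimed.Agent.R210.HF.FormB
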