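/-
Row 210 (S0432), layer HF (heat flow before the identification), architect helper897.      INTERFACE: consumers import only this file.
Contract: `git show origin/helper928:docs/R210_wave2.md` (section HF).   Design, proofs, map of the leaves: `git show origin/helper897:docs/R210_HF.md`.
NOTATION (definitions in HF/Defs.lean, Defs2.lean):   everything is at the level of FUNCTIONS `X → ℝ`.
   `J_δ f = resF m δ f`,  `H_t f = heatF m t f` (`= f` a.e. for `t ≤ 0`),  `Ch = cheegerEnergy m`,  `hf_Dom m f := MemLp f 2 m ∧ Ch f < ∞`,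
   `E(f,g) = hf_E m f g` (`= HS.bil (ChL2 m) [f] [g]`, `E(f,f) = 2 Ch f`),   `hf_wn m o a f = ∫⁻ e^{2 a d(x,o)} f² dm`,   `hf_sl u = (localSlope u ·).toReal`,
   `hf_phi η z = log (z+η) - log η`, `hf_psi η z = √(z+η) - √η`, `hf_e η z = ∫_0^z hf_phi η` for `z ≥ 0` (`C¹` extensions to `z < 0`; formulas: `hf4_phi_of_nonneg`, ...).
EXPORTS   hf0_* : dictionary (resolvent equation, semigroup law, exponential formula, symmetry, contraction, strong/weak time derivative, bilinearity of `E`, lsc of `Ch`)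
          hf1_* : sub-Markov, `L¹` contraction           hf2_* : weighted `L²` bounds            hf3_* : integrability, mass conservation, `NiceDens` preserved
          hf4_* : entropy dissipation, `∫ Fisher`         hf5_* : `|E(ρ,u)| ≤ (∫ slope(u)² ρ)^{1/2} I(ρ)^{1/2}`          hf6_* : continuity in `L²`, `L¹`.
DEVIATIONS FROM THE CONTRACT (told to helper928):  constants `e^{8a²t}` instead of `e^{4a²t}` for the squared weighted norm;  resolvent statements with weights need `4 δ a² ≤ 1`;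
   the time integrated weighted gradient bound of HF2 is not exported (not needed for HF3-HF6);  the gradient bound for the resolvent is `hf2_res_wgrad` (in terms of the RS package).
-/
import Claimed.Agent.R210.HF.Fisher
import Claimed.Agent.R210.HF.FormB

set_option autoImplicit false
set_option linter.unusedSectionVars false

open Claims.C0366 Claims.C0366.WeakHessian
open Claimed.Agent.R210.Defs Claimed.Agent.R210.Defs2 Claimed.Agent.R210.HS.Defs Claimed.Agent.R210.HF.Defs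
open Claimed.Agent.R210.HF Claimed.Agent.R210.HF.Need
open Set Filter MeasureTheory
open scoped ENNReal NNReal Topology

namespace Claimed.Agent.R210.HF.Ifc

variable {X : Type*} [MetricSpace X] [MeasurableSpace X] [BorelSpace X] [CompleteSpace X]
  [TopologicalSpace.SeparableSpace X] {m : Measure X} {f g u v ρ : X → ℝ} {δ t s a B C c η : ℝ} {o : X}

/-! ### HF0 -/

theorem hf0_resF_memLp (m : Measure X) (δ : ℝ) (f : X → ℝ) :
    MemLp (resF m δ f) 2 m :=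
  Basic.hf_resF_memLp m δ f

theorem hf0_heatF_memLp (m : Measure X) (t : ℝ) (f : X → ℝ) :
    MemLp (heatF m t f) 2 m :=
  Basic.hf_heatF_memLp m t f

theorem hf0_resF_eq (h : MemLp f 2 m) (δ : ℝ) :
    resF m δ f = ⇑(prox (ChL2 m) δ (h.toLp f)) :=
  Basic.hf_resF_eq h δ

theorem hf0_heatF_eq (h : MemLp f 2 m) (t : ℝ) :
    heatF m t f = ⇑(flow (ChL2 m) t (h.toLp f)) :=
  Basic.hf_heatF_eq h t

/-- equality of functions -/
theorem hf0_resF_congr (h : f =ᵐ[m] g) (δ : ℝ) :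
    resF m δ f = resF m δ g :=
  Basic.hf_resF_congr h δ

theorem hf0_heatF_congr (h : f =ᵐ[m] g) (t : ℝ) :
    heatF m t f = heatF m t g :=
  Basic.hf_heatF_congr h t

theorem hf0_E_eq (hf : MemLp f 2 m) (hg : MemLp g 2 m) :
    hf_E m f g = bil (ChL2 m) (hf.toLp f) (hg.toLp g) :=
  Basic.hf_E_eq hf hg

theorem hf0_E_congr {f' g' : X → ℝ} (hf : f =ᵐ[m] f') (hg : g =ᵐ[m] g') :
    hf_E m f g = hf_E m f' g' :=
  Basic.hf_E_congr hf hg

theorem hf0_Dom_add (hfin : FiniteOnBoundedSets m) (hq : QuadraticCheegerEnergy m) (hf : hf_Dom m f) (hg : hf_Dom m g) :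
    hf_Dom m (fun x => f x + g x) := by
  obtain ⟨rs, Rel, R⟩ := hf_rs_exists m hfin hq
  exact Basic.hf_Dom_add R hf hg

theorem hf0_Dom_sub (hfin : FiniteOnBoundedSets m) (hq : QuadraticCheegerEnergy m) (hf : hf_Dom m f) (hg : hf_Dom m g) :
    hf_Dom m (fun x => f x - g x) := by
  obtain ⟨rs, Rel, R⟩ := hf_rs_exists m hfin hq
  exact Basic.hf_Dom_sub R hf hg

theorem hf0_Dom_const_mul (hfin : FiniteOnBoundedSets m) (hq : QuadraticCheegerEnergy m) (c : ℝ) (hf : hf_Dom m f) :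
    hf_Dom m (fun x => c * f x) := by
  obtain ⟨rs, Rel, R⟩ := hf_rs_exists m hfin hq
  exact Basic.hf_Dom_const_mul R c hf

theorem hf0_Dom_congr (hfin : FiniteOnBoundedSets m) (hq : QuadraticCheegerEnergy m) (h : f =ᵐ[m] g) (hf : hf_Dom m f) :
    hf_Dom m g := by
  obtain ⟨rs, Rel, R⟩ := hf_rs_exists m hfin hq
  exact Basic.hf_Dom_congr R h hf

theorem hf0_E_self (hfin : FiniteOnBoundedSets m) (hq : QuadraticCheegerEnergy m) (hf : hf_Dom m f) :
    hf_E m f f = 2 * (cheegerEnergy m f).toReal := by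
  obtain ⟨rs, Rel, R⟩ := hf_rs_exists m hfin hq
  exact Basic.hf_E_self R hf

theorem hf0_E_symm (hfin : FiniteOnBoundedSets m) (hq : QuadraticCheegerEnergy m) (f g : X → ℝ) :
    hf_E m f g = hf_E m g f := by
  obtain ⟨rs, Rel, R⟩ := hf_rs_exists m hfin hq
  exact Basic.hf_E_symm R f g

theorem hf0_E_add_right (hfin : FiniteOnBoundedSets m) (hq : QuadraticCheegerEnergy m) (hu : hf_Dom m u) (hf : hf_Dom m f) (hg : hf_Dom m g) :
    hf_E m u (fun x => f x + g x) = hf_E m u f + hf_E m u g := by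
  obtain ⟨rs, Rel, R⟩ := hf_rs_exists m hfin hq
  exact Basic.hf_E_add_right R hu hf hg

theorem hf0_E_const_mul_right (hfin : FiniteOnBoundedSets m) (hq : QuadraticCheegerEnergy m) (c : ℝ) (hu : hf_Dom m u) (hf : hf_Dom m f) :
    hf_E m u (fun x => c * f x) = c * hf_E m u f := by
  obtain ⟨rs, Rel, R⟩ := hf_rs_exists m hfin hq
  exact Basic.hf_E_const_mul_right R c hu hf

theorem hf0_E_sq_le (hfin : FiniteOnBoundedSets m) (hq : QuadraticCheegerEnergy m) (hf : hf_Dom m f) (hg : hf_Dom m g) :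
    hf_E m f g ^ 2 ≤ hf_E m f f * hf_E m g g := by
  obtain ⟨rs, Rel, R⟩ := hf_rs_exists m hfin hq
  exact Basic.hf_E_sq_le R hf hg

theorem hf0_ch_lsc (hfin : FiniteOnBoundedSets m) (hq : QuadraticCheegerEnergy m) {fs : ℕ → X → ℝ} (hfs : ∀ n, MemLp (fs n) 2 m) (hg : MemLp g 2 m)
    (hlim : Tendsto (fun n => eLpNorm (fun x => fs n x - g x) 2 m) atTop (𝓝 0)) :
    cheegerEnergy m g ≤ liminf (fun n => cheegerEnergy m (fs n)) atTop := by
  obtain ⟨rs, Rel, R⟩ := hf_rs_exists m hfin hq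
  exact Basic.hf_ch_lsc R hfs hg hlim

theorem hf0_res_dom (hfin : FiniteOnBoundedSets m) (hq : QuadraticCheegerEnergy m) (hδ : 0 < δ) (hf : MemLp f 2 m) :
    hf_Dom m (resF m δ f) := by
  obtain ⟨rs, Rel, R⟩ := hf_rs_exists m hfin hq
  exact Basic.hf_res_dom R hδ hf

/-- the resolvent equation `u - δ Δ u = f`, weak form -/
theorem hf0_res_eq (hfin : FiniteOnBoundedSets m) (hq : QuadraticCheegerEnergy m) (hδ : 0 < δ) (hf : MemLp f 2 m) (hv : hf_Dom m v) :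
    δ * hf_E m (resF m δ f) v + ∫ x, resF m δ f x * v x ∂m = ∫ x, f x * v x ∂m := by
  obtain ⟨rs, Rel, R⟩ := hf_rs_exists m hfin hq
  exact Basic.hf_res_eq R hδ hf hv

theorem hf0_res_unique (hfin : FiniteOnBoundedSets m) (hq : QuadraticCheegerEnergy m) (hδ : 0 < δ) (hf : MemLp f 2 m) (hu : hf_Dom m u)
    (h : ∀ v, hf_Dom m v → δ * hf_E m u v + ∫ x, u x * v x ∂m = ∫ x, f x * v x ∂m) :
    u =ᵐ[m] resF m δ f := by
  obtain ⟨rs, Rel, R⟩ := hf_rs_exists m hfin hq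
  exact Basic.hf_res_unique R hδ hf hu h

theorem hf0_res_add (hfin : FiniteOnBoundedSets m) (hq : QuadraticCheegerEnergy m) (hδ : 0 < δ) (hf : MemLp f 2 m) (hg : MemLp g 2 m) :
    resF m δ (fun x => f x + g x) =ᵐ[m] fun x => resF m δ f x + resF m δ g x := by
  obtain ⟨rs, Rel, R⟩ := hf_rs_exists m hfin hq
  exact Basic.hf_res_add R hδ hf hg

theorem hf0_res_const_mul (hfin : FiniteOnBoundedSets m) (hq : QuadraticCheegerEnergy m) (hδ : 0 < δ) (c : ℝ) (hf : MemLp f 2 m) :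
    resF m δ (fun x => c * f x) =ᵐ[m] fun x => c * resF m δ f x := by
  obtain ⟨rs, Rel, R⟩ := hf_rs_exists m hfin hq
  exact Basic.hf_res_const_mul R hδ c hf

theorem hf0_res_symm (hfin : FiniteOnBoundedSets m) (hq : QuadraticCheegerEnergy m) (hδ : 0 < δ) (hf : MemLp f 2 m) (hg : MemLp g 2 m) :
    ∫ x, resF m δ f x * g x ∂m = ∫ x, f x * resF m δ g x ∂m := by
  obtain ⟨rs, Rel, R⟩ := hf_rs_exists m hfin hq
  exact Basic.hf_res_symm R hδ hf hg

theorem hf0_res_norm_le (hfin : FiniteOnBoundedSets m) (hq : QuadraticCheegerEnergy m) (hδ : 0 < δ) (hf : MemLp f 2 m) :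
    ∫ x, resF m δ f x ^ 2 ∂m ≤ ∫ x, f x ^ 2 ∂m := by
  obtain ⟨rs, Rel, R⟩ := hf_rs_exists m hfin hq
  exact Basic.hf_res_norm_le R hδ hf

theorem hf0_res_ch_le (hfin : FiniteOnBoundedSets m) (hq : QuadraticCheegerEnergy m) (hδ : 0 < δ) (hf : MemLp f 2 m) :
    cheegerEnergy m (resF m δ f) ≤ cheegerEnergy m f := by
  obtain ⟨rs, Rel, R⟩ := hf_rs_exists m hfin hq
  exact Basic.hf_res_ch_le R hδ hf

theorem hf0_heat_of_nonpos (ht : t ≤ 0) (hf : MemLp f 2 m) :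
    heatF m t f =ᵐ[m] f :=
  Basic.hf_heat_of_nonpos ht hf

/-- semigroup law (equality of functions) -/
theorem hf0_heat_add (hfin : FiniteOnBoundedSets m) (hq : QuadraticCheegerEnergy m) (hs : 0 ≤ s) (ht : 0 ≤ t) (hf : MemLp f 2 m) :
    heatF m (s + t) f = heatF m s (heatF m t f) := by
  obtain ⟨rs, Rel, R⟩ := hf_rs_exists m hfin hq
  exact Basic.hf_heat_add R hs ht hf

/-- exponential formula -/
theorem hf0_heat_limit (hfin : FiniteOnBoundedSets m) (hq : QuadraticCheegerEnergy m) (ht : 0 < t) (hf : MemLp f 2 m) :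
    Tendsto (fun n : ℕ => eLpNorm (fun x => (resF m (t / (n + 1)))^[n + 1] f x - heatF m t f x) 2 m) atTop (𝓝 0) := by
  obtain ⟨rs, Rel, R⟩ := hf_rs_exists m hfin hq
  exact Basic.hf_heat_limit R ht hf

theorem hf0_heat_add_fun (hfin : FiniteOnBoundedSets m) (hq : QuadraticCheegerEnergy m) (t : ℝ) (hf : MemLp f 2 m) (hg : MemLp g 2 m) :
    heatF m t (fun x => f x + g x) =ᵐ[m] fun x => heatF m t f x + heatF m t g x := by
  obtain ⟨rs, Rel, R⟩ := hf_rs_exists m hfin hq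
  exact Basic.hf_heat_add_fun R t hf hg

theorem hf0_heat_const_mul (hfin : FiniteOnBoundedSets m) (hq : QuadraticCheegerEnergy m) (t c : ℝ) (hf : MemLp f 2 m) :
    heatF m t (fun x => c * f x) =ᵐ[m] fun x => c * heatF m t f x := by
  obtain ⟨rs, Rel, R⟩ := hf_rs_exists m hfin hq
  exact Basic.hf_heat_const_mul R t c hf

theorem hf0_heat_symm (hfin : FiniteOnBoundedSets m) (hq : QuadraticCheegerEnergy m) (t : ℝ) (hf : MemLp f 2 m) (hg : MemLp g 2 m) :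
    ∫ x, heatF m t f x * g x ∂m = ∫ x, f x * heatF m t g x ∂m := by
  obtain ⟨rs, Rel, R⟩ := hf_rs_exists m hfin hq
  exact Basic.hf_heat_symm R t hf hg

theorem hf0_heat_norm_le (hfin : FiniteOnBoundedSets m) (hq : QuadraticCheegerEnergy m) (t : ℝ) (hf : MemLp f 2 m) :
    ∫ x, heatF m t f x ^ 2 ∂m ≤ ∫ x, f x ^ 2 ∂m := by
  obtain ⟨rs, Rel, R⟩ := hf_rs_exists m hfin hq
  exact Basic.hf_heat_norm_le R t hf

theorem hf0_heat_dom (hfin : FiniteOnBoundedSets m) (hq : QuadraticCheegerEnergy m) (ht : 0 < t) (hf : MemLp f 2 m) :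
    hf_Dom m (heatF m t f) := by
  obtain ⟨rs, Rel, R⟩ := hf_rs_exists m hfin hq
  exact Basic.hf_heat_dom R ht hf

theorem hf0_heat_ch_anti (hfin : FiniteOnBoundedSets m) (hq : QuadraticCheegerEnergy m) (hs : 0 ≤ s) (hst : s ≤ t) (hf : MemLp f 2 m) :
    cheegerEnergy m (heatF m t f) ≤ cheegerEnergy m (heatF m s f) := by
  obtain ⟨rs, Rel, R⟩ := hf_rs_exists m hfin hq
  exact Basic.hf_heat_ch_anti R hs hst hf

/-- strong `L²` derivative `L = Δ H_t f` -/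
theorem hf0_heat_deriv (hfin : FiniteOnBoundedSets m) (hq : QuadraticCheegerEnergy m) (ht : 0 < t) (hf : MemLp f 2 m) :
    ∃ L : X → ℝ, MemLp L 2 m ∧ (∀ v, hf_Dom m v → hf_E m (heatF m t f) v = -∫ x, L x * v x ∂m) ∧
      Tendsto (fun h : ℝ => eLpNorm (fun x => (heatF m (t + h) f x - heatF m t f x) / h - L x) 2 m) (𝓝[≠] 0) (𝓝 0) := by
  obtain ⟨rs, Rel, R⟩ := hf_rs_exists m hfin hq
  exact Basic.hf_heat_deriv R ht hf

theorem hf0_heat_deriv_weak (hfin : FiniteOnBoundedSets m) (hq : QuadraticCheegerEnergy m) (ht : 0 < t) (hf : MemLp f 2 m) (hv : hf_Dom m v) :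
    HasDerivAt (fun s => ∫ x, heatF m s f x * v x ∂m) (-hf_E m (heatF m t f) v) t := by
  obtain ⟨rs, Rel, R⟩ := hf_rs_exists m hfin hq
  exact Basic.hf_heat_deriv_weak R ht hf hv

/-! ### HF1 -/

theorem hf1_res_le (hfin : FiniteOnBoundedSets m) (hq : QuadraticCheegerEnergy m) (hδ : 0 < δ) (hf : MemLp f 2 m) (hC : 0 ≤ C) (h : ∀ᵐ x ∂m, f x ≤ C) :
    ∀ᵐ x ∂m, resF m δ f x ≤ C := by
  obtain ⟨rs, Rel, R⟩ := hf_rs_exists m hfin hq
  exact Markov.hf_res_le R hδ hf hC h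

theorem hf1_res_ge (hfin : FiniteOnBoundedSets m) (hq : QuadraticCheegerEnergy m) (hδ : 0 < δ) (hf : MemLp f 2 m) (hC : 0 ≤ C) (h : ∀ᵐ x ∂m, -C ≤ f x) :
    ∀ᵐ x ∂m, -C ≤ resF m δ f x := by
  obtain ⟨rs, Rel, R⟩ := hf_rs_exists m hfin hq
  exact Markov.hf_res_ge R hδ hf hC h

theorem hf1_res_nonneg (hfin : FiniteOnBoundedSets m) (hq : QuadraticCheegerEnergy m) (hδ : 0 < δ) (hf : MemLp f 2 m) (h : ∀ᵐ x ∂m, 0 ≤ f x) :
    ∀ᵐ x ∂m, 0 ≤ resF m δ f x := by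
  obtain ⟨rs, Rel, R⟩ := hf_rs_exists m hfin hq
  exact Markov.hf_res_nonneg R hδ hf h

theorem hf1_heat_le (hfin : FiniteOnBoundedSets m) (hq : QuadraticCheegerEnergy m) (t : ℝ) (hf : MemLp f 2 m) (hC : 0 ≤ C) (h : ∀ᵐ x ∂m, f x ≤ C) :
    ∀ᵐ x ∂m, heatF m t f x ≤ C := by
  obtain ⟨rs, Rel, R⟩ := hf_rs_exists m hfin hq
  exact Markov.hf_heat_le R t hf hC h

theorem hf1_heat_ge (hfin : FiniteOnBoundedSets m) (hq : QuadraticCheegerEnergy m) (t : ℝ) (hf : MemLp f 2 m) (hC : 0 ≤ C) (h : ∀ᵐ x ∂m, -C ≤ f x) :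
    ∀ᵐ x ∂m, -C ≤ heatF m t f x := by
  obtain ⟨rs, Rel, R⟩ := hf_rs_exists m hfin hq
  exact Markov.hf_heat_ge R t hf hC h

theorem hf1_heat_nonneg (hfin : FiniteOnBoundedSets m) (hq : QuadraticCheegerEnergy m) (t : ℝ) (hf : MemLp f 2 m) (h : ∀ᵐ x ∂m, 0 ≤ f x) :
    ∀ᵐ x ∂m, 0 ≤ heatF m t f x := by
  obtain ⟨rs, Rel, R⟩ := hf_rs_exists m hfin hq
  exact Markov.hf_heat_nonneg R t hf h

theorem hf1_res_l1 (hfin : FiniteOnBoundedSets m) (hq : QuadraticCheegerEnergy m) (hδ : 0 < δ) (hf : MemLp f 2 m) :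
    ∫⁻ x, ENNReal.ofReal |resF m δ f x| ∂m ≤ ∫⁻ x, ENNReal.ofReal |f x| ∂m := by
  obtain ⟨rs, Rel, R⟩ := hf_rs_exists m hfin hq
  exact Markov.hf_res_l1 R hfin hδ hf

theorem hf1_heat_l1 (hfin : FiniteOnBoundedSets m) (hq : QuadraticCheegerEnergy m) (t : ℝ) (hf : MemLp f 2 m) :
    ∫⁻ x, ENNReal.ofReal |heatF m t f x| ∂m ≤ ∫⁻ x, ENNReal.ofReal |f x| ∂m := by
  obtain ⟨rs, Rel, R⟩ := hf_rs_exists m hfin hq
  exact Markov.hf_heat_l1 R hfin t hf

/-! ### HF2 -/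

theorem hf2_res_wn (hfin : FiniteOnBoundedSets m) (hq : QuadraticCheegerEnergy m) (hδ : 0 < δ) (ha : 0 ≤ a) (h4 : 4 * δ * a ^ 2 ≤ 1) (hf : MemLp f 2 m) (o : X) :
    hf_wn m o a (resF m δ f) ≤ ENNReal.ofReal (Real.exp (8 * a ^ 2 * δ)) * hf_wn m o a f := by
  obtain ⟨rs, Rel, R⟩ := hf_rs_exists m hfin hq
  exact Weight.hf_res_wn R hδ ha h4 hf o

theorem hf2_heat_wn (hfin : FiniteOnBoundedSets m) (hq : QuadraticCheegerEnergy m) (ht : 0 ≤ t) (ha : 0 ≤ a) (hf : MemLp f 2 m) (o : X) :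
    hf_wn m o a (heatF m t f) ≤ ENNReal.ofReal (Real.exp (8 * a ^ 2 * t)) * hf_wn m o a f := by
  obtain ⟨rs, Rel, R⟩ := hf_rs_exists m hfin hq
  exact Weight.hf_heat_wn R ht ha hf o

/-! ### HF3 -/

theorem hf3_res_mass (hfin : FiniteOnBoundedSets m) (hq : QuadraticCheegerEnergy m) (hG : GoodExp m o a) (hδ : 0 < δ)
    (h4 : 4 * δ * a ^ 2 ≤ 1) (hf : MemLp f 2 m) (hw : hf_wn m o a f < ∞) :
    ∫ x, resF m δ f x ∂m = ∫ x, f x ∂m := by
  obtain ⟨rs, Rel, R⟩ := hf_rs_exists m hfin hq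
  exact Mass.hf_res_mass R hfin hG hδ h4 hf hw

theorem hf3_heat_mass (hfin : FiniteOnBoundedSets m) (hq : QuadraticCheegerEnergy m) (hG : GoodExp m o a) (ht : 0 ≤ t)
    (hf : MemLp f 2 m) (hw : hf_wn m o a f < ∞) :
    ∫ x, heatF m t f x ∂m = ∫ x, f x ∂m := by
  obtain ⟨rs, Rel, R⟩ := hf_rs_exists m hfin hq
  exact Mass.hf_heat_mass R hfin hG ht hf hw

theorem hf3_res_nice (hfin : FiniteOnBoundedSets m) (hq : QuadraticCheegerEnergy m) (hG : GoodExp m o a) (hδ : 0 < δ)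
    (h4 : 4 * δ * a ^ 2 ≤ 1) (h : NiceDens m o a B ρ) :
    NiceDens m o a B (resF m δ ρ) := by
  obtain ⟨rs, Rel, R⟩ := hf_rs_exists m hfin hq
  exact Mass.hf_res_nice R hfin hG hδ h4 h

theorem hf3_heat_nice (hfin : FiniteOnBoundedSets m) (hq : QuadraticCheegerEnergy m) (hG : GoodExp m o a) (ht : 0 ≤ t) (h : NiceDens m o a B ρ) :
    NiceDens m o a B (heatF m t ρ) := by
  obtain ⟨rs, Rel, R⟩ := hf_rs_exists m hfin hq
  exact Mass.hf_heat_nice R hfin hG ht h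

/-! ### HF4 -/

/-- HF4 (a) -/
theorem hf4_diss (hfin : FiniteOnBoundedSets m) (hq : QuadraticCheegerEnergy m) (hη : 0 < η) (hf : MemLp f 2 m) (ht : 0 ≤ t) :
    ∫⁻ s in Ioc 0 t, 8 * cheegerEnergy m (fun x => hf_psi η (heatF m s f x))
      ≤ ENNReal.ofReal ((∫ x, hf_e η (f x) ∂m) - ∫ x, hf_e η (heatF m t f x) ∂m) := by
  obtain ⟨rs, Rel, R⟩ := hf_rs_exists m hfin hq
  exact Diss.hf_diss R hη hf ht

/-- HF4 (a) + `η → 0` on the left: the form used by ID -/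
theorem hf4_fisher_int_le_of (hfin : FiniteOnBoundedSets m) (hq : QuadraticCheegerEnergy m) (hG : GoodExp m o a) (h : NiceDens m o a B ρ) (ht : 0 ≤ t)
    (hc : ∀ n : ℕ, (∫ x, hf_e (1 / ((n : ℝ) + 1)) (ρ x) ∂m) - ∫ x, hf_e (1 / ((n : ℝ) + 1)) (heatF m t ρ x) ∂m ≤ c) :
    ∫⁻ s in Ioc 0 t, fisher m (heatF m s ρ) ≤ ENNReal.ofReal c := by
  obtain ⟨rs, Rel, R⟩ := hf_rs_exists m hfin hq
  exact Fisher.hf_fisher_int_le_of R hfin hG h ht hc

/-- HF4 (b) -/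
theorem hf4_fisher_int_le (hfin : FiniteOnBoundedSets m) (hq : QuadraticCheegerEnergy m) (hG : GoodExp m o a) (h : NiceDens m o a B ρ) (ht : 0 ≤ t) :
    ∫⁻ s in Ioc 0 t, fisher m (heatF m s ρ) ≤ ENNReal.ofReal (entF m ρ - entF m (heatF m t ρ)) := by
  obtain ⟨rs, Rel, R⟩ := hf_rs_exists m hfin hq
  exact Fisher.hf_fisher_int_le R hfin hG h ht

theorem hf4_fisher_lsc (hfin : FiniteOnBoundedSets m) (hq : QuadraticCheegerEnergy m) (hG : GoodExp m o a) (h : NiceDens m o a B ρ) :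
    LowerSemicontinuous (fun s => fisher m (heatF m s ρ)) := by
  obtain ⟨rs, Rel, R⟩ := hf_rs_exists m hfin hq
  exact Fisher.hf_fisher_lsc R hfin hG h

/-! ### HF5 -/

/-- HF5 -/
theorem hf5_form_bound (hfin : FiniteOnBoundedSets m) (hq : QuadraticCheegerEnergy m) (h0 : ∀ᵐ x ∂m, 0 ≤ ρ x) (hB : ∀ᵐ x ∂m, ρ x ≤ B) (hI : fisher m ρ < ∞)
    (hu : GloballyLipschitz u) (hu2 : MemLp u 2 m) (hs : MemLp (hf_sl u) 2 m) :
    |hf_E m ρ u| ≤ Real.sqrt (∫ x, hf_sl u x ^ 2 * ρ x ∂m) * Real.sqrt (fisher m ρ).toReal := by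
  obtain ⟨rs, Rel, R⟩ := hf_rs_exists m hfin hq
  exact FormB.hf_form_bound R h0 hB hI hu hu2 hs

theorem hf5_dom_of_fisher (hfin : FiniteOnBoundedSets m) (hq : QuadraticCheegerEnergy m) (h0 : ∀ᵐ x ∂m, 0 ≤ ρ x) (hB : ∀ᵐ x ∂m, ρ x ≤ B) (hI : fisher m ρ < ∞) :
    hf_Dom m ρ := by
  obtain ⟨rs, Rel, R⟩ := hf_rs_exists m hfin hq
  exact FormB.hf_dom_of_fisher R h0 hB hI

/-! ### HF6 -/

theorem hf6_heat_cont (hfin : FiniteOnBoundedSets m) (hq : QuadraticCheegerEnergy m) (hf : MemLp f 2 m) (s₀ : ℝ) :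
    Tendsto (fun s => eLpNorm (fun x => heatF m s f x - heatF m s₀ f x) 2 m) (𝓝 s₀) (𝓝 0) := by
  obtain ⟨rs, Rel, R⟩ := hf_rs_exists m hfin hq
  exact Basic.hf_heat_cont R hf s₀

theorem hf6_heat_cont_l1 (hfin : FiniteOnBoundedSets m) (hq : QuadraticCheegerEnergy m) (hG : GoodExp m o a) (hf : MemLp f 2 m)
    (hw : hf_wn m o a f < ∞) (s₀ : ℝ) :
    Tendsto (fun s => eLpNorm (fun x => heatF m s f x - heatF m s₀ f x) 1 m) (𝓝 s₀) (𝓝 0) := by
  obtain ⟨rs, Rel, R⟩ := hf_rs_exists m hfin hq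
  exact Cont.hf_heat_cont_l1 R hfin hG hf hw s₀

theorem hf6_sqrt_heat_cont (hfin : FiniteOnBoundedSets m) (hq : QuadraticCheegerEnergy m) (hG : GoodExp m o a) (h : NiceDens m o a B ρ) (s₀ : ℝ) :
    Tendsto (fun s => eLpNorm (fun x => Real.sqrt (heatF m s ρ x) - Real.sqrt (heatF m s₀ ρ x)) 2 m) (𝓝 s₀) (𝓝 0) := by
  obtain ⟨rs, Rel, R⟩ := hf_rs_exists m hfin hq
  exact Cont.hf_sqrt_heat_cont R hfin hG h s₀

/-! ### exports without the standing hypotheses, and in terms of the RS package -/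

/-- HF2, gradient part, for any instance of the RS package (`rs` = minimal relaxed slope) -/
theorem hf2_res_wgrad {rs : (X → ℝ) → X → ℝ} {Rel : (X → ℝ) → (X → ℝ) → Prop} (R : hf_RS m rs Rel) (hδ : 0 < δ)
    (ha : 0 ≤ a) (h4 : 4 * δ * a ^ 2 ≤ 1) (hf : MemLp f 2 m) (o : X) :
    ENNReal.ofReal δ * hf_wn m o a (rs (resF m δ f)) ≤ 4 * hf_wn m o a f :=
  Weight.hf_res_wgrad R hδ ha h4 hf o

theorem hf2_wn_lt_top_iff (hf : AEStronglyMeasurable f m) (o : X) (a : ℝ) :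
    hf_wn m o a f < ∞ ↔ Integrable (fun x => Real.exp (2 * a * dist x o) * f x ^ 2) m :=
  Weight.hf_wn_lt_top_iff hf o a

theorem hf3_integrable_of_wn (hG : GoodExp m o a) (hf : AEStronglyMeasurable f m) (hw : hf_wn m o a f < ∞) :
    Integrable f m := Mass.hf_integrable_of_wn hG hf hw

theorem hf3_sqrt_integrable (hG : GoodExp m o a) (hf : AEStronglyMeasurable f m) (h0 : ∀ᵐ x ∂m, 0 ≤ f x)
    (hw : hf_wn m o a f < ∞) : Integrable (fun x => Real.sqrt (f x)) m := Mass.hf_sqrt_integrable hG hf h0 hw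

theorem hf3_nice_memLp (ha : 0 ≤ a) (h : NiceDens m o a B ρ) : MemLp ρ 2 m := Mass.hf_nice_memLp ha h

theorem hf3_nice_wn (h : NiceDens m o a B ρ) : hf_wn m o a ρ < ∞ := Mass.hf_nice_wn h

theorem hf4_ent_integrable (hG : GoodExp m o a) (h : NiceDens m o a B ρ) :
    Integrable (fun x => ρ x * Real.log (ρ x)) m := Ent.hf_ent_integrable hG h

theorem hf4_e_integrable (hη : 0 < η) (hf : MemLp f 2 m) : Integrable (fun x => hf_e η (f x)) m :=
  Diss.hf_e_integrable hη hf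

/-- convexity of `e_η`, integrated -/
theorem hf4_Phi_convex (hη : 0 < η) (hf : MemLp f 2 m) (hg : MemLp g 2 m) :
    (∫ x, hf_e η (f x) ∂m) - (∫ x, hf_e η (g x) ∂m) ≤ ∫ x, hf_phi η (f x) * (f x - g x) ∂m :=
  Diss.hf_Phi_convex hη hf hg

theorem hf4_phi_of_nonneg {z : ℝ} (hη : 0 < η) (hz : 0 ≤ z) : hf_phi η z = Real.log (z + η) - Real.log η :=
  Fn1d.hf_phi_of_nonneg hη hz

theorem hf4_psi_of_nonneg {z : ℝ} (hη : 0 < η) (hz : 0 ≤ z) : hf_psi η z = Real.sqrt (z + η) - Real.sqrt η :=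
  Fn1d.hf_psi_of_nonneg hη hz

theorem hf4_e_of_nonneg {z : ℝ} (hη : 0 < η) (hz : 0 ≤ z) :
    hf_e η z = (z + η) * Real.log (z + η) - η * Real.log η - z - z * Real.log η := Fn1d.hf_e_of_nonneg hη hz

/-- Lipschitz functions with bounded support: hypotheses of `hf5_form_bound` -/
theorem hf5_lip_bdd_memLp (hfin : FiniteOnBoundedSets m) (hu : GloballyLipschitz u) {r : ℝ}
    (hsupp : ∀ x, r < dist x o → u x = 0) : MemLp u 2 m ∧ MemLp (hf_sl u) 2 m :=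
  FormB.hf_lip_bdd_memLp hfin hu hsupp

end Claimed.Agent.R210.HF.Ifc
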