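/-
Row 210 (S0432), layer HF, architect helper897.   File Markov (HF1): SUB-MARKOV PROPERTY and L¹-CONTRACTION of `J_δ = resF m δ` and `H_t = heatF m t`.
Tools: HF/Basic.lean (function level dictionary; black boxes even if still sorry), the package `R : hf_RS m rs Rel` (HF/Defs.lean).
-/
import Claimed.Agent.R210.HF.Basic

set_option autoImplicit false

open Claims.C0366 Claims.C0366.WeakHessian
open Claimed.Agent.R210.Defs Claimed.Agent.R210.Defs2 Claimed.Agent.R210.HS.Defs Claimed.Agent.R210.HF.Defs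
open Set Filter MeasureTheory
open scoped ENNReal NNReal Topology

open Claimed.Agent.R210.HF.Basic

namespace Claimed.Agent.R210.HF.Markov

variable {X : Type*} [MetricSpace X] [MeasurableSpace X] [BorelSpace X] {m : Measure X}
  {rs : (X → ℝ) → X → ℝ} {Rel : (X → ℝ) → (X → ℝ) → Prop} {f g u v : X → ℝ} {δ t s C : ℝ}

/-- **Truncation lemma.**  `ψ` 1-Lipschitz, `ψ 0 = 0`, and `|ψ (z) - y| ≤ |z - y|` for all `z` and all `y` in a set `S` containing a.e. value of `f`.  Then `ψ ∘ J_δ f = J_δ f` a.e.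
Proof: `u = resF m δ f`, `v = ψ ∘ u` is in `L²` (`|ψ z| ≤ |z|`; `MemLp.of_le`/`LipschitzWith.comp_memLp`), `Ch v ≤ Ch u` (`R.ch_contr`), `∫ (v - f)² ≤ ∫ (u - f)²` (`integral_mono_ae`, both integrable: squares of `L²` functions);
so the hypothesis of `hf_res_min_unique` holds (`add_le_add`, `ENNReal.ofReal_le_ofReal`, `div_le_div_of_nonneg_right`). -/
theorem hf_res_trunc (R : hf_RS m rs Rel) (hδ : 0 < δ) (hf : MemLp f 2 m) {ψ : ℝ → ℝ} (hψ : LipschitzWith 1 ψ)
    (h0 : ψ 0 = 0) {S : Set ℝ} (hS : ∀ᵐ x ∂m, f x ∈ S) (hψS : ∀ z, ∀ y ∈ S, |ψ z - y| ≤ |z - y|) :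
    (fun x => ψ (resF m δ f x)) =ᵐ[m] resF m δ f := by
  have hu : MemLp (resF m δ f) 2 m := hf_resF_memLp m δ f
  have hv : MemLp (fun x => ψ (resF m δ f x)) 2 m := hψ.comp_memLp h0 hu
  refine hf_res_min_unique R hδ hf hv ?_
  refine add_le_add (R.ch_contr ψ hψ h0 _ hu) (ENNReal.ofReal_le_ofReal ?_)
  refine div_le_div_of_nonneg_right ?_ (by positivity)
  refine integral_mono_ae (hv.sub hf).integrable_sq (hu.sub hf).integrable_sq ?_
  filter_upwards [hS] with x hx
  exact sq_le_sq.2 (hψS _ _ hx)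

/-- `hf_res_trunc` with `ψ z = min z C`, `S = Iic C`. -/
theorem hf_res_le (R : hf_RS m rs Rel) (hδ : 0 < δ) (hf : MemLp f 2 m) (hC : 0 ≤ C) (h : ∀ᵐ x ∂m, f x ≤ C) :
    ∀ᵐ x ∂m, resF m δ f x ≤ C := by
  have hψ : LipschitzWith 1 (fun z : ℝ => min z C) := LipschitzWith.id.min_const C
  have h1 := hf_res_trunc R hδ hf hψ (min_eq_left hC) (S := Iic C) h (by
    intro z y hy
    have hy' : y ≤ C := hy
    rcases le_total z C with hz | hz
    · rw [min_eq_left hz]
    · rw [min_eq_right hz, abs_of_nonneg (by linarith), abs_of_nonneg (by linarith)]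
      linarith)
  filter_upwards [h1] with x hx
  have hx' : min (resF m δ f x) C = resF m δ f x := hx
  rw [← hx']
  exact min_le_right _ _

/-- `hf_res_trunc` with `ψ z = max z (-C)`, `S = Ici (-C)`. -/
theorem hf_res_ge (R : hf_RS m rs Rel) (hδ : 0 < δ) (hf : MemLp f 2 m) (hC : 0 ≤ C) (h : ∀ᵐ x ∂m, -C ≤ f x) :
    ∀ᵐ x ∂m, -C ≤ resF m δ f x := by
  have hψ : LipschitzWith 1 (fun z : ℝ => max z (-C)) := LipschitzWith.id.max_const (-C)
  have h1 := hf_res_trunc R hδ hf hψ (max_eq_left (by linarith)) (S := Ici (-C)) h (by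
    intro z y hy
    have hy' : -C ≤ y := hy
    rcases le_total (-C) z with hz | hz
    · rw [max_eq_left hz]
    · rw [max_eq_right hz, abs_of_nonpos (by linarith), abs_of_nonpos (by linarith)]
      linarith)
  filter_upwards [h1] with x hx
  have hx' : max (resF m δ f x) (-C) = resF m δ f x := hx
  rw [← hx']
  exact le_max_right _ _

theorem hf_res_nonneg (R : hf_RS m rs Rel) (hδ : 0 < δ) (hf : MemLp f 2 m) (h : ∀ᵐ x ∂m, 0 ≤ f x) :
    ∀ᵐ x ∂m, 0 ≤ resF m δ f x := by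
  have := hf_res_ge R hδ hf le_rfl (by simpa using h)
  simpa using this

/-- iterates (induction on `k`; `Function.iterate_succ_apply'`, `hf_res_iter_memLp`) -/
theorem hf_res_iter_le (R : hf_RS m rs Rel) (hδ : 0 < δ) (hf : MemLp f 2 m) (hC : 0 ≤ C) (h : ∀ᵐ x ∂m, f x ≤ C)
    (k : ℕ) : ∀ᵐ x ∂m, (resF m δ)^[k] f x ≤ C := by
  induction k with
  | zero => simpa using h
  | succ k ih =>
    rw [Function.iterate_succ_apply']
    exact hf_res_le R hδ (hf_res_iter_memLp hf δ k) hC ih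

theorem hf_res_iter_ge (R : hf_RS m rs Rel) (hδ : 0 < δ) (hf : MemLp f 2 m) (hC : 0 ≤ C) (h : ∀ᵐ x ∂m, -C ≤ f x)
    (k : ℕ) : ∀ᵐ x ∂m, -C ≤ (resF m δ)^[k] f x := by
  induction k with
  | zero => simpa using h
  | succ k ih =>
    rw [Function.iterate_succ_apply']
    exact hf_res_ge R hδ (hf_res_iter_memLp hf δ k) hC ih

/-- an `L²`-convergent sequence has an a.e. convergent subsequence -/
theorem hf_closed_subseq {fs : ℕ → X → ℝ} (hfs : ∀ n, MemLp (fs n) 2 m) (hg : MemLp g 2 m)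
    (hlim : Tendsto (fun n => eLpNorm (fun x => fs n x - g x) 2 m) atTop (𝓝 0)) :
    ∃ ns : ℕ → ℕ, StrictMono ns ∧ ∀ᵐ x ∂m, Tendsto (fun i => fs (ns i) x) atTop (𝓝 (g x)) := by
  have h1 : TendstoInMeasure m fs atTop g :=
    tendstoInMeasure_of_tendsto_eLpNorm (by norm_num) (fun n => (hfs n).aestronglyMeasurable)
      hg.aestronglyMeasurable hlim
  exact h1.exists_seq_tendsto_ae

/-- a.e. inequalities pass to `L²` limits.   Proof: `tendstoInMeasure_of_tendsto_eLpNorm` (`2 ≠ 0`; a.e.-strong measurability from `MemLp`), `TendstoInMeasure.exists_seq_tendsto_ae`: a subsequence converges a.e.;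
`le_of_tendsto'` pointwise (`ae_all_iff` to swap `∀ n` and `∀ᵐ`). -/
theorem hf_closed_le {fs : ℕ → X → ℝ} (hfs : ∀ n, MemLp (fs n) 2 m) (hg : MemLp g 2 m)
    (hlim : Tendsto (fun n => eLpNorm (fun x => fs n x - g x) 2 m) atTop (𝓝 0))
    (h : ∀ n, ∀ᵐ x ∂m, fs n x ≤ C) : ∀ᵐ x ∂m, g x ≤ C := by
  obtain ⟨ns, -, hns⟩ := hf_closed_subseq hfs hg hlim
  have h' : ∀ᵐ x ∂m, ∀ n, fs n x ≤ C := ae_all_iff.2 h
  filter_upwards [hns, h'] with x hx hx'
  exact le_of_tendsto' hx (fun i => hx' (ns i))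

/-- same proof -/
theorem hf_closed_ge {fs : ℕ → X → ℝ} (hfs : ∀ n, MemLp (fs n) 2 m) (hg : MemLp g 2 m)
    (hlim : Tendsto (fun n => eLpNorm (fun x => fs n x - g x) 2 m) atTop (𝓝 0))
    (h : ∀ n, ∀ᵐ x ∂m, C ≤ fs n x) : ∀ᵐ x ∂m, C ≤ g x := by
  obtain ⟨ns, -, hns⟩ := hf_closed_subseq hfs hg hlim
  have h' : ∀ᵐ x ∂m, ∀ n, C ≤ fs n x := ae_all_iff.2 h
  filter_upwards [hns, h'] with x hx hx'
  exact ge_of_tendsto' hx (fun i => hx' (ns i))

/-- `t ≤ 0`: `hf_heat_of_nonpos`.  `t > 0`: `hf_heat_limit`, `hf_res_iter_le`, `hf_closed_le`. -/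
theorem hf_heat_le (R : hf_RS m rs Rel) (t : ℝ) (hf : MemLp f 2 m) (hC : 0 ≤ C) (h : ∀ᵐ x ∂m, f x ≤ C) :
    ∀ᵐ x ∂m, heatF m t f x ≤ C := by
  rcases le_or_gt t 0 with ht | ht
  · filter_upwards [hf_heat_of_nonpos ht hf, h] with x h1 h2
    rw [h1]
    exact h2
  · exact hf_closed_le (fun n => hf_res_iter_memLp hf _ _) (hf_heatF_memLp m t f) (hf_heat_limit R ht hf)
      (fun n => hf_res_iter_le R (by positivity) hf hC h _)

theorem hf_heat_ge (R : hf_RS m rs Rel) (t : ℝ) (hf : MemLp f 2 m) (hC : 0 ≤ C) (h : ∀ᵐ x ∂m, -C ≤ f x) :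
    ∀ᵐ x ∂m, -C ≤ heatF m t f x := by
  rcases le_or_gt t 0 with ht | ht
  · filter_upwards [hf_heat_of_nonpos ht hf, h] with x h1 h2
    rw [h1]
    exact h2
  · exact hf_closed_ge (fun n => hf_res_iter_memLp hf _ _) (hf_heatF_memLp m t f) (hf_heat_limit R ht hf)
      (fun n => hf_res_iter_ge R (by positivity) hf hC h _)

theorem hf_heat_nonneg (R : hf_RS m rs Rel) (t : ℝ) (hf : MemLp f 2 m) (h : ∀ᵐ x ∂m, 0 ≤ f x) :
    ∀ᵐ x ∂m, 0 ≤ heatF m t f x := by
  have := hf_heat_ge R t hf le_rfl (by simpa using h)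
  simpa using this

/-- local version of the `L¹` contraction on a measurable set of finite measure -/
theorem hf_res_l1_aux (R : hf_RS m rs Rel) (hδ : 0 < δ) (hf : MemLp f 2 m) (hfi : Integrable f m)
    {B : Set X} (hB : MeasurableSet B) (hmB : m B < ∞) :
    ∫⁻ x in B, ENNReal.ofReal |resF m δ f x| ∂m ≤ ∫⁻ x, ENNReal.ofReal |f x| ∂m := by
  have hu : MemLp (resF m δ f) 2 m := hf_resF_memLp m δ f
  set u := resF m δ f with hudef
  set u' := hu.aestronglyMeasurable.mk u with hu'def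
  have hu'm : StronglyMeasurable u' := hu.aestronglyMeasurable.stronglyMeasurable_mk
  have huu' : u =ᵐ[m] u' := hu.aestronglyMeasurable.ae_eq_mk
  have hsm : Measurable (fun x => Real.sign (u' x)) := by
    have h1 : Measurable Real.sign := by
      unfold Real.sign
      exact Measurable.ite measurableSet_Iio measurable_const
        (Measurable.ite measurableSet_Ioi measurable_const measurable_const)
    exact h1.comp hu'm.measurable
  have hs1 : ∀ r : ℝ, |Real.sign r| ≤ 1 := by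
    intro r
    rcases Real.sign_apply_eq r with h | h | h <;> rw [h] <;> norm_num
  have hs2 : ∀ r : ℝ, r * Real.sign r = |r| := by
    intro r
    rcases lt_trichotomy r 0 with h | h | h
    · rw [Real.sign_of_neg h, abs_of_neg h]; ring
    · rw [h]; simp
    · rw [Real.sign_of_pos h, abs_of_pos h]; ring
  set g : X → ℝ := B.indicator (fun x => Real.sign (u' x)) with hgdef
  have hg1 : ∀ x, |g x| ≤ 1 := by
    intro x
    by_cases hx : x ∈ B
    · rw [hgdef, Set.indicator_of_mem hx]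
      exact hs1 _
    · rw [hgdef, Set.indicator_of_notMem hx]
      norm_num
  have hg : MemLp g 2 m := by
    rw [hgdef, memLp_indicator_iff_restrict hB]
    have : IsFiniteMeasure (m.restrict B) := ⟨by rw [Measure.restrict_apply_univ]; exact hmB⟩
    exact MemLp.of_bound hsm.aestronglyMeasurable 1 (Filter.Eventually.of_forall fun x => by
      rw [Real.norm_eq_abs]; exact hs1 _)
  have hle : ∀ᵐ x ∂m, resF m δ g x ≤ 1 :=
    hf_res_le R hδ hg zero_le_one (Filter.Eventually.of_forall fun x => (abs_le.1 (hg1 x)).2)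
  have hge : ∀ᵐ x ∂m, -1 ≤ resF m δ g x :=
    hf_res_ge R hδ hg zero_le_one (Filter.Eventually.of_forall fun x => (abs_le.1 (hg1 x)).1)
  have hsymm : ∫ x, u x * g x ∂m = ∫ x, f x * resF m δ g x ∂m := hf_res_symm R hδ hf hg
  have hJg : MemLp (resF m δ g) 2 m := hf_resF_memLp m δ g
  have h1 : ∫ x, f x * resF m δ g x ∂m ≤ ∫ x, |f x| ∂m := by
    refine integral_mono_ae (hf.integrable_mul hJg) hfi.abs ?_
    filter_upwards [hle, hge] with x hx1 hx2
    have : |f x * resF m δ g x| ≤ |f x| := by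
      rw [abs_mul]
      exact mul_le_of_le_one_right (abs_nonneg _) (abs_le.2 ⟨hx2, hx1⟩)
    exact (le_abs_self _).trans this
  have h2 : ∫ x, u x * g x ∂m = ∫ x in B, |u x| ∂m := by
    rw [← integral_indicator hB]
    refine integral_congr_ae ?_
    filter_upwards [huu'] with x hx
    by_cases hxB : x ∈ B
    · rw [hgdef, Set.indicator_of_mem hxB, Set.indicator_of_mem hxB, hx]
      exact hs2 _
    · rw [hgdef, Set.indicator_of_notMem hxB, Set.indicator_of_notMem hxB, mul_zero]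
  have huB : IntegrableOn u B m := by
    have : IsFiniteMeasure (m.restrict B) := ⟨by rw [Measure.restrict_apply_univ]; exact hmB⟩
    exact (hu.restrict B).integrable (by norm_num)
  rw [← ofReal_integral_eq_lintegral_ofReal huB.abs (Filter.Eventually.of_forall fun x => abs_nonneg _),
    ← ofReal_integral_eq_lintegral_ofReal hfi.abs (Filter.Eventually.of_forall fun x => abs_nonneg _)]
  apply ENNReal.ofReal_le_ofReal
  rw [← h2, hsymm]
  exact h1

/-- **`L¹` contraction of the resolvent.**   If `∫⁻ |f| = ∞` nothing to prove.  Otherwise `f` is integrable.  Let `u = resF m δ f`, `o : X` any point (if `X` is empty everything is `0`), `g_R = sign(u) 1_{ball o R}`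
(`Real.sign`; measurable after replacing `u` by `hu.aestronglyMeasurable.mk`, or use `SignType.sign`): `g_R ∈ L²` because `m (ball o R) < ∞` (`hfin`), `|g_R| ≤ 1`, so `|resF m δ g_R| ≤ 1` a.e. (`hf_res_le`, `hf_res_ge` with `C = 1`) and
`∫_{ball o R} |u| = ∫ u g_R = ∫ f * resF m δ g_R ≤ ∫ |f|` (`hf_res_symm`).   Let `R = n → ∞`: monotone convergence (`lintegral_iSup`/`lintegral_tendsto_of_tendsto_of_monotone`; the balls exhaust `X`). -/
theorem hf_res_l1 (R : hf_RS m rs Rel) (hfin : FiniteOnBoundedSets m) (hδ : 0 < δ) (hf : MemLp f 2 m) :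
    ∫⁻ x, ENNReal.ofReal |resF m δ f x| ∂m ≤ ∫⁻ x, ENNReal.ofReal |f x| ∂m := by
  by_cases hI : ∫⁻ x, ENNReal.ofReal |f x| ∂m = ∞
  · rw [hI]
    exact le_top
  have hfi : Integrable f m := by
    refine ⟨hf.aestronglyMeasurable, ?_⟩
    rw [hasFiniteIntegral_iff_norm]
    simp only [Real.norm_eq_abs]
    exact lt_top_iff_ne_top.2 hI
  rcases isEmpty_or_nonempty X with hX | ⟨⟨o⟩⟩
  · rw [Measure.eq_zero_of_isEmpty m]
    simp
  set ν : Measure X := m.withDensity (fun x => ENNReal.ofReal |resF m δ f x|) with hν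
  have hmono : Monotone (fun n : ℕ => Metric.ball o (n : ℝ)) := by
    intro a b hab
    exact Metric.ball_subset_ball (by exact_mod_cast hab)
  have h1 : ν Set.univ = ⨆ n : ℕ, ν (Metric.ball o (n : ℝ)) := by
    rw [← Metric.iUnion_ball_nat o]
    exact hmono.measure_iUnion
  have h2 : ν Set.univ = ∫⁻ x, ENNReal.ofReal |resF m δ f x| ∂m := by
    rw [hν, withDensity_apply _ MeasurableSet.univ, Measure.restrict_univ]
  rw [← h2, h1]
  refine iSup_le fun n => ?_
  rw [hν, withDensity_apply _ Metric.isOpen_ball.measurableSet]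
  exact hf_res_l1_aux R hδ hf hfi Metric.isOpen_ball.measurableSet (hfin _ Metric.isBounded_ball)

theorem hf_res_iter_l1 (R : hf_RS m rs Rel) (hfin : FiniteOnBoundedSets m) (hδ : 0 < δ) (hf : MemLp f 2 m) (k : ℕ) :
    ∫⁻ x, ENNReal.ofReal |(resF m δ)^[k] f x| ∂m ≤ ∫⁻ x, ENNReal.ofReal |f x| ∂m := by
  induction k with
  | zero => exact le_rfl
  | succ k ih =>
    rw [Function.iterate_succ_apply']
    exact (hf_res_l1 R hfin hδ (hf_res_iter_memLp hf δ k)).trans ih

/-- `L¹` bounds pass to `L²` limits: a.e. convergent subsequence (as in `hf_closed_le`) + Fatou (`lintegral_liminf_le'`). -/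
theorem hf_closed_l1 {fs : ℕ → X → ℝ} (hfs : ∀ n, MemLp (fs n) 2 m) (hg : MemLp g 2 m)
    (hlim : Tendsto (fun n => eLpNorm (fun x => fs n x - g x) 2 m) atTop (𝓝 0)) {c : ℝ≥0∞}
    (h : ∀ n, ∫⁻ x, ENNReal.ofReal |fs n x| ∂m ≤ c) : ∫⁻ x, ENNReal.ofReal |g x| ∂m ≤ c := by
  obtain ⟨ns, -, hns⟩ := hf_closed_subseq hfs hg hlim
  have hmeas : ∀ i, AEMeasurable (fun x => ENNReal.ofReal |fs (ns i) x|) m := fun i =>
    ((hfs (ns i)).aestronglyMeasurable.aemeasurable.abs).ennreal_ofReal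
  have h1 : ∫⁻ x, ENNReal.ofReal |g x| ∂m
      = ∫⁻ x, liminf (fun i => ENNReal.ofReal |fs (ns i) x|) atTop ∂m := by
    apply lintegral_congr_ae
    filter_upwards [hns] with x hx
    have : Tendsto (fun i => ENNReal.ofReal |fs (ns i) x|) atTop (𝓝 (ENNReal.ofReal |g x|)) :=
      (ENNReal.continuous_ofReal.tendsto _).comp hx.abs
    exact this.liminf_eq.symm
  rw [h1]
  refine (lintegral_liminf_le' hmeas).trans ?_
  refine liminf_le_of_le (by isBoundedDefault) ?_
  intro b hb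
  obtain ⟨i, hi⟩ := hb.exists
  exact hi.trans (h (ns i))

theorem hf_heat_l1 (R : hf_RS m rs Rel) (hfin : FiniteOnBoundedSets m) (t : ℝ) (hf : MemLp f 2 m) :
    ∫⁻ x, ENNReal.ofReal |heatF m t f x| ∂m ≤ ∫⁻ x, ENNReal.ofReal |f x| ∂m := by
  rcases le_or_gt t 0 with ht | ht
  · refine le_of_eq (lintegral_congr_ae ?_)
    filter_upwards [hf_heat_of_nonpos ht hf] with x h1
    rw [h1]
  · exact hf_closed_l1 (fun n => hf_res_iter_memLp hf _ _) (hf_heatF_memLp m t f) (hf_heat_limit R ht hf)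
      (fun n => hf_res_iter_l1 R hfin (by positivity) hf _)

end Claimed.Agent.R210.HF.Markov
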